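import Vale.Agent.P216.Family

/-!
Deforming a neighbourhood of `M` into `G`, cell by cell of a fine grid.
-/

namespace Vale.Agent.P216

open Metric Set Filter Topology
open scoped RealInnerProductSpace ContDiff

set_option linter.unusedSectionVars false

variable {N : ℕ}

/-- A cell: a lattice point and a set of free directions. -/
abbrev Cell (N : ℕ) : Type := (Fin N → ℤ) × Finset (Fin N)

/-- The points of a cell of size `s`. -/
def cellSet (s : ℝ) (c : Cell N) : Set (Euc N) :=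
  {y | ∀ i, (i ∈ c.2 → s * c.1 i ≤ y i ∧ y i ≤ s * (c.1 i + 1)) ∧ (i ∉ c.2 → y i = s * c.1 i)}

/-- `d` is a face of `c`. -/
def IsFace (d c : Cell N) : Prop :=
  d.2 ⊆ c.2 ∧ (∀ i ∈ d.2, d.1 i = c.1 i) ∧
    (∀ i ∈ c.2, i ∉ d.2 → d.1 i = c.1 i ∨ d.1 i = c.1 i + 1) ∧ ∀ i, i ∉ c.2 → d.1 i = c.1 i

/-- The coordinates in a cell. -/
noncomputable def cellCoord (s : ℝ) (c : Cell N) (y : Euc N) : Fin N → ℝ :=
  fun i => if i ∈ c.2 then 2 * (y i / s - c.1 i) - 1 else 0

/-- The point with given coordinates in a cell. -/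
noncomputable def cellPoint (s : ℝ) (c : Cell N) (w : Fin N → ℝ) : Euc N :=
  WithLp.toLp 2 fun i => if i ∈ c.2 then s * (c.1 i + (w i + 1) / 2) else s * c.1 i

lemma cellPoint_apply (s : ℝ) (c : Cell N) (w : Fin N → ℝ) (i : Fin N) :
    cellPoint s c w i = if i ∈ c.2 then s * (c.1 i + (w i + 1) / 2) else s * c.1 i := rfl

lemma continuous_cellPoint (s : ℝ) (c : Cell N) : Continuous (cellPoint s c) := by
  refine (PiLp.continuous_toLp 2 _).comp (continuous_pi fun i => ?_)
  split_ifs <;> fun_prop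

lemma continuous_cellCoord (s : ℝ) (c : Cell N) : Continuous (cellCoord s c) := by
  refine continuous_pi fun i => ?_
  unfold cellCoord
  split_ifs <;> fun_prop

lemma continuous_coord (i : Fin N) : Continuous fun y : Euc N => y i :=
  PiLp.continuous_apply 2 (fun _ : Fin N => ℝ) i

lemma cellPoint_coord {s : ℝ} (hs : 0 < s) {c : Cell N} {y : Euc N} (hy : y ∈ cellSet s c) :
    cellPoint s c (cellCoord s c y) = y := by
  ext i
  rw [cellPoint_apply, cellCoord]
  split_ifs with hi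
  · field_simp; ring
  · exact ((hy i).2 hi).symm

lemma norm_coord_le {s : ℝ} (hs : 0 < s) {c : Cell N} {y : Euc N} (hy : y ∈ cellSet s c) :
    ‖cellCoord s c y‖ ≤ 1 := by
  refine (pi_norm_le_iff_of_nonneg zero_le_one).2 fun i => ?_
  unfold cellCoord
  split_ifs with hi
  · obtain ⟨h1, h2⟩ := (hy i).1 hi
    rw [Real.norm_eq_abs, abs_le]
    have e1 : (c.1 i : ℝ) ≤ y i / s := (le_div_iff₀ hs).2 (by linarith)
    have e2 : y i / s ≤ c.1 i + 1 := (div_le_iff₀ hs).2 (by linarith)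
    constructor <;> linarith
  · simp

lemma cellPoint_mem {s : ℝ} (hs : 0 < s) (c : Cell N) {w : Fin N → ℝ} (hw : ‖w‖ ≤ 1) :
    cellPoint s c w ∈ cellSet s c := by
  intro i
  have h := abs_le.1 ((norm_le_pi_norm w i).trans hw)
  rw [cellPoint_apply]
  refine ⟨fun hi => ?_, fun hi => by rw [if_neg hi]⟩
  rw [if_pos hi]
  constructor <;> nlinarith

lemma isClosed_cellSet (s : ℝ) (c : Cell N) : IsClosed (cellSet s c) := by
  simp only [cellSet, ofPred_forall, ofPred_and]
  refine isClosed_iInter fun i => IsClosed.inter ?_ ?_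
  · by_cases hi : i ∈ c.2
    · simp only [hi, true_implies, iInter_true]
      exact (isClosed_le continuous_const (continuous_coord i)).inter
        (isClosed_le (continuous_coord i) continuous_const)
    · simp [hi]
  · by_cases hi : i ∈ c.2
    · simp [hi]
    · simpa [hi] using isClosed_eq (continuous_coord i) (continuous_const (y := s * c.1 i))

lemma face_subset {s : ℝ} (hs : 0 ≤ s) {d c : Cell N} (h : IsFace d c) :
    cellSet s d ⊆ cellSet s c := by
  intro y hy i
  obtain ⟨h1, h2, h3, h4⟩ := h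
  refine ⟨fun hi => ?_, fun hi => ?_⟩
  · by_cases hid : i ∈ d.2
    · obtain ⟨e1, e2⟩ := (hy i).1 hid
      rw [h2 i hid] at e1 e2
      exact ⟨e1, e2⟩
    · rw [(hy i).2 hid]
      rcases h3 i hi hid with e | e <;> rw [e] <;> push_cast <;> constructor <;> nlinarith
  · rw [(hy i).2 fun hid => hi (h1 hid), h4 i hi]

/-- A boundary point of a cell lies in a proper face. -/
lemma boundary_face {s : ℝ} (hs : 0 < s) (c : Cell N) {w : Fin N → ℝ} (hw : ‖w‖ = 1)
    (hsupp : ∀ i, i ∉ c.2 → w i = 0) :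
    ∃ d, IsFace d c ∧ d ≠ c ∧ cellPoint s c w ∈ cellSet s d := by
  obtain ⟨i, hi⟩ : ∃ i, |w i| = 1 := by
    by_contra hne
    push Not at hne
    have : ‖w‖ < 1 := (pi_norm_lt_iff zero_lt_one).2 fun i =>
      lt_of_le_of_ne ((norm_le_pi_norm w i).trans hw.le) (hne i)
    linarith
  have hic : i ∈ c.2 := by
    by_contra h
    rw [hsupp i h, abs_zero] at hi
    exact zero_ne_one hi
  obtain ⟨v, hv, hvw⟩ : ∃ v : ℤ, (v = c.1 i ∨ v = c.1 i + 1) ∧
      s * (c.1 i + (w i + 1) / 2) = s * v := by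
    rcases (abs_eq zero_le_one).1 hi with h | h
    · exact ⟨c.1 i + 1, Or.inr rfl, by rw [h]; push_cast; ring⟩
    · exact ⟨c.1 i, Or.inl rfl, by rw [h]; ring⟩
  refine ⟨(Function.update c.1 i v, c.2.erase i), ⟨Finset.erase_subset _ _, fun j hj => ?_,
    fun j hj hj' => ?_, fun j hj => ?_⟩, fun he => ?_, fun j => ?_⟩
  · exact Function.update_of_ne (Finset.ne_of_mem_erase hj) _ _
  · have : j = i := by simpa [Finset.mem_erase, hj] using hj'
    subst this
    simpa using hv
  · exact Function.update_of_ne (fun (e : j = i) => hj (e ▸ hic)) _ _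
  · have h2 : c.2.erase i = c.2 := congr_arg Prod.snd he
    exact Finset.erase_eq_self.1 h2 hic
  · have hm := cellPoint_mem hs c hw.le j
    rcases eq_or_ne j i with rfl | hji
    · refine ⟨fun hj => absurd hj (Finset.notMem_erase _ _), fun _ => ?_⟩
      rw [cellPoint_apply, if_pos hic, hvw]
      simp
    · simpa [hji] using hm

/-- Two different cells, the first of no larger dimension, meet only on the boundary of the second. -/
lemma inter_boundary {s : ℝ} (hs : 0 < s) {d c : Cell N} (hne : d ≠ c) (hcard : d.2.card ≤ c.2.card)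
    {y : Euc N} (hyd : y ∈ cellSet s d) (hyc : y ∈ cellSet s c) : ‖cellCoord s c y‖ = 1 := by
  refine le_antisymm (norm_coord_le hs hyc) (not_lt.1 fun hlt => hne ?_)
  have hin : ∀ i ∈ c.2, (c.1 i : ℝ) < y i / s ∧ y i / s < c.1 i + 1 := fun i hi => by
    have h := (norm_le_pi_norm (cellCoord s c y) i).trans_lt hlt
    simp only [cellCoord, hi, if_true, Real.norm_eq_abs, abs_lt] at h
    constructor <;> linarith
  have hmem : ∀ i ∈ c.2, i ∈ d.2 ∧ d.1 i = c.1 i := fun i hi => by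
    obtain ⟨a, b⟩ := hin i hi
    have hid : i ∈ d.2 := by
      by_contra hnd
      rw [(hyd i).2 hnd, mul_div_cancel_left₀ _ hs.ne'] at a b
      have a' : c.1 i < d.1 i := by exact_mod_cast a
      have b' : d.1 i < c.1 i + 1 := (Int.cast_lt (R := ℝ)).1 (by push_cast; exact b)
      omega
    obtain ⟨e1, e2⟩ := (hyd i).1 hid
    have e1' : (d.1 i : ℝ) ≤ y i / s := (le_div_iff₀ hs).2 (by linarith)
    have e2' : y i / s ≤ d.1 i + 1 := (div_le_iff₀ hs).2 (by linarith)
    have f1 : c.1 i < d.1 i + 1 := (Int.cast_lt (R := ℝ)).1 (by push_cast; exact a.trans_le e2')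
    have f2 : d.1 i < c.1 i + 1 := (Int.cast_lt (R := ℝ)).1 (by push_cast; exact e1'.trans_lt b)
    exact ⟨hid, by omega⟩
  have hJ : c.2 = d.2 := Finset.eq_of_subset_of_card_le (fun i hi => (hmem i hi).1) hcard
  refine Prod.ext (funext fun i => ?_) hJ.symm
  by_cases hi : i ∈ c.2
  · exact (hmem i hi).2
  · have h1 := (hyc i).2 hi
    rw [(hyd i).2 (hJ ▸ hi)] at h1
    exact_mod_cast mul_left_cancel₀ hs.ne' h1

/-- The deformation of the union of a family of cells. -/
def CellDef (M G : Set (Euc N)) (S : Tube M) (s : ℝ) (C : Finset (Cell N)) : Prop :=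
  ∃ H : Euc N × ℝ → Euc N, ContinuousOn H ((⋃ c ∈ C, cellSet s c) ×ˢ Icc (0 : ℝ) 1) ∧
    ∀ c ∈ C, ∀ y ∈ cellSet s c, H (y, 0) = S.r y ∧ H (y, 1) ∈ G ∧
      ∀ u ∈ Icc (0 : ℝ) 1, H (y, u) ∈ M

/-- Extension over one more cell. -/
lemma extend {M G : Set (Euc N)} (S : Tube M) (hM : IsPreconnected M) (hGM : G ⊆ M)
    (hGne : G.Nonempty)
    (hshrink : ∀ Y : Set (Fin N → ℝ), IsCompact Y → ∀ f : (Fin N → ℝ) × ℝ → Euc N,
      ContinuousOn f (Y ×ˢ Icc (0 : ℝ) 1) → (∀ p ∈ Y ×ˢ Icc (0 : ℝ) 1, f p ∈ M) →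
        (∀ y ∈ Y, f (y, 0) ∈ G ∧ f (y, 1) ∈ G) →
          ∃ g, Deform M G Y f g ∧ ∀ p ∈ Y ×ˢ Icc (0 : ℝ) 1, g p ∈ G)
    {s : ℝ} (hs : 0 < s) {C : Finset (Cell N)} (hC : CellDef M G S s C) {c : Cell N}
    (hcU : cellSet s c ⊆ S.U) (hnot : c ∉ C) (hdim : ∀ d ∈ C, d.2.card ≤ c.2.card)
    (hfaces : ∀ d, IsFace d c → d ≠ c → d ∈ C) : CellDef M G S s (insert c C) := by
  obtain ⟨H, hH, hHp⟩ := hC
  set I : Set ℝ := Icc 0 1
  have hI0 : (0 : ℝ) ∈ I := left_mem_Icc.2 zero_le_one
  have hI1 : (1 : ℝ) ∈ I := right_mem_Icc.2 zero_le_one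
  set old := ⋃ d ∈ C, cellSet s d
  have hbd : ∀ w : Fin N → ℝ, ‖w‖ = 1 → (∀ i, i ∉ c.2 → w i = 0) → ∃ d ∈ C,
      cellPoint s c w ∈ cellSet s d := fun w hw hsupp => by
    obtain ⟨d, hd, hne, hm⟩ := boundary_face hs c hw hsupp
    exact ⟨d, hfaces d hd hne, hm⟩
  suffices h : ∃ K : Euc N × ℝ → Euc N, ContinuousOn K (cellSet s c ×ˢ I) ∧
      ∀ y ∈ cellSet s c, K (y, 0) = S.r y ∧ K (y, 1) ∈ G ∧ (∀ u ∈ I, K (y, u) ∈ M) ∧
        (‖cellCoord s c y‖ = 1 → ∀ u ∈ I, K (y, u) = H (y, u)) by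
    obtain ⟨K, hK, hKp⟩ := h
    classical
    refine ⟨fun p => if p.1 ∈ cellSet s c then K p else H p, ?_, fun d hd y hy => ?_⟩
    · rw [Finset.set_biUnion_insert, union_prod]
      refine ContinuousOn.union_of_isClosed (hK.congr fun p hp => if_pos hp.1) (hH.congr ?_)
        ((isClosed_cellSet s c).prod isClosed_Icc)
        ((isClosed_biUnion_finset fun d _ => isClosed_cellSet s d).prod isClosed_Icc)
      intro p hp
      dsimp only
      split_ifs with hpc
      · obtain ⟨d, hd, hpd⟩ := mem_iUnion₂.1 hp.1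
        exact (hKp p.1 hpc).2.2.2
          (inter_boundary hs (fun e => hnot (by rw [← e]; exact hd)) (hdim d hd) hpd hpc) p.2 hp.2
      · rfl
    · dsimp only
      by_cases hyc : y ∈ cellSet s c
      · simp only [hyc, if_true]
        exact ⟨(hKp y hyc).1, (hKp y hyc).2.1, (hKp y hyc).2.2.1⟩
      · simp only [hyc, if_false]
        rcases Finset.mem_insert.1 hd with rfl | hd
        · exact absurd hy hyc
        · exact hHp d hd y hy
  rcases c.2.eq_empty_or_nonempty with hJ | ⟨i0, hi0⟩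
  · -- a vertex
    have hy : ∀ y ∈ cellSet s c, y = cellPoint s c 0 := fun y hy => by
      ext i; rw [cellPoint_apply]; simp [hJ, (hy i).2 (by simp [hJ])]
    obtain ⟨g, hg⟩ := hGne
    obtain ⟨L, γ, hγ, hγm, hγ0, hγ1⟩ :=
      S.joined hM (S.mem _ (hcU (cellPoint_mem hs c (w := 0) (by simp)))) (hGM hg)
    refine ⟨fun p => γ p.2, (hγ.continuous.comp continuous_snd).continuousOn, fun y hy' =>
      ⟨by simp [hγ0, hy y hy'], by simpa [hγ1] using hg, fun u _ => hγm u, fun hn => ?_⟩⟩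
    have hz : cellCoord s c y = 0 := by ext i; simp [cellCoord, hJ]
    simp [hz] at hn
  set C2 : Set (Fin N → ℝ) := {z | ‖z‖ ≤ 2 ∧ ∀ i, i ∉ c.2 → z i = 0}
  classical
  set f : (Fin N → ℝ) → Euc N := fun z =>
    if ‖z‖ ≤ 1 then S.r (cellPoint s c z) else H (cellPoint s c (‖z‖⁻¹ • z), ‖z‖ - 1) with hf
  have hunit : ∀ z ∈ C2, 1 ≤ ‖z‖ → ‖‖z‖⁻¹ • z‖ = 1 ∧ ∀ i, i ∉ c.2 → (‖z‖⁻¹ • z) i = 0 :=
    fun z hz h1 => ⟨norm_smul_inv_norm (norm_pos_iff.1 (by linarith)), fun i hi => by
      simp [hz.2 i hi]⟩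
  have hfH : ∀ z ∈ C2, 1 ≤ ‖z‖ → f z = H (cellPoint s c (‖z‖⁻¹ • z), ‖z‖ - 1) := by
    intro z hz h1
    simp only [hf]
    split_ifs with h
    · have he : ‖z‖ = 1 := le_antisymm h h1
      obtain ⟨d, hd, hm⟩ := hbd z he hz.2
      rw [he, inv_one, one_smul, sub_self, (hHp d hd _ hm).1]
    · rfl
  have hfc : ContinuousOn f C2 := by
    have e : C2 ⊆ (C2 ∩ {z | ‖z‖ ≤ 1}) ∪ (C2 ∩ {z | 1 ≤ ‖z‖}) := fun z hz =>
      (le_total ‖z‖ 1).imp (fun h => ⟨hz, h⟩) fun h => ⟨hz, h⟩
    have hC2 : IsClosed C2 := by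
      simp only [C2, ofPred_and, ofPred_forall]
      exact (isClosed_le continuous_norm continuous_const).inter (isClosed_iInter fun i =>
        isClosed_iInter fun _ => isClosed_eq (continuous_apply i) continuous_const)
    refine (ContinuousOn.union_of_isClosed ?_ ?_ (hC2.inter (isClosed_le continuous_norm continuous_const))
      (hC2.inter (isClosed_le continuous_const continuous_norm))).mono e
    · refine (S.smooth.continuousOn.comp (continuous_cellPoint s c).continuousOn fun z hz =>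
        hcU (cellPoint_mem hs c hz.2)).congr fun z hz => if_pos hz.2
    · refine ContinuousOn.congr ?_ fun z hz => hfH z hz.1 hz.2
      refine hH.comp (((continuous_cellPoint s c).comp_continuousOn
        ((continuous_norm.continuousOn.inv₀ fun z hz => by
          have h1 : (1 : ℝ) ≤ ‖z‖ := hz.2
          linarith).smul continuousOn_id)).prodMk (continuous_norm.continuousOn.sub continuousOn_const))
        fun z hz => ?_
      obtain ⟨d, hd, hm⟩ := hbd _ (hunit z hz.1 hz.2).1 (hunit z hz.1 hz.2).2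
      exact ⟨mem_biUnion hd hm, by linarith [hz.2.out], by linarith [hz.1.1]⟩
  have hfm : ∀ z ∈ C2, f z ∈ M ∧ (‖z‖ = 2 → f z ∈ G) := by
    intro z hz
    rcases le_or_gt ‖z‖ 1 with h | h
    · exact ⟨by simp only [hf, h, if_true]; exact S.mem _ (hcU (cellPoint_mem hs c h)),
        fun h2 => by linarith⟩
    · obtain ⟨d, hd, hm⟩ := hbd _ (hunit z hz h.le).1 (hunit z hz h.le).2
      rw [hfH z hz h.le]
      refine ⟨(hHp d hd _ hm).2.2 _ ⟨by linarith, by linarith [hz.1]⟩, fun h2 => ?_⟩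
      rw [show ‖z‖ - 1 = 1 by linarith]
      exact (hHp d hd _ hm).2.1
  -- fibres in the direction `i0`
  set Y : Set (Fin N → ℝ) := C2 ∩ {z | z i0 = 0}
  have hY : IsCompact Y := by
    refine (isCompact_closedBall (0 : Fin N → ℝ) 2).of_isClosed_subset ?_ fun z hz => by
      simpa using hz.1.1
    simp only [Y, C2, ofPred_and, ofPred_forall]
    exact ((isClosed_le continuous_norm continuous_const).inter (isClosed_iInter fun i =>
      isClosed_iInter fun _ => isClosed_eq (continuous_apply i) continuous_const)).inter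
        (isClosed_eq (continuous_apply i0) continuous_const)
  have hup : ∀ p ∈ Y ×ˢ I, Function.update p.1 i0 (4 * p.2 - 2) ∈ C2 := by
    intro p hp
    refine ⟨(pi_norm_le_iff_of_nonneg (by norm_num)).2 fun i => ?_, fun i hi => ?_⟩
    · rcases eq_or_ne i i0 with rfl | hne
      · rw [Function.update_self, Real.norm_eq_abs, abs_le]
        constructor <;> linarith [hp.2.1, hp.2.2]
      · rw [Function.update_of_ne hne]
        exact (norm_le_pi_norm p.1 i).trans hp.1.1.1
    · rw [Function.update_of_ne fun e => hi (by rw [e]; exact hi0)]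
      exact hp.1.1.2 i hi
  have hfull : ∀ z ∈ C2, (∃ i, 2 ≤ |z i|) → f z ∈ G := fun z hz hi =>
    (hfm z hz).2 (le_antisymm hz.1 (hi.choose_spec.trans (norm_le_pi_norm z _)))
  obtain ⟨g, ⟨K, hK, hKp, hKy⟩, hg⟩ := hshrink Y hY (fun p => f (Function.update p.1 i0 (4 * p.2 - 2)))
    (hfc.comp ((continuous_fst (X := Fin N → ℝ) (Y := ℝ)).update i0
      ((continuous_const.mul continuous_snd).sub continuous_const)).continuousOn hup) (fun p hp => (hfm _ (hup p hp)).1)
    (fun y hy => ⟨hfull _ (hup (y, 0) ⟨hy, hI0⟩) ⟨i0, by norm_num⟩,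
      hfull _ (hup (y, 1) ⟨hy, hI1⟩) ⟨i0, by norm_num⟩⟩)
  set z : Euc N × ℝ → Fin N → ℝ := fun p =>
    ((1 + p.2) * (1 + 2 * p.2) / max (1 + p.2) ((1 + 2 * p.2) * ‖cellCoord s c p.1‖)) •
      cellCoord s c p.1 with hz
  set σ : Euc N × ℝ → ℝ := fun p => p.2 * min 1 (3 * (1 - ‖cellCoord s c p.1‖)) with hσ
  set q : Euc N × ℝ → ((Fin N → ℝ) × ℝ) × ℝ := fun p =>
    ((Function.update (z p) i0 0, (z p i0 + 2) / 4), σ p) with hq
  have hzn : ∀ p ∈ cellSet s c ×ˢ I, ‖z p‖ =
      (1 + p.2) * (1 + 2 * p.2) / max (1 + p.2) ((1 + 2 * p.2) * ‖cellCoord s c p.1‖) *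
        ‖cellCoord s c p.1‖ := fun p hp => by
    have := hp.2.1
    simp only [hz, norm_smul, Real.norm_eq_abs]
    rw [abs_of_nonneg (div_nonneg (by positivity) ((show (0:ℝ) ≤ 1 + p.2 by linarith).trans (le_max_left _ _)))]
  have hz2 : ∀ p ∈ cellSet s c ×ˢ I, z p ∈ C2 := fun p hp => by
    refine ⟨?_, fun i hi => by simp [hz, cellCoord, hi]⟩
    rw [hzn p hp, div_mul_eq_mul_div, div_le_iff₀ (lt_max_of_lt_left (by linarith [hp.2.1]))]
    have h1 := le_max_right (1 + p.2) ((1 + 2 * p.2) * ‖cellCoord s c p.1‖)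
    have h2 : (1 + p.2) * ((1 + 2 * p.2) * ‖cellCoord s c p.1‖) ≤
        2 * max (1 + p.2) ((1 + 2 * p.2) * ‖cellCoord s c p.1‖) :=
      mul_le_mul (by linarith [hp.2.2]) h1
        (mul_nonneg (by linarith [hp.2.1]) (norm_nonneg _)) (by norm_num)
    linarith
  have hqm : ∀ p ∈ cellSet s c ×ˢ I, q p ∈ (Y ×ˢ I) ×ˢ I := fun p hp => by
    obtain ⟨z1, z2⟩ := hz2 p hp
    have hzi := abs_le.1 ((norm_le_pi_norm (z p) i0).trans z1)
    have hρ := norm_coord_le hs hp.1
    refine ⟨⟨⟨⟨(pi_norm_le_iff_of_nonneg (by norm_num)).2 fun i => ?_, fun i hi => ?_⟩, by simp [hq]⟩,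
      ⟨by simp only [hq]; linarith, by simp only [hq]; linarith⟩⟩, ?_, ?_⟩
    · simp only [hq]
      rcases eq_or_ne i i0 with rfl | hne
      · simp
      · rw [Function.update_of_ne hne]; exact (norm_le_pi_norm _ i).trans z1
    · simp only [hq]
      rw [Function.update_of_ne fun e => hi (by rw [e]; exact hi0)]; exact z2 i hi
    · exact mul_nonneg hp.2.1 (le_min zero_le_one (by linarith))
    · exact (mul_le_mul hp.2.2 (min_le_left _ _) (le_min zero_le_one (by linarith)) zero_le_one).trans_eq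
        (one_mul _)
  have hback : ∀ p, Function.update (q p).1.1 i0 (4 * (q p).1.2 - 2) = z p := fun p => by
    simp only [hq, Function.update_idem]
    rw [show 4 * ((z p i0 + 2) / 4) - 2 = z p i0 by ring, Function.update_eq_self]
  have hfix : ∀ p ∈ cellSet s c ×ˢ I, σ p = 0 → K (q p) = f (z p) := fun p hp h0 => by
    have h := (hKp (q p).1 (hqm p hp).1).1
    rw [show q p = ((q p).1, 0) from Prod.ext rfl (by simpa [hq] using h0)]
    exact h.trans (congrArg f (hback p))
  refine ⟨fun p => K (q p), ?_, fun y hy => ⟨?_, ?_, fun u hu => ?_, fun hn u hu => ?_⟩⟩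
  · refine hK.comp ?_ hqm
    have hcc := (continuous_cellCoord s c).comp (continuous_fst (X := Euc N) (Y := ℝ))
    have hden : Continuous fun p : Euc N × ℝ =>
        max (1 + p.2) ((1 + 2 * p.2) * ‖cellCoord s c p.1‖) :=
      (continuous_const.add continuous_snd).max
        ((continuous_const.add (continuous_const.mul continuous_snd)).mul hcc.norm)
    have hnum : Continuous fun p : Euc N × ℝ => (1 + p.2) * (1 + 2 * p.2) := by fun_prop
    have hzc : ContinuousOn z (cellSet s c ×ˢ I) :=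
      (hnum.continuousOn.div hden.continuousOn fun p hp =>
        (lt_max_of_lt_left (by linarith [hp.2.1] : (0:ℝ) < 1 + p.2)).ne').smul hcc.continuousOn
    have hupd : ContinuousOn (fun p => Function.update (z p) i0 0) (cellSet s c ×ˢ I) :=
      continuousOn_pi.2 fun i => by
        rcases eq_or_ne i i0 with rfl | hne
        · simpa using continuousOn_const
        · simpa [Function.update_of_ne hne, Function.comp_def] using (continuous_apply i).comp_continuousOn hzc
    exact (hupd.prodMk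
      ((((continuous_apply i0).comp_continuousOn hzc).add continuousOn_const).div_const 4)).prodMk
        (continuousOn_snd.mul ((continuous_const.min (continuous_const.mul
          (continuous_const.sub hcc.norm))).continuousOn))
  · show K (q (y, 0)) = _
    rw [hfix (y, 0) ⟨hy, hI0⟩ (by simp [hσ])]
    have hρ := norm_coord_le hs hy
    have e : z (y, 0) = cellCoord s c y := by simp [hz, max_eq_left hρ]
    rw [e]
    simp only [hf, hρ, if_true, cellPoint_coord hs hy]
  · show K (q (y, 1)) ∈ G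
    obtain ⟨hq1, hq2⟩ := hqm (y, 1) ⟨hy, hI1⟩
    rcases le_total (2 / 3) ‖cellCoord s c y‖ with hr | hr
    · have hnorm : ‖z (y, 1)‖ = 2 := by
        rw [hzn (y, 1) ⟨hy, hI1⟩, max_eq_right (by norm_num; linarith)]
        have : (0 : ℝ) < ‖cellCoord s c y‖ := by linarith
        dsimp only
        field_simp
        norm_num
      obtain ⟨i, hi⟩ : ∃ i, |z (y, 1) i| = 2 := by
        by_contra hne
        push Not at hne
        have : ‖z (y, 1)‖ < 2 := (pi_norm_lt_iff two_pos).2 fun i =>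
          lt_of_le_of_ne ((norm_le_pi_norm _ i).trans hnorm.le) (hne i)
        linarith
      rcases eq_or_ne i i0 with rfl | hne
      · obtain ⟨k0, k1, -⟩ := hKy _ hq1.1 _ hq2
        rcases (abs_eq (by norm_num : (0:ℝ) ≤ 2)).1 hi with h | h
        · have : q (y, 1) = (((q (y, 1)).1.1, 1), (q (y, 1)).2) := by
            refine Prod.ext (Prod.ext rfl ?_) rfl
            simp only [hq, h]; norm_num
          rw [this]; exact k1
        · have : q (y, 1) = (((q (y, 1)).1.1, 0), (q (y, 1)).2) := by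
            refine Prod.ext (Prod.ext rfl ?_) rfl
            simp only [hq, h]; norm_num
          rw [this]; exact k0
      · refine (hKy _ hq1.1 _ hq2).2.2 (fun t ht => hfull _ (hup ((q (y, 1)).1.1, t) ⟨hq1.1, ht⟩)
          ⟨i, ?_⟩) _ hq1.2
        simp only [hq]
        rw [Function.update_of_ne hne, Function.update_of_ne hne, hi]
    · have hσ1 : σ (y, 1) = 1 := by
        simp only [hσ, one_mul]
        exact min_eq_left (by linarith)
      rw [show q (y, 1) = ((q (y, 1)).1, 1) from Prod.ext rfl (by simpa [hq] using hσ1),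
        (hKp _ hq1).2.1]
      exact hg _ hq1
  · exact (hKp _ (hqm (y, u) ⟨hy, hu⟩).1).2.2 _ (hqm (y, u) ⟨hy, hu⟩).2
  · show K (q (y, u)) = _
    rw [hfix (y, u) ⟨hy, hu⟩ (by simp [hσ, hn])]
    have e : z (y, u) = (1 + u) • cellCoord s c y := by
      simp only [hz, hn, mul_one]
      rw [max_eq_right (by linarith [hu.1] : 1 + u ≤ 1 + 2 * u), mul_div_assoc,
        div_self (by linarith [hu.1] : 1 + 2 * u ≠ 0), mul_one]
    have hzn1 : ‖z (y, u)‖ = 1 + u := by
      rw [e, norm_smul, hn, mul_one, Real.norm_eq_abs, abs_of_nonneg (by linarith [hu.1])]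
    rw [hfH _ (hz2 (y, u) ⟨hy, hu⟩) (by linarith [hu.1]), hzn1, e, smul_smul,
      inv_mul_cancel₀ (by linarith [hu.1]), one_smul, cellPoint_coord hs hy]
    ring_nf

/-- Without obstruction in families of paths, a neighbourhood of `M` deforms into `G`. -/
theorem deform_cells {M G : Set (Euc N)} (S : Tube M) (hM : IsPreconnected M) (hGM : G ⊆ M)
    (hGne : G.Nonempty)
    (hshrink : ∀ Y : Set (Fin N → ℝ), IsCompact Y → ∀ f : (Fin N → ℝ) × ℝ → Euc N,
      ContinuousOn f (Y ×ˢ Icc (0 : ℝ) 1) → (∀ p ∈ Y ×ˢ Icc (0 : ℝ) 1, f p ∈ M) →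
        (∀ y ∈ Y, f (y, 0) ∈ G ∧ f (y, 1) ∈ G) →
          ∃ g, Deform M G Y f g ∧ ∀ p ∈ Y ×ˢ Icc (0 : ℝ) 1, g p ∈ G) :
    ∃ (Q : Set (Euc N)) (δ : ℝ) (H : Euc N × ℝ → Euc N), 0 < δ ∧ δ < S.ε ∧
      cthickening δ M ⊆ Q ∧ ContinuousOn H (Q ×ˢ Icc (0 : ℝ) 1) ∧
      (∀ y ∈ Q, ∀ s ∈ Icc (0 : ℝ) 1, H (y, s) ∈ M) ∧ (∀ y ∈ Q, H (y, 0) = S.r y) ∧
      ∀ y ∈ Q, H (y, 1) ∈ G := by
  classical
  set δ := S.ε / 4 with hδ
  have hδ0 : 0 < δ := div_pos S.pos (by norm_num)
  set s := δ / ((N : ℝ) + 1) with hs'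
  have hs : 0 < s := div_pos hδ0 (by positivity)
  obtain ⟨R, hR⟩ := (S.compact.cthickening (r := δ)).isBounded.subset_closedBall (0 : Euc N)
  set B : ℤ := ⌈R / s⌉ + 2
  set top : Finset (Cell N) :=
    ((Fintype.piFinset fun _ : Fin N => Finset.Icc (-B) B).image fun a => (a, Finset.univ)).filter
      fun c => (cellSet s c ∩ cthickening δ M).Nonempty with htop
  set C0 : Finset (Cell N) :=
    ((Fintype.piFinset fun _ : Fin N => Finset.Icc (-B) (B + 1)) ×ˢ Finset.univ).filter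
      fun d => ∃ c ∈ top, IsFace d c with hC0
  have hmem : ∀ d c, c ∈ top → IsFace d c → d ∈ C0 := by
    intro d c hc hd
    refine Finset.mem_filter.2 ⟨Finset.mem_product.2 ⟨Fintype.mem_piFinset.2 fun i => ?_,
      Finset.mem_univ _⟩, c, hc, hd⟩
    obtain ⟨a, ha, rfl⟩ := Finset.mem_image.1 (Finset.mem_filter.1 hc).1
    have hai := Finset.mem_Icc.1 (Fintype.mem_piFinset.1 ha i)
    rw [Finset.mem_Icc]
    by_cases hi : i ∈ d.2
    · rw [hd.2.1 i hi]; dsimp only; omega
    · rcases hd.2.2.1 i (Finset.mem_univ _) hi with e | e <;> rw [e] <;> dsimp only <;> omega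
  have hU : ∀ c ∈ C0, cellSet s c ⊆ S.U := by
    intro d hd y hy
    obtain ⟨-, c, hc, hdc⟩ := Finset.mem_filter.1 hd
    obtain ⟨hc', z, hz, hzM⟩ := Finset.mem_filter.1 hc
    obtain ⟨a, -, rfl⟩ := Finset.mem_image.1 hc'
    have hyc := face_subset hs.le hdc hy
    have hdist : dist y z ≤ δ := by
      rw [dist_eq_norm]
      refine (sq_le_sq₀ (norm_nonneg _) hδ0.le).1 ?_
      rw [EuclideanSpace.real_norm_sq_eq]
      calc ∑ i, (y - z) i ^ 2 ≤ ∑ _i : Fin N, s ^ 2 := by
            refine Finset.sum_le_sum fun i _ => ?_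
            obtain ⟨a1, a2⟩ := (hyc i).1 (Finset.mem_univ _)
            obtain ⟨b1, b2⟩ := (hz i).1 (Finset.mem_univ _)
            rw [PiLp.sub_apply]
            nlinarith
        _ = (N : ℝ) * s ^ 2 := by simp
        _ ≤ ((N : ℝ) + 1) ^ 2 * s ^ 2 := by gcongr; nlinarith [Nat.cast_nonneg (α := ℝ) N]
        _ = δ ^ 2 := by rw [hs']; field_simp
    rw [S.compact.cthickening_eq_biUnion_closedBall hδ0.le] at hzM
    obtain ⟨m, hm, hzm⟩ := mem_iUnion₂.1 hzM
    exact mem_thickening_iff.2 ⟨m, hm, lt_of_le_of_lt ((dist_triangle y z m).trans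
      (add_le_add hdist hzm)) (by linarith [S.pos])⟩
  have key : ∀ n, ∀ C : Finset (Cell N), C.card = n → C ⊆ C0 →
      (∀ c ∈ C, ∀ d, IsFace d c → d ∈ C) → CellDef M G S s C := by
    intro n
    induction n with
    | zero =>
      intro C hC _ _
      rw [Finset.card_eq_zero.1 hC]
      exact ⟨fun _ => 0, continuousOn_const, by simp⟩
    | succ n ih =>
      intro C hC hsub hclosed
      obtain ⟨c, hc, hmax⟩ := C.exists_max_image (fun d => d.2.card) (Finset.card_pos.1 (by omega))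
      rw [← Finset.insert_erase hc]
      refine extend S hM hGM hGne hshrink hs (ih (C.erase c)
        (by rw [Finset.card_erase_of_mem hc]; omega) ((Finset.erase_subset _ _).trans hsub)
        fun d hd e he => ?_) (hU c (hsub hc)) (Finset.notMem_erase _ _)
        (fun d hd => hmax d (Finset.mem_of_mem_erase hd))
        fun d hd hne => Finset.mem_erase.2 ⟨hne, hclosed c hc d hd⟩
      refine Finset.mem_erase.2 ⟨fun hec => ?_, hclosed d (Finset.mem_of_mem_erase hd) e he⟩
      subst hec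
      have hJ : e.2 = d.2 := Finset.eq_of_subset_of_card_le he.1 (hmax d (Finset.mem_of_mem_erase hd))
      refine Finset.ne_of_mem_erase hd (Prod.ext (funext fun i => ?_) hJ.symm)
      by_cases hi : i ∈ e.2
      · exact (he.2.1 i hi).symm
      · exact (he.2.2.2 i (hJ ▸ hi)).symm
  obtain ⟨H, hH, hHp⟩ := key _ C0 rfl Finset.Subset.rfl fun c hc d hd => by
    obtain ⟨-, t, ht, hct⟩ := Finset.mem_filter.1 hc
    refine hmem d t ht ⟨hd.1.trans hct.1, fun i hi => (hd.2.1 i hi).trans (hct.2.1 i (hd.1 hi)),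
      fun i hit hid => ?_, fun i hi => (hd.2.2.2 i fun h => hi (hct.1 h)).trans (hct.2.2.2 i hi)⟩
    by_cases hic : i ∈ c.2
    · rw [← hct.2.1 i hic]; exact hd.2.2.1 i hic hid
    · rw [hd.2.2.2 i hic]; exact hct.2.2.1 i hit hic
  refine ⟨⋃ c ∈ C0, cellSet s c, δ, H, hδ0, by linarith [S.pos], fun y hy => ?_, hH, ?_, ?_, ?_⟩
  · set a : Fin N → ℤ := fun i => ⌊y i / s⌋
    have hya : y ∈ cellSet s (a, Finset.univ) := fun i => by
      refine ⟨fun _ => ⟨?_, ?_⟩, fun h => absurd (Finset.mem_univ i) h⟩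
      · have := (le_div_iff₀ hs).1 (Int.floor_le (y i / s)); dsimp only [a]; linarith
      · have := (div_lt_iff₀ hs).1 (Int.lt_floor_add_one (y i / s)); dsimp only [a]; linarith
    have hyR : ∀ i, |y i / s| ≤ R / s := fun i => by
      rw [abs_div, abs_of_pos hs]
      have h1 : ‖y i‖ ≤ ‖y‖ := PiLp.norm_apply_le y i
      gcongr
      exact h1.trans (by simpa using hR hy)
    refine mem_biUnion (hmem (a, Finset.univ) (a, Finset.univ) (Finset.mem_filter.2
      ⟨Finset.mem_image.2 ⟨a, Fintype.mem_piFinset.2 fun i => ?_, rfl⟩, y, hya, hy⟩)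
      ⟨Finset.Subset.rfl, fun i _ => rfl, fun i hi hi' => absurd hi hi',
        fun i _ => rfl⟩) hya
    obtain ⟨e1, e2⟩ := abs_le.1 (hyR i)
    have e3 := Int.le_ceil (R / s)
    rw [Finset.mem_Icc]
    constructor
    · exact Int.le_floor.2 (by push_cast [B]; linarith)
    · refine Int.floor_le_iff.2 ?_
      push_cast [B]; linarith
  all_goals
    intro y hy
    obtain ⟨c, hc, hyc⟩ := mem_iUnion₂.1 hy
  · exact (hHp c hc y hyc).2.2
  · exact (hHp c hc y hyc).1
  · exact (hHp c hc y hyc).2.1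

end Vale.Agent.P216
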