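import Vale.Agent.P216.Energy

/-!
A geodesic segment between fixed sets of involutions, reversed at both ends.
-/

namespace Vale.Agent.P216

open Metric Set Filter Topology MeasureTheory
open scoped RealInnerProductSpace ContDiff NNReal

variable {E : Type*} [NormedAddCommGroup E] [InnerProductSpace ℝ E] [FiniteDimensional ℝ E]

set_option linter.unusedSectionVars false

lemma clamp_zero : clamp 0 = 0 := clamp_of_mem (left_mem_Icc.2 zero_le_one)

lemma clamp_one : clamp 1 = 1 := clamp_of_mem (right_mem_Icc.2 zero_le_one)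

lemma clamp_deriv {f : ℝ → ℝ} {f' t : ℝ} (ht : t ∈ Ioo (0 : ℝ) 1) (hf : HasDerivAt f f' t) :
    HasDerivAt (fun u => f (clamp u)) f' t :=
  hf.congr_of_eventuallyEq
    (eventually_of_mem (Ioo_mem_nhds ht.1 ht.2) fun u hu => by
      simp only [clamp_of_mem (Ioo_subset_Icc_self hu)])

lemma integral_inner_left (v : E) {f : ℝ → E} {a b : ℝ} (hf : IntervalIntegrable f volume a b) :
    ∫ t in a..b, ⟪v, f t⟫ = ⟪v, ∫ t in a..b, f t⟫ :=
  (innerSL ℝ v).intervalIntegral_comp_comm hf

namespace Tube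

variable {M : Set E} (S : Tube M)

/-- Variations fixed by an isometry keep an open piece of its fixed set. -/
lemma admissible (h : E ≃ₗᵢ[ℝ] E) (hM : h '' M = M) {A : Set E}
    (hAo : ∀ a ∈ A, ∀ᶠ y in 𝓝[M] a, h y = y → y ∈ A) (hAh : ∀ a ∈ A, h a = a) {a u : E}
    (ha : a ∈ A) (haM : a ∈ M) (hu : h u = u) : ∀ᶠ e : ℝ in 𝓝 0, S.r (a + e • u) ∈ A := by
  have hU : ∀ᶠ e : ℝ in 𝓝 0, a + e • u ∈ S.U := by
    refine ContinuousAt.preimage_mem_nhds (f := fun e : ℝ => a + e • u) (by fun_prop) ?_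
    simpa using S.nhds haM
  have hc : ContinuousAt (fun e : ℝ => S.r (a + e • u)) 0 :=
    (show ContinuousAt S.r ((fun e : ℝ => a + e • u) 0) by
      simpa using (S.hasP (S.sub haM)).continuousAt).comp (f := fun e : ℝ => a + e • u) (by fun_prop)
  have ht : Tendsto (fun e : ℝ => S.r (a + e • u)) (𝓝 0) (𝓝[M] a) :=
    tendsto_nhdsWithin_iff.2
      ⟨by simpa [S.fix haM] using hc.tendsto, hU.mono fun e he => S.mem _ he⟩
  filter_upwards [ht.eventually (hAo a ha), hU] with e he heU
  refine he ?_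
  rw [← (S.r_equivariant h hM heU).2, map_add, map_smul, hAh a ha, hu]

lemma D2_tangent {x u p : E} (hx : x ∈ M) (hu : S.P x u = u) (hp : S.P x p = p) :
    S.P x (S.D2 x u p) = 0 := by
  have hr : HasFDerivAt (fun z => S.P (S.r z)) ((S.D2 x).comp (S.P x)) x := by
    refine HasFDerivAt.comp x ?_ (S.hasP (S.sub hx))
    rw [S.fix hx]
    exact S.hasD2 (S.sub hx)
  have hl : HasDerivAt (fun s : ℝ => x + s • u) u 0 := by
    simpa using ((hasDerivAt_id (0 : ℝ)).smul_const u).const_add x
  have hd : HasDerivAt (fun s : ℝ => S.P (S.r (x + s • u))) (S.D2 x u) 0 := by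
    have := (show HasFDerivAt (fun z => S.P (S.r z)) ((S.D2 x).comp (S.P x))
      ((fun s : ℝ => x + s • u) 0) by simpa using hr).comp_hasDerivAt 0 hl
    simpa [Function.comp_def, hu] using this
  have h1 := hd.clm_apply (hasDerivAt_const (0 : ℝ) p)
  have h2 := hd.clm_apply h1
  simp only [map_zero, add_zero, zero_smul, S.fix hx, hp] at h1 h2
  have he : ∀ᶠ s : ℝ in 𝓝 0, x + s • u ∈ S.U :=
    hl.continuousAt.preimage_mem_nhds (by simpa using S.nhds hx)
  have h3 := h2.congr_of_eventuallyEq (f₁ := fun s : ℝ => S.P (S.r (x + s • u)) p)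
    (he.mono fun s hs => (S.P_idem (S.mem _ hs) p).symm)
  exact add_eq_left.1 (h3.unique h1)

lemma normal_force {x p : E} (hx : x ∈ M) (hp : S.P x p = p) : S.P x (S.force x p) = 0 := by
  refine ext_inner_right ℝ fun v => ?_
  rw [inner_zero_left, S.P_symm hx, S.inner_force]
  nth_rw 1 [← hp]
  rw [S.P_symm hx, S.D2_tangent hx (S.P_idem hx v) hp, inner_zero_right]

include S in
/-- A geodesic segment from `A` to `B` leaving and arriving orthogonally. -/
theorem exists_segment (hM : IsPreconnected M) (h k : E ≃ₗᵢ[ℝ] E) (hhM : h '' M = M)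
    (hkM : k '' M = M) (hhi : ∀ x ∈ M, h (h x) = x) (hki : ∀ x ∈ M, k (k x) = x) {A B : Set E}
    (hA : IsClosed A) (hB : IsClosed B) (hAM : A ⊆ M) (hBM : B ⊆ M) (hA0 : A.Nonempty)
    (hB0 : B.Nonempty) (hd : Disjoint A B) (hAh : ∀ a ∈ A, h a = a) (hBk : ∀ b ∈ B, k b = b)
    (hAo : ∀ a ∈ A, ∀ᶠ y in 𝓝[M] a, h y = y → y ∈ A)
    (hBo : ∀ b ∈ B, ∀ᶠ y in 𝓝[M] b, k y = y → y ∈ B) :
    ∃ y : ℝ → E × E,
      (∀ t ∈ Icc (0 : ℝ) 1, (y t).1 ∈ M ∧ HasDerivWithinAt y (S.field (y t)) (Icc 0 1) t) ∧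
        (y 0).1 ∈ A ∧ (y 1).1 ∈ B ∧ h (y 0).2 = -(y 0).2 ∧ k (y 1).2 = -(y 1).2 := by
  obtain ⟨L, -, ⟨γ, hγ, hm, hγA, hγB⟩, hmin⟩ := S.exists_shortest hM hA hB hAM hBM hA0 hB0 hd
  set g : ℝ → E := fun t => S.force (γ t) (deriv γ t) with hg
  have hgm : StronglyMeasurable g := by
    have hc : Continuous fun z : ℝ × E => S.force (γ z.1) z.2 :=
      S.continuous_force.comp_continuous ((hγ.continuous.comp continuous_fst).prodMk continuous_snd)
        fun z => ⟨S.sub (hm z.1), trivial⟩
    exact hc.comp_stronglyMeasurable (stronglyMeasurable_id.prodMk (stronglyMeasurable_deriv γ))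
  obtain ⟨Cg, hCg⟩ := (S.compact.prod (isCompact_closedBall (0 : E) L)).exists_bound_of_continuousOn
    (S.continuous_force.mono fun z hz => ⟨S.sub hz.1, trivial⟩)
  have hCg0 : 0 ≤ Cg := (norm_nonneg _).trans (hCg (γ 0, 0) ⟨hm 0, by simp⟩)
  set Cn : ℝ≥0 := ⟨Cg, hCg0⟩
  have hCn : (Cn : ℝ) = Cg := rfl
  have hgb : ∀ t, ‖g t‖ ≤ Cn := fun t =>
    hCg (γ t, deriv γ t) ⟨hm t, by simpa using norm_deriv_le_of_lipschitz hγ⟩
  set G : ℝ → E := fun t => ∫ u in (0 : ℝ)..t, g u with hG
  have hGl : LipschitzWith Cn G := norm_prim_sub_le hgm hgb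
  have hG' : ∀ᵐ t, t ∈ Ioo (0 : ℝ) 1 → HasDerivAt G (g t) t := by
    filter_upwards [(intervalIntegrable_bdd hgm hgb 0 1).ae_hasDerivAt_integral] with t ht h
    exact ht (by rw [uIcc_of_le zero_le_one]; exact Ioo_subset_Icc_self h) 0 left_mem_uIcc
  set w : ℝ → E := fun t => deriv γ t - G t with hw
  have hwm : StronglyMeasurable w :=
    (stronglyMeasurable_deriv γ).sub hGl.continuous.stronglyMeasurable
  have key : ∀ (ψ : ℝ → ℝ) (C : ℝ≥0) (R : ℝ) (v : E), LipschitzWith C ψ → (∀ t, |ψ t| ≤ R) →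
      (ψ 0 = 0 ∨ h v = v) → (ψ 1 = 0 ∨ k v = v) →
      (∫ t in (0 : ℝ)..1, deriv ψ t * ⟪w t, v⟫) + ψ 1 * ⟪G 1, v⟫ = 0 := by
    intro ψ C R v hψ hR h0 h1
    have hφ : LipschitzWith (‖v‖₊ * C) fun t => ψ t • v :=
      LipschitzWith.of_dist_le_mul fun s t => by
        rw [dist_eq_norm, ← sub_smul, norm_smul, NNReal.coe_mul, coe_nnnorm, Real.norm_eq_abs,
          ← Real.dist_eq, mul_assoc, mul_comm (dist (ψ s) _)]
        exact mul_le_mul_of_nonneg_left (hψ.dist_le_mul s t) (norm_nonneg _)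
    have hEL := S.euler_lagrange hmin hγ hm hφ (R := R * ‖v‖) (fun t => by
      rw [norm_smul, Real.norm_eq_abs]; exact mul_le_mul_of_nonneg_right (hR t) (norm_nonneg _))
      (S.admissible h hhM hAo hAh hγA (hm 0) (by
        rcases h0 with h0 | h0
        · simp [h0]
        · rw [map_smul, h0]))
      (S.admissible k hkM hBo hBk hγB (hm 1) (by
        rcases h1 with h1 | h1
        · simp [h1]
        · rw [map_smul, h1]))
    have hal : LipschitzWith (‖v‖₊ * Cn) fun t => ⟪G t, v⟫ :=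
      LipschitzWith.of_dist_le_mul fun s t => by
        rw [Real.dist_eq, ← inner_sub_left, NNReal.coe_mul, coe_nnnorm, mul_assoc, mul_comm ‖v‖]
        refine (abs_real_inner_le_norm _ _).trans (mul_le_mul_of_nonneg_right ?_ (norm_nonneg _))
        rw [← dist_eq_norm]
        exact hGl.dist_le_mul s t
    have hparts := (hψ.lipschitzOnWith (s := uIcc (0 : ℝ) 1)).absolutelyContinuousOnInterval
      |>.integral_mul_deriv_eq_deriv_mul
        (hal.lipschitzOnWith (s := uIcc (0 : ℝ) 1)).absolutelyContinuousOnInterval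
    have e1 : ∫ t in (0 : ℝ)..1, ψ t * deriv (fun t => ⟪G t, v⟫) t =
        ∫ t in (0 : ℝ)..1, ψ t * ⟪g t, v⟫ := by
      refine integral_congr_Ioo zero_le_one ?_
      filter_upwards [hG'] with t ht htI
      rw [((ht htI).inner ℝ (hasDerivAt_const t v)).deriv, inner_zero_right, zero_add]
    rw [e1, show G 0 = 0 from intervalIntegral.integral_same, inner_zero_left, mul_zero,
      sub_zero] at hparts
    have i1 : IntervalIntegrable (fun t => deriv ψ t * ⟪deriv γ t, v⟫) volume 0 1 :=
      intervalIntegrable_bdd ((stronglyMeasurable_deriv ψ).mul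
        ((continuous_id.inner continuous_const).comp_stronglyMeasurable (stronglyMeasurable_deriv γ)))
        (C := C * (L * ‖v‖)) (fun t => by
          rw [Pi.mul_apply, norm_mul]
          exact mul_le_mul (norm_deriv_le_of_lipschitz hψ) ((norm_inner_le_norm _ _).trans
            (mul_le_mul_of_nonneg_right (norm_deriv_le_of_lipschitz hγ) (norm_nonneg _)))
            (norm_nonneg _) C.2) _ _
    have i2 : IntervalIntegrable (fun t => ψ t * ⟪g t, v⟫) volume 0 1 :=
      intervalIntegrable_bdd (hψ.continuous.stronglyMeasurable.mul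
        ((continuous_id.inner continuous_const).comp_stronglyMeasurable hgm))
        (C := R * (Cn * ‖v‖)) (fun t => by
          rw [Pi.mul_apply, norm_mul]
          exact mul_le_mul (hR t) ((norm_inner_le_norm _ _).trans
            (mul_le_mul_of_nonneg_right (hgb t) (norm_nonneg _))) (norm_nonneg _)
            ((abs_nonneg _).trans (hR t))) _ _
    have i3 : IntervalIntegrable (fun t => deriv ψ t * ⟪G t, v⟫) volume 0 1 :=
      (hψ.lipschitzOnWith.absolutelyContinuousOnInterval.intervalIntegrable_deriv).mul_continuousOn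
        hal.continuous.continuousOn
    have e2 : ∫ t in (0 : ℝ)..1,
        (⟪deriv γ t, deriv (fun t => ψ t • v) t⟫ + ⟪S.force (γ t) (deriv γ t), ψ t • v⟫) =
        (∫ t in (0 : ℝ)..1, deriv ψ t * ⟪deriv γ t, v⟫) + ∫ t in (0 : ℝ)..1, ψ t * ⟪g t, v⟫ := by
      rw [← intervalIntegral.integral_add i1 i2]
      refine integral_congr_Ioo zero_le_one ?_
      filter_upwards [hψ.ae_differentiableAt_real] with t ht _
      rw [(ht.hasDerivAt.smul_const v).deriv, real_inner_smul_right, real_inner_smul_right]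
    rw [e2, hparts] at hEL
    have e3 : ∫ t in (0 : ℝ)..1, deriv ψ t * ⟪w t, v⟫ =
        (∫ t in (0 : ℝ)..1, deriv ψ t * ⟪deriv γ t, v⟫) -
          ∫ t in (0 : ℝ)..1, deriv ψ t * ⟪G t, v⟫ := by
      rw [← intervalIntegral.integral_sub i1 i3]
      simp only [hw, inner_sub_left, mul_sub]
    linarith
  have hwb : ∀ t ∈ uIcc (0 : ℝ) 1, ‖w t‖ ≤ L + Cg := fun t ht => by
    refine (norm_sub_le _ _).trans (add_le_add (norm_deriv_le_of_lipschitz hγ) ?_)
    rw [uIcc_of_le zero_le_one] at ht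
    refine (intervalIntegral.norm_integral_le_of_norm_le_const fun u _ => hgb u).trans ?_
    rw [sub_zero, abs_of_nonneg ht.1, hCn]
    exact mul_le_of_le_one_right hCg0 ht.2
  have hwi : IntervalIntegrable w volume 0 1 :=
    (intervalIntegrable_bdd (stronglyMeasurable_deriv γ)
      (fun t => norm_deriv_le_of_lipschitz hγ) 0 1).sub (hGl.continuous.intervalIntegrable _ _)
  set W := ∫ t in (0 : ℝ)..1, w t with hW
  have hWv : ∀ v, ∫ t in (0 : ℝ)..1, ⟪w t, v⟫ = ⟪W, v⟫ := fun v => by
    simp only [real_inner_comm v]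
    exact integral_inner_left v hwi
  have hWh : ∀ v, h v = v → ⟪W, v⟫ = 0 := fun v hv => by
    have hψ : LipschitzWith (1 * 1) fun t => clamp (1 - t) :=
      lipschitz_clamp.comp (LipschitzWith.of_dist_le_mul fun s t => by
        rw [Real.dist_eq, Real.dist_eq, NNReal.coe_one, one_mul, ← abs_neg]
        exact le_of_eq (by ring_nf))
    have h := key _ _ 1 v hψ (fun t => by
      rw [abs_of_nonneg (clamp_mem _).1]; exact (clamp_mem _).2) (Or.inr hv)
      (Or.inl (by simp [clamp_zero]))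
    rw [integral_congr_Ioo zero_le_one (g := fun t => -⟪w t, v⟫) (Eventually.of_forall fun t ht => by
      have hd : HasDerivAt (fun t => clamp (1 - t)) (-1) t :=
        ((hasDerivAt_id t).const_sub 1).congr_of_eventuallyEq
          (eventually_of_mem (Ioo_mem_nhds ht.1 ht.2) fun u hu => by
            simp only [id]
            exact clamp_of_mem ⟨by linarith [hu.2], by linarith [hu.1]⟩)
      rw [hd.deriv]; ring), intervalIntegral.integral_neg, hWv] at h
    simpa [clamp_zero] using h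
  have hWk : ∀ v, k v = v → ⟪W + G 1, v⟫ = 0 := fun v hv => by
    have h := key _ _ 1 v lipschitz_clamp (fun t => by
      rw [abs_of_nonneg (clamp_mem _).1]; exact (clamp_mem _).2) (Or.inl clamp_zero) (Or.inr hv)
    rw [integral_congr_Ioo zero_le_one (g := fun t => ⟪w t, v⟫) (Eventually.of_forall fun t ht => by
      rw [show deriv clamp t = 1 from (clamp_deriv ht (hasDerivAt_id t)).deriv]; ring), hWv, clamp_one, one_mul] at h
    rwa [inner_add_left]
  have hae : ∀ᵐ t, t ∈ Ioo (0 : ℝ) 1 → w t - W = 0 := by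
    refine isOpen_Ioo.ae_eq_zero_of_integral_contDiff_smul_eq_zero ?_ fun χ hχ hc hsupp => ?_
    · refine IntegrableOn.locallyIntegrableOn (Integrable.sub ?_ (integrableOn_const (by simp)))
      exact ((intervalIntegrable_iff_integrableOn_Ioc_of_le zero_le_one).1 hwi).mono_set
        Ioo_subset_Ioc_self
    obtain ⟨Cχ, hCχ⟩ := hc.exists_bound_of_continuous hχ.continuous
    have hCχ0 : 0 ≤ Cχ := (norm_nonneg _).trans (hCχ 0)
    set Cm : ℝ≥0 := ⟨Cχ, hCχ0⟩
    have hCm : (Cm : ℝ) = Cχ := rfl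
    have hχi : ∀ a b, IntervalIntegrable χ volume a b := hχ.continuous.intervalIntegrable
    set D := ∫ t in (0 : ℝ)..1, χ t with hD
    set Ψ : ℝ → ℝ := fun t => (∫ u in (0 : ℝ)..t, χ u) - t * D with hΨ
    have hΨl : LipschitzWith (Cm + ‖D‖₊) Ψ :=
      (norm_prim_sub_le (C := Cm) hχ.continuous.stronglyMeasurable hCχ).sub
        (LipschitzWith.of_dist_le_mul fun s t => by
          rw [Real.dist_eq, Real.dist_eq, ← sub_mul, abs_mul, coe_nnnorm, Real.norm_eq_abs,
            mul_comm])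
    have hsub : ∀ t, t ∉ Ioo (0 : ℝ) 1 → χ t = 0 := fun t ht =>
      image_eq_zero_of_notMem_tsupport fun h' => ht (hsupp h')
    have hsupp' : Function.support (fun t => χ t • (w t - W)) ⊆ Ioc 0 1 := fun t ht =>
      Ioo_subset_Ioc_self (by_contra fun h' => ht (by simp [hsub t h']))
    rw [← intervalIntegral.integral_eq_integral_of_support_subset hsupp']
    have hχwi : IntervalIntegrable (fun t => χ t • (w t - W)) volume 0 1 :=
      (hwi.sub intervalIntegrable_const).continuousOn_smul hχ.continuous.continuousOn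
    refine ext_inner_left ℝ fun v => ?_
    rw [inner_zero_right, ← integral_inner_left v hχwi]
    have hψ : LipschitzWith ((Cm + ‖D‖₊) * 1) fun t => Ψ (clamp t) :=
      hΨl.comp lipschitz_clamp
    have hv := key _ _ ((Cχ + ‖D‖) * 1) v hψ (fun t => by
      have h1 := hψ.dist_le_mul t 0
      have h2 := hΨl.dist_le_mul (clamp t) 0
      rw [show Ψ 0 = 0 by simp [hΨ], Real.dist_eq, sub_zero, Real.dist_eq, sub_zero,
        abs_of_nonneg (clamp_mem t).1] at h2
      refine h2.trans ?_
      rw [NNReal.coe_add, hCm, coe_nnnorm]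
      exact mul_le_mul_of_nonneg_left (clamp_mem t).2 (by positivity))
      (Or.inl (by simp [clamp_zero, hΨ])) (Or.inl (by simp [clamp_one, hΨ, ← hD]))
    rw [integral_congr_Ioo zero_le_one (g := fun t => χ t * ⟪w t, v⟫ - D * ⟪w t, v⟫)
      (Eventually.of_forall fun t ht => by
        have hΨ' : HasDerivAt Ψ (χ t - D) t := by
          simpa [hΨ, Pi.sub_def] using (intervalIntegral.integral_hasDerivAt_right (hχi 0 t)
            hχ.continuous.stronglyMeasurable.stronglyMeasurableAtFilter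
            hχ.continuous.continuousAt).sub ((hasDerivAt_id t).mul_const D)
        rw [(clamp_deriv ht hΨ').deriv]
        ring), show Ψ (clamp 1) = 0 by simp [clamp_one, hΨ, ← hD], zero_mul, add_zero] at hv
    have i1 : IntervalIntegrable (fun t => ⟪w t, v⟫) volume 0 1 :=
      ⟨hwi.1.inner_const v, hwi.2.inner_const v⟩
    rw [intervalIntegral.integral_sub (i1.continuousOn_mul hχ.continuous.continuousOn)
      (i1.const_mul D), intervalIntegral.integral_const_mul, hWv] at hv
    simp only [real_inner_comm _ v, real_inner_smul_left, inner_sub_left, mul_sub]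
    rw [intervalIntegral.integral_sub (i1.continuousOn_mul hχ.continuous.continuousOn)
      ((hχi 0 1).mul_const _), intervalIntegral.integral_mul_const, ← hD]
    linarith
  set p : ℝ → E := fun t => W + G t with hp
  have hpc : Continuous p := continuous_const.add hGl.continuous
  have hγp : ∀ᵐ t, t ∈ Ioo (0 : ℝ) 1 → deriv γ t = p t := by
    filter_upwards [hae] with t ht h
    have := sub_eq_zero.1 (ht h)
    simp only [hp, hw] at this ⊢
    rw [← this, sub_add_cancel]
  have hγint : ∀ t ∈ Icc (0 : ℝ) 1, γ t = γ 0 + ∫ u in (0 : ℝ)..t, p u := by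
    intro t ht
    rw [← sub_eq_iff_eq_add']
    refine ext_inner_left ℝ fun v => ?_
    rw [inner_sub_right, ← integral_inner_left v (hpc.intervalIntegrable _ _)]
    have hl : LipschitzWith (‖v‖₊ * L) fun t => ⟪v, γ t⟫ :=
      LipschitzWith.of_dist_le_mul fun a b => by
        rw [Real.dist_eq, ← inner_sub_right, NNReal.coe_mul, coe_nnnorm, mul_assoc]
        refine (abs_real_inner_le_norm _ _).trans (mul_le_mul_of_nonneg_left ?_ (norm_nonneg _))
        rw [← dist_eq_norm]
        exact hγ.dist_le_mul a b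
    rw [← (hl.lipschitzOnWith (s := uIcc 0 t)).absolutelyContinuousOnInterval.integral_deriv_eq_sub]
    refine integral_congr_Ioo ht.1 ?_
    filter_upwards [hγp, hγ.ae_differentiableAt_real] with u hu hdu huI
    rw [← hu ⟨huI.1, huI.2.trans_le ht.2⟩, ((hasDerivAt_const u v).inner ℝ hdu.hasDerivAt).deriv,
      inner_zero_left, add_zero]
  have d1 : ∀ t ∈ Icc (0 : ℝ) 1, HasDerivWithinAt γ (p t) (Icc 0 1) t := fun t ht =>
    ((intervalIntegral.integral_hasDerivAt_right (hpc.intervalIntegrable (0 : ℝ) t)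
      hpc.stronglyMeasurable.stronglyMeasurableAtFilter hpc.continuousAt).const_add
        (γ 0)).hasDerivWithinAt.congr hγint (hγint t ht)
  set q : ℝ → E := fun t => S.force (γ t) (p t) with hq
  have hqc : Continuous q := S.continuous_force.comp_continuous
    (hγ.continuous.prodMk hpc) fun t => ⟨S.sub (hm t), trivial⟩
  have hGq : ∀ t ∈ Icc (0 : ℝ) 1, G t = ∫ u in (0 : ℝ)..t, q u := fun t ht => by
    refine integral_congr_Ioo ht.1 ?_
    filter_upwards [hγp] with u hu huI
    rw [hg, hq]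
    simp only [hu ⟨huI.1, huI.2.trans_le ht.2⟩]
  have d2 : ∀ t ∈ Icc (0 : ℝ) 1, HasDerivWithinAt p (q t) (Icc 0 1) t := fun t ht =>
    ((intervalIntegral.integral_hasDerivAt_right (hqc.intervalIntegrable (0 : ℝ) t)
      hqc.stronglyMeasurable.stronglyMeasurableAtFilter hqc.continuousAt).const_add
        W).hasDerivWithinAt.congr (fun u hu => by simp only [hp, hGq u hu])
          (by simp only [hp, hGq t ht])
  have huniq : ∀ t ∈ Icc (0 : ℝ) 1, UniqueDiffWithinAt ℝ (Icc (0 : ℝ) 1) t := fun t ht =>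
    uniqueDiffOn_Icc zero_lt_one t ht
  have htan : ∀ t ∈ Icc (0 : ℝ) 1, S.P (γ t) (p t) = p t := fun t ht => by
    have h1 := (S.hasP (S.sub (hm t))).comp_hasDerivWithinAt t (d1 t ht)
    rw [show S.r ∘ γ = γ from funext fun u => S.fix (hm u)] at h1
    exact (huniq t ht).eq_deriv _ h1 (d1 t ht)
  refine ⟨fun t => (γ t, p t), fun t ht => ⟨hm t, ?_⟩, hγA, hγB, ?_, ?_⟩
  · refine (d1 t ht).prodMk ((d2 t ht).congr_deriv ?_)
    have hP := (S.hasD2 (S.sub (hm t))).comp_hasDerivWithinAt t (d1 t ht)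
    have h3 := (hP.clm_apply (d2 t ht)).congr (f₁ := p)
      (fun u hu => (htan u hu).symm) (htan t ht).symm
    have h4 := (huniq t ht).eq_deriv _ h3 (d2 t ht)
    simp only [Function.comp_apply, hq, S.normal_force (hm t) (htan t ht), add_zero] at h4
    simpa [field, hq] using h4.symm
  all_goals
    simp only
  · have hc := S.cone_invol h hhi (hm 0) ((S.cone_eq (hm 0)).2 (htan 0 (by simp)))
    have hp0 : p 0 = W := by simp [hp, hG]
    rw [hp0] at hc ⊢
    have h0 := hWh (W + h W) (by rw [map_add, hc, add_comm])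
    rw [inner_add_right] at h0
    refine eq_neg_of_add_eq_zero_right ?_
    rw [← norm_eq_zero, ← sq_eq_zero_iff, norm_add_sq_real, h.norm_map]
    linarith [real_inner_self_eq_norm_sq W]
  · have hc := S.cone_invol k hki (hm 1) ((S.cone_eq (hm 1)).2 (htan 1 (by simp)))
    have h0 := hWk (p 1 + k (p 1)) (by rw [map_add, hc, add_comm])
    change ⟪p 1, p 1 + k (p 1)⟫ = 0 at h0
    rw [inner_add_right] at h0
    refine eq_neg_of_add_eq_zero_right ?_
    rw [← norm_eq_zero, ← sq_eq_zero_iff, norm_add_sq_real, k.norm_map]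
    linarith [real_inner_self_eq_norm_sq (p 1)]

end Tube

end Vale.Agent.P216
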