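import Vale.Agent.P216.Rigid
import Vale.Agent.P216.Variation

/-!
The segment between two fixed sets, reflected at both ends, is a closed geodesic.
-/

namespace Vale.Agent.P216

open Metric Set Filter Topology NormedSpace
open scoped RealInnerProductSpace ContDiff

variable {E : Type*} [NormedAddCommGroup E] [InnerProductSpace ℝ E] [FiniteDimensional ℝ E]

set_option linter.unusedSectionVars false

namespace Tube

variable {M : Set E} (S : Tube M)

lemma P_equiv_U (h : E ≃ₗᵢ[ℝ] E) (hM : h '' M = M) {x : E} (hx : x ∈ S.U) (v : E) :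
    S.P (h x) (h v) = h (S.P x v) := by
  have hl : HasFDerivAt (h : E → E) (h.toContinuousLinearEquiv : E →L[ℝ] E) x :=
    (h.toContinuousLinearEquiv : E →L[ℝ] E).hasFDerivAt
  have h1 : HasFDerivAt (S.r ∘ h) ((S.P (h x)).comp (h.toContinuousLinearEquiv : E →L[ℝ] E)) x :=
    (S.hasP (S.r_equivariant h hM hx).1).comp x hl
  have h2 : HasFDerivAt (h ∘ S.r) ((h.toContinuousLinearEquiv : E →L[ℝ] E).comp (S.P x)) x :=
    ((h.toContinuousLinearEquiv : E →L[ℝ] E).hasFDerivAt).comp x (S.hasP hx)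
  have h3 := h2.congr_of_eventuallyEq (f₁ := S.r ∘ h)
    (eventually_of_mem (S.isOpen.mem_nhds hx) fun y hy => (S.r_equivariant h hM hy).2)
  simpa using DFunLike.congr_fun (h1.unique h3) v

lemma D2_equivariant (h : E ≃ₗᵢ[ℝ] E) (hM : h '' M = M) {x : E} (hx : x ∈ M) (u v : E) :
    S.D2 (h x) (h u) (h v) = h (S.D2 x u v) := by
  have hl : HasDerivAt (fun s : ℝ => x + s • u) u 0 := by
    simpa using ((hasDerivAt_id (0 : ℝ)).smul_const u).const_add x
  set L : E →L[ℝ] E := (h.toContinuousLinearEquiv : E →L[ℝ] E) with hL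
  have hLh : ∀ z, L z = h z := fun z => rfl
  have hl' : HasDerivAt (fun s : ℝ => L (x + s • u)) (L u) 0 :=
    L.hasFDerivAt.comp_hasDerivAt 0 hl
  have hQ : HasFDerivAt S.P (S.D2 (L x)) ((fun s : ℝ => L (x + s • u)) 0) := by
    simp only [zero_smul, add_zero]
    exact S.hasD2 (S.r_equivariant h hM (S.sub hx)).1
  have hQ' : HasDerivAt (fun s : ℝ => S.P (L (x + s • u))) (S.D2 (L x) (L u)) 0 :=
    hQ.comp_hasDerivAt 0 hl'
  have h1 := hQ'.clm_apply (hasDerivAt_const (0 : ℝ) (L v))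
  rw [map_zero, add_zero] at h1
  have hP0 : HasFDerivAt S.P (S.D2 x) ((fun s : ℝ => x + s • u) 0) := by
    simp only [zero_smul, add_zero]
    exact S.hasD2 (S.sub hx)
  have hP : HasDerivAt (fun s : ℝ => S.P (x + s • u)) (S.D2 x u) 0 := hP0.comp_hasDerivAt 0 hl
  have hv' := hP.clm_apply (hasDerivAt_const (0 : ℝ) v)
  rw [map_zero, add_zero] at hv'
  have h2 : HasDerivAt (fun s : ℝ => L (S.P (x + s • u) v)) (L (S.D2 x u v)) 0 :=
    L.hasFDerivAt.comp_hasDerivAt 0 hv'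
  have he : ∀ᶠ s : ℝ in 𝓝 0, x + s • u ∈ S.U :=
    hl.continuousAt.preimage_mem_nhds (by simpa using S.nhds hx)
  have h3 := h2.congr_of_eventuallyEq (f₁ := fun s : ℝ => S.P (L (x + s • u)) (L v))
    (he.mono fun s hs => S.P_equiv_U h hM hs v)
  exact h1.unique h3

lemma field_map (h : E ≃ₗᵢ[ℝ] E) (hM : h '' M = M) {x : E} (hx : x ∈ M) (v : E) :
    S.field (h x, h v) = (h v, h (S.D2 x v v)) := by
  simp [field, S.D2_equivariant h hM hx]

include S in
lemma eq_on_cone (f g : E →L[ℝ] E) (hfg : ∀ y ∈ M, f y = g y) {x v : E} (hx : x ∈ M)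
    (hv : v ∈ tangentConeAt ℝ M x) : f v = g v := by
  have h1 : HasFDerivAt (f ∘ S.r) (g.comp (S.P x)) x :=
    (g.hasFDerivAt.comp x (S.hasP (S.sub hx))).congr_of_eventuallyEq
      (eventually_of_mem (S.nhds hx) fun y hy => hfg _ (S.mem y hy))
  have h2 := DFunLike.congr_fun ((f.hasFDerivAt.comp x (S.hasP (S.sub hx))).unique h1) v
  simpa [(S.cone_eq hx).1 hv] using h2

/-- A chain of solution pieces, four periodic, is a geodesic of period four. -/
lemma glue (q : ℤ → ℝ → E × E) (hq : ∀ n, q (n + 4) = q n)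
    (hmatch : ∀ n, q n 1 = q (n + 1) 0)
    (hsol : ∀ n, ∀ t ∈ Icc (0 : ℝ) 1,
      (q n t).1 ∈ M ∧ HasDerivWithinAt (q n) (S.field (q n t)) (Icc 0 1) t) :
    ∃ y, S.Geo y ∧ (∀ t, y (t + 4) = y t) ∧ y 0 = q 0 0 ∧ y 1 = q 1 0 := by
  set y : ℝ → E × E := fun t => q ⌊t⌋ (Int.fract t) with hy
  have heq : ∀ (n : ℤ), ∀ u ∈ Icc (n : ℝ) (n + 1), y u = q n (u - n) := by
    intro n u hu
    rcases hu.2.lt_or_eq with h | rfl
    · have : ⌊u⌋ = n := Int.floor_eq_iff.2 ⟨hu.1, h⟩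
      simp only [hy, Int.fract, this]
    · have : ⌊(n : ℝ) + 1⌋ = n + 1 := by simp
      simp only [hy, Int.fract, this, add_sub_cancel_left]
      push_cast
      rw [sub_self, hmatch n]
  have hd : ∀ (n : ℤ) (t : ℝ), t ∈ Icc (n : ℝ) (n + 1) →
      (y t).1 ∈ M ∧ HasDerivWithinAt y (S.field (y t)) (Icc (n : ℝ) (n + 1)) t := by
    intro n t ht
    have hm : ∀ u ∈ Icc (n : ℝ) (n + 1), u - (n : ℝ) ∈ Icc (0 : ℝ) 1 := fun u hu =>
      ⟨by linarith [hu.1], by linarith [hu.2]⟩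
    obtain ⟨h1, h2⟩ := hsol n _ (hm t ht)
    rw [heq n t ht]
    refine ⟨h1, ?_⟩
    have h3 := h2.scomp t (((hasDerivAt_id t).sub_const (n : ℝ)).hasDerivWithinAt)
      (fun u hu => hm u hu)
    rw [one_smul] at h3
    exact h3.congr (fun u hu => heq n u hu) (heq n t ht)
  refine ⟨y, fun t => ?_, fun t => ?_, by simp [hy], by simp [hy]⟩
  · obtain ⟨h1, h2⟩ := hd ⌊t⌋ t ⟨Int.floor_le t, (Int.lt_floor_add_one t).le⟩
    have hl : ((⌈t⌉ - 1 : ℤ) : ℝ) < t ∧ t ≤ ((⌈t⌉ - 1 : ℤ) : ℝ) + 1 := by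
      push_cast
      constructor <;> linarith [Int.le_ceil t, Int.ceil_lt_add_one t]
    obtain ⟨-, h3⟩ := hd (⌈t⌉ - 1) t ⟨hl.1.le, hl.2⟩
    have hr : HasDerivWithinAt y (S.field (y t)) (Ici t) t := h2.mono_of_mem_nhdsWithin
      (mem_of_superset (Icc_mem_nhdsGE (Int.lt_floor_add_one t)) (Icc_subset_Icc_left (Int.floor_le t)))
    have hle : HasDerivWithinAt y (S.field (y t)) (Iic t) t := h3.mono_of_mem_nhdsWithin
      (mem_of_superset (Icc_mem_nhdsLE hl.1) (Icc_subset_Icc_right hl.2))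
    refine ⟨h1, ?_⟩
    have := hle.union hr
    rwa [Iic_union_Ici, hasDerivWithinAt_univ] at this
  · have hf : ⌊t + 4⌋ = ⌊t⌋ + 4 := by exact_mod_cast Int.floor_add_intCast t 4
    have hr : Int.fract (t + 4) = Int.fract t := by
      unfold Int.fract; rw [hf]; push_cast; ring
    simp only [hy, hf, hr, hq]

end Tube

variable {M : Set E} {D : E →L[ℝ] E}

/-- A geodesic segment reversed at both ends by commuting involutions gives infinitely many closed
geodesics when one of the involutions lies in a circle of isometries. -/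
theorem segment_infinite (S : Tube M) (hD : Skew D)
    (hpD : ∀ t : ℝ, ∀ x ∈ M, exp (t • D) x ∈ M) {c : ℝ} (k : E ≃ₗᵢ[ℝ] E) (hkM : k '' M = M)
    (hcomm : ∀ x ∈ M, k (exp (c • D) x) = exp (c • D) (k x)) {y : ℝ → E × E}
    (hsol : ∀ t ∈ Icc (0 : ℝ) 1,
      (y t).1 ∈ M ∧ HasDerivWithinAt y (S.field (y t)) (Icc 0 1) t)
    (ha0 : exp (c • D) (y 0).1 = (y 0).1) (hb0 : k (y 1).1 = (y 1).1)
    (hv0 : rot hD c (y 0).2 = -(y 0).2) (hv1 : k (y 1).2 = -(y 1).2)
    (hseg : (y 0).2 ≠ 0 ∨ (y 0).1 ≠ (y 1).1) :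
    {s | IsClosedGeodesicImage M s}.Infinite := by
  set h := rot hD c with hh
  have hhM : h '' M = M := rot_image hD hpD c
  have h0 : (0 : ℝ) ∈ Icc (0 : ℝ) 1 := left_mem_Icc.2 zero_le_one
  have h1 : (1 : ℝ) ∈ Icc (0 : ℝ) 1 := right_mem_Icc.2 zero_le_one
  have hflip : ∀ s ∈ Icc (0 : ℝ) 1, 1 - s ∈ Icc (0 : ℝ) 1 := fun s hs =>
    ⟨by linarith [hs.2], by linarith [hs.1]⟩
  set F : (E ≃ₗᵢ[ℝ] E) → ℝ → E × E := fun f s => (f (y s).1, f (y s).2) with hF
  set R : (E ≃ₗᵢ[ℝ] E) → ℝ → E × E := fun f s => (f (y (1 - s)).1, -f (y (1 - s)).2) with hR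
  have hFs : ∀ f : E ≃ₗᵢ[ℝ] E, f '' M = M → ∀ t ∈ Icc (0 : ℝ) 1,
      (F f t).1 ∈ M ∧ HasDerivWithinAt (F f) (S.field (F f t)) (Icc 0 1) t := by
    intro f hf t ht
    obtain ⟨m, d⟩ := hsol t ht
    refine ⟨hf.subset (mem_image_of_mem f m), ?_⟩
    rw [show S.field (F f t) = _ from S.field_map f hf m _]
    have d1 : HasDerivWithinAt (fun s => (y s).1) (y t).2 (Icc 0 1) t :=
      (hasFDerivAt_fst (p := y t)).comp_hasDerivWithinAt t d
    have d2 : HasDerivWithinAt (fun s => (y s).2) (S.D2 (y t).1 (y t).2 (y t).2) (Icc 0 1) t :=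
      (hasFDerivAt_snd (p := y t)).comp_hasDerivWithinAt t d
    exact ((f.toContinuousLinearEquiv : E →L[ℝ] E).hasFDerivAt.comp_hasDerivWithinAt t d1).prodMk
      ((f.toContinuousLinearEquiv : E →L[ℝ] E).hasFDerivAt.comp_hasDerivWithinAt t d2)
  have hRs : ∀ f : E ≃ₗᵢ[ℝ] E, f '' M = M → ∀ t ∈ Icc (0 : ℝ) 1,
      (R f t).1 ∈ M ∧ HasDerivWithinAt (R f) (S.field (R f t)) (Icc 0 1) t := by
    intro f hf t ht
    obtain ⟨m, d⟩ := hFs f hf _ (hflip t ht)
    refine ⟨m, ?_⟩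
    have hneg : HasDerivWithinAt (fun s : ℝ => 1 - s) (-1) (Icc 0 1) t :=
      ((hasDerivAt_id t).const_sub 1).hasDerivWithinAt
    have d1 := ((hasFDerivAt_fst (p := F f (1 - t))).comp_hasDerivWithinAt _ d).scomp t hneg hflip
    have d2 := (((hasFDerivAt_snd (p := F f (1 - t))).comp_hasDerivWithinAt _ d).scomp t hneg
      hflip).neg
    refine (d1.prodMk d2).congr_deriv ?_
    simp [hR, hF, Tube.field]
  have hkh : (h.trans k) '' M = M := by
    rw [show ⇑(h.trans k) = k ∘ h from rfl, image_comp, hhM, hkM]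
  have hkd : k (h (y 1).2) = h (k (y 1).2) := by
    obtain ⟨m, d⟩ := hsol 1 h1
    refine S.eq_on_cone ((h.trans k).toContinuousLinearEquiv : E →L[ℝ] E)
      ((k.trans h).toContinuousLinearEquiv : E →L[ℝ] E) (fun z hz => hcomm z hz) m
        ((S.cone_eq m).2 ?_)
    have d1 : HasDerivWithinAt (fun s => (y s).1) (y 1).2 (Icc 0 1) 1 :=
      (hasFDerivAt_fst (p := y 1) (𝕜 := ℝ) (E := E) (F := E)).comp_hasDerivWithinAt (1 : ℝ) d
    have h' := ((S.hasP (S.sub m)).comp_hasDerivWithinAt 1 d1).congr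
      (f₁ := fun s => (y s).1) (fun s hs => (S.fix (hsol s hs).1).symm) (S.fix m).symm
    exact (uniqueDiffOn_Icc zero_lt_one 1 h1).eq_deriv _ h' d1
  set q : ℤ → ℝ → E × E := fun n =>
    if n % 4 = 0 then y else if n % 4 = 1 then R k else if n % 4 = 2 then F (h.trans k) else R h
    with hq
  obtain ⟨Y, hY, hper, hY0, hY1⟩ := S.glue q
    (fun n => by simp only [hq, Int.add_emod_right])
    (fun n => by
      have hc : n % 4 = 0 ∨ n % 4 = 1 ∨ n % 4 = 2 ∨ n % 4 = 3 := by omega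
      have ha : h (y 0).1 = (y 0).1 := ha0
      have hb : k (y 1).1 = (y 1).1 := hb0
      have hkb : k (h (y 1).1) = h (y 1).1 := by
        rw [show k (h (y 1).1) = h (k (y 1).1) from hcomm _ (hsol 1 h1).1, hb]
      have e : ∀ x, (h.trans k) x = k (h x) := fun x => rfl
      rcases hc with hc | hc | hc | hc
      · have : (n + 1) % 4 = 1 := by omega
        simp only [hq, hc, this, ↓reduceIte, one_ne_zero, hR, sub_zero]
        ext1
        · exact hb.symm
        · simp only [hv1, neg_neg]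
      · have : (n + 1) % 4 = 2 := by omega
        simp only [hq, hc, this, hR, hF, e, one_ne_zero, OfNat.ofNat_ne_zero, OfNat.ofNat_ne_one,
          ↓reduceIte, sub_self]
        rw [ha, hv0, map_neg]
      · have : (n + 1) % 4 = 3 := by omega
        simp only [hq, hc, this, hR, hF, e, OfNat.ofNat_ne_zero, OfNat.ofNat_ne_one, ↓reduceIte,
          sub_zero, show ¬((3 : ℤ) = 2) by norm_num]
        rw [hkb, hkd, hv1, map_neg]
      · have : (n + 1) % 4 = 0 := by omega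
        simp only [hq, hc, this, hR, OfNat.ofNat_ne_zero, OfNat.ofNat_ne_one, ↓reduceIte,
          sub_self, show ¬((3 : ℤ) = 2) by norm_num]
        ext1
        · exact ha
        · simp only [hv0, neg_neg])
    (fun n t ht => by
      simp only [hq]
      split_ifs
      · exact hsol t ht
      · exact hRs k hkM t ht
      · exact hFs _ hkh t ht
      · exact hRs h hhM t ht)
  have hY0' : Y 0 = y 0 := by rw [hY0]; simp [hq]
  have hne : (Y 0).2 ≠ 0 := by
    intro hz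
    have hc : S.Geo fun _ => ((Y 0).1, (0 : E)) := fun t =>
      ⟨(hY 0).1, (hasDerivAt_const t _).congr_deriv (by simp [Tube.field, Prod.ext_iff])⟩
    have hconst := Tube.Geo.eq_of_eq S hY hc (t₀ := 0) (by ext <;> simp [hz])
    have : (Y 1).1 = (y 0).1 := by rw [hconst, hY0']
    rw [hY1] at this
    rcases hseg with hs | hs
    · exact hs (by rw [← hY0']; exact hz)
    · refine hs ?_
      rw [← this]
      simp [hq, hR, hb0]
  refine symmetric_geodesic_infinite S hD hpD (c := c) hY (by norm_num : (0 : ℝ) < 4) hper hne ?_ ?_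
  · rw [hY0']; exact ha0
  · rw [hY0']; exact hv0

/-- Separated pieces of fixed sets of commuting involutions give infinitely many closed
geodesics when one of the involutions lies in a circle of isometries. -/
theorem chord (S : Tube M) (hM : IsPreconnected M) (hD : Skew D)
    (hpD : ∀ t : ℝ, ∀ x ∈ M, exp (t • D) x ∈ M) {c : ℝ}
    (hci : ∀ x ∈ M, exp (c • D) (exp (c • D) x) = x) (k : E ≃ₗᵢ[ℝ] E) (hkM : k '' M = M)
    (hki : ∀ x ∈ M, k (k x) = x) (hcomm : ∀ x ∈ M, k (exp (c • D) x) = exp (c • D) (k x))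
    {A B : Set E} (hA : IsClosed A) (hB : IsClosed B) (hAM : A ⊆ M) (hBM : B ⊆ M)
    (hA0 : A.Nonempty) (hB0 : B.Nonempty) (hd : Disjoint A B)
    (hAh : ∀ a ∈ A, exp (c • D) a = a) (hBk : ∀ b ∈ B, k b = b)
    (hAo : ∀ a ∈ A, ∀ᶠ y in 𝓝[M] a, exp (c • D) y = y → y ∈ A)
    (hBo : ∀ b ∈ B, ∀ᶠ y in 𝓝[M] b, k y = y → y ∈ B) :
    {s | IsClosedGeodesicImage M s}.Infinite := by
  obtain ⟨y, hsol, hyA, hyB, hv0, hv1⟩ :=
    S.exists_segment hM (rot hD c) k (rot_image hD hpD c) hkM hci hki hA hB hAM hBM hA0 hB0 hd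
      hAh hBk hAo hBo
  exact segment_infinite S hD hpD k hkM hcomm hsol (hAh _ hyA) (hBk _ hyB) hv0 hv1
    (Or.inr (hd.ne_of_mem hyA hyB))

end Vale.Agent.P216
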