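import Vale.Agent.P216.Flow

/-!
Curves of least Lipschitz constant between two closed subsets of a submanifold.
-/

namespace Vale.Agent.P216

open Metric Set Filter Topology MeasureTheory
open scoped RealInnerProductSpace ContDiff NNReal

variable {E : Type*} [NormedAddCommGroup E] [InnerProductSpace ℝ E] [FiniteDimensional ℝ E]

set_option linter.unusedSectionVars false

/-- The clamp to the unit interval. -/
noncomputable def clamp (t : ℝ) : ℝ := max 0 (min t 1)

lemma clamp_mem (t : ℝ) : clamp t ∈ Icc (0 : ℝ) 1 :=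
  ⟨le_max_left _ _, max_le zero_le_one (min_le_right _ _)⟩

lemma clamp_of_mem {t : ℝ} (h : t ∈ Icc (0 : ℝ) 1) : clamp t = t := by
  unfold clamp; rw [min_eq_left h.2, max_eq_right h.1]

lemma lipschitz_clamp : LipschitzWith 1 clamp :=
  ((LipschitzWith.id).min_const 1).const_max 0

/-- A Lipschitz curve in `M` from `x` to `y`. -/
def Joined (M : Set E) (x y : E) : Prop :=
  ∃ K : ℝ≥0, ∃ c : ℝ → E, LipschitzWith K c ∧ (∀ t, c t ∈ M) ∧ c 0 = x ∧ c 1 = y

lemma Joined.symm {M : Set E} {x y : E} (h : Joined M x y) : Joined M y x := by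
  obtain ⟨K, c, hc, hm, h0, h1⟩ := h
  refine ⟨K * 1, fun t => c (1 - t), hc.comp ?_, fun t => hm _, by simpa, by simpa⟩
  exact LipschitzWith.of_dist_le_mul fun s t => by
    rw [Real.dist_eq, Real.dist_eq, NNReal.coe_one, one_mul, ← abs_neg]
    exact le_of_eq (by ring_nf)

lemma Joined.trans {M : Set E} {x y z : E} (h : Joined M x y) (h' : Joined M y z) :
    Joined M x z := by
  obtain ⟨K, c, hc, hm, h0, h1⟩ := h
  obtain ⟨K', c', hc', hm', h0', h1'⟩ := h'
  have hL : ∀ a : ℝ, LipschitzWith 2 fun t : ℝ => clamp (2 * t - a) := fun a =>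
    LipschitzWith.of_dist_le_mul fun s t => by
      refine (lipschitz_clamp.dist_le_mul _ _).trans ?_
      rw [Real.dist_eq, Real.dist_eq, NNReal.coe_one, one_mul,
        show 2 * s - a - (2 * t - a) = 2 * (s - t) by ring, abs_mul]
      norm_num
  refine ⟨K * 2 + K' * 2, fun t => c (clamp (2 * t - 0)) + (c' (clamp (2 * t - 1)) - y), ?_, ?_,
    ?_, ?_⟩
  · refine (hc.comp (hL 0)).add ?_
    simpa using ((hc'.comp (hL 1)).sub (LipschitzWith.const y))
  · intro t
    dsimp only
    rcases le_total (2 * t) 1 with h | h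
    · rw [show clamp (2 * t - 1) = 0 from max_eq_left ((min_le_left _ _).trans (by linarith)), h0',
        sub_self, add_zero]
      exact hm _
    · rw [show clamp (2 * t - 0) = 1 by
        rw [sub_zero]; unfold clamp; rw [min_eq_right h, max_eq_right zero_le_one], h1,
        add_sub_cancel]
      exact hm' _
  · norm_num [clamp, h0, h0']
  · norm_num [clamp, h1, h1']

namespace Tube

variable {M : Set E} (S : Tube M)

lemma exists_lipschitz_r {K : Set E} (hK : IsCompact K) (hKU : K ⊆ S.U) :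
    ∃ C, LipschitzOnWith C S.r K := by
  refine LocallyLipschitzOn.exists_lipschitzOnWith_of_compact hK fun x hx => ?_
  obtain ⟨C, t, ht, h⟩ := ((S.contAt (hKU hx)).of_le (m := 1)
    (by exact_mod_cast le_top)).exists_lipschitzOnWith
  exact ⟨C, t, mem_nhdsWithin_of_mem_nhds ht, h⟩

include S in
lemma joined {x y : E} (hM : IsPreconnected M) (hx : x ∈ M) (hy : y ∈ M) : Joined M x y := by
  refine hM.induction₂ (Joined M) (fun a ha => ?_) (fun a b c _ _ _ => Joined.trans)
    (fun a b _ _ => Joined.symm) hx hy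
  refine eventually_of_mem (inter_mem_nhdsWithin M (ball_mem_nhds a S.pos)) fun b hb => ?_
  have hseg : ∀ t : ℝ, a + clamp t • (b - a) ∈ ball a S.ε := fun t => by
    rw [mem_ball, dist_eq_norm, add_sub_cancel_left, norm_smul, Real.norm_eq_abs,
      abs_of_nonneg (clamp_mem t).1]
    exact lt_of_le_of_lt (mul_le_of_le_one_left (norm_nonneg _) (clamp_mem t).2)
      (by rw [← dist_eq_norm]; exact hb.2)
  obtain ⟨C, hC⟩ := S.exists_lipschitz_r (isCompact_range
    (f := fun t : Icc (0 : ℝ) 1 => a + (t : ℝ) • (b - a)) (by fun_prop)) (by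
      rintro _ ⟨t, rfl⟩
      exact S.ball_sub ha (by simpa [clamp_of_mem t.2] using hseg t))
  have hl : LipschitzWith ‖b - a‖₊ fun t => a + clamp t • (b - a) :=
    LipschitzWith.of_dist_le_mul fun s t => by
      rw [dist_add_left, dist_eq_norm, ← sub_smul, norm_smul, coe_nnnorm,
        mul_comm ‖b - a‖ (dist s t)]
      gcongr
      simpa [Real.dist_eq] using lipschitz_clamp.dist_le_mul s t
  refine ⟨C * ‖b - a‖₊, fun t => S.r (a + clamp t • (b - a)), ?_,
    fun t => S.mem _ (S.ball_sub ha (hseg t)), ?_, ?_⟩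
  · exact lipschitzOnWith_univ.1 (hC.comp hl.lipschitzOnWith fun t _ =>
      ⟨⟨clamp t, clamp_mem t⟩, rfl⟩)
  · simp [clamp, S.fix ha]
  · simp [clamp, S.fix hb.1]

include S in
/-- A curve of least Lipschitz constant from `A` to `B`. -/
lemma exists_shortest (hM : IsPreconnected M) {A B : Set E} (hA : IsClosed A) (hB : IsClosed B)
    (hAM : A ⊆ M) (hBM : B ⊆ M) (hA0 : A.Nonempty) (hB0 : B.Nonempty) (hd : Disjoint A B) :
    ∃ L : ℝ≥0, 0 < L ∧ (∃ γ : ℝ → E, LipschitzWith L γ ∧ (∀ t, γ t ∈ M) ∧ γ 0 ∈ A ∧ γ 1 ∈ B) ∧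
      ∀ (L' : ℝ≥0) (f : ℝ → E), LipschitzOnWith L' f (Icc 0 1) →
        (∀ t ∈ Icc (0 : ℝ) 1, f t ∈ M) → f 0 ∈ A → f 1 ∈ B → L ≤ L' := by
  let K : ℝ≥0 → Set (ℝ → E) := fun L =>
    (univ.pi fun _ => M) ∩ {f | LipschitzWith L f} ∩ {f | f 0 ∈ A ∧ f 1 ∈ B}
  have hKc : ∀ L, IsClosed (K L) := fun L =>
    ((isClosed_set_pi fun _ _ => S.compact.isClosed).inter
      (by
        simp only [lipschitzWith_iff_dist_le_mul, ofPred_forall]
        exact isClosed_iInter fun s => isClosed_iInter fun t =>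
          isClosed_le ((continuous_apply s).dist (continuous_apply t)) continuous_const)).inter
      ((hA.preimage (continuous_apply (0 : ℝ))).inter (hB.preimage (continuous_apply (1 : ℝ))))
  have hKk : ∀ L, IsCompact (K L) := fun L =>
    (isCompact_univ_pi fun _ => S.compact).of_isClosed_subset (hKc L)
      (inter_subset_left.trans inter_subset_left)
  set T := {L : ℝ≥0 | (K L).Nonempty}
  have hT : T.Nonempty := by
    obtain ⟨a, ha⟩ := hA0
    obtain ⟨b, hb⟩ := hB0
    obtain ⟨L, c, hc, hm, h0, h1⟩ := S.joined hM (hAM ha) (hBM hb)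
    exact ⟨L, c, ⟨fun t _ => hm t, hc⟩, by rwa [h0], by rwa [h1]⟩
  have hmin : (K (sInf T)).Nonempty := by
    have hne : ∀ n : ℕ, (K (sInf T + 1 / (n + 1))).Nonempty := fun n => by
      obtain ⟨L, ⟨f, ⟨hf1, hf2⟩, hf3⟩, hL⟩ := exists_lt_of_csInf_lt hT
        (lt_add_of_pos_right (sInf T) (by positivity : (0 : ℝ≥0) < 1 / ((n : ℝ≥0) + 1)))
      exact ⟨f, ⟨hf1, hf2.weaken hL.le⟩, hf3⟩
    obtain ⟨f, hf⟩ := IsCompact.nonempty_iInter_of_sequence_nonempty_isCompact_isClosed
      (fun n : ℕ => K (sInf T + 1 / (n + 1)))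
      (fun n f hf => ⟨⟨hf.1.1, hf.1.2.weaken (by gcongr; simp)⟩, hf.2⟩) hne (hKk _)
      fun n => hKc _
    rw [mem_iInter] at hf
    refine ⟨f, ⟨(hf 0).1.1, LipschitzWith.of_dist_le_mul fun s t => ?_⟩, (hf 0).2⟩
    have h : Tendsto (fun n : ℕ => (((sInf T : ℝ≥0) : ℝ) + 1 / ((n : ℝ) + 1)) * dist s t) atTop
        (𝓝 ((((sInf T : ℝ≥0) : ℝ) + 0) * dist s t)) :=
      (tendsto_const_nhds.add tendsto_one_div_add_atTop_nhds_zero_nat).mul_const _
    rw [add_zero] at h
    refine ge_of_tendsto' h fun n => ?_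
    simpa using (hf n).1.2.dist_le_mul s t
  obtain ⟨γ, ⟨hγm, hγl⟩, hγA, hγB⟩ := hmin
  refine ⟨sInf T, ?_, ⟨γ, hγl, fun t => hγm t trivial, hγA, hγB⟩, fun L' f hf hfm h0 h1 => ?_⟩
  · refine pos_iff_ne_zero.2 fun h => ?_
    rw [h] at hγl
    have := hγl.dist_le_mul 0 1
    simp at this
    exact hd.ne_of_mem hγA hγB this
  · refine csInf_le (OrderBot.bddBelow _) ⟨fun t => f (clamp t), ⟨fun t _ => hfm _ (clamp_mem t),
      ?_⟩, ?_, ?_⟩
    · simpa [Function.comp_def] using lipschitzOnWith_univ.1 (hf.comp (lipschitz_clamp.lipschitzOnWith (s := univ))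
        fun t _ => clamp_mem t)
    · simpa [clamp] using h0
    · simpa [clamp] using h1

end Tube

lemma Lipschitz.norm_sub_le {L : ℝ≥0} {σ : ℝ → E} (hσ : LipschitzWith L σ) {s u : ℝ}
    (hsu : s ≤ u) : ‖σ u - σ s‖ ≤ ∫ t in s..u, ‖deriv σ t‖ := by
  have hint : ∀ f : ℝ → ℝ, StronglyMeasurable f → ∀ C, (∀ t, |f t| ≤ C) →
      IntervalIntegrable f volume s u := fun f hf C hC =>
    (intervalIntegrable_const (c := C)).mono_fun' hf.aestronglyMeasurable
      (Eventually.of_forall hC)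
  set e := σ u - σ s
  have hl : LipschitzWith (‖e‖₊ * L) fun t => ⟪e, σ t⟫ := by
    have := (innerSL ℝ e).lipschitz.comp hσ
    rw [show ‖innerSL ℝ e‖₊ = ‖e‖₊ from Subtype.ext (innerSL_apply_norm ℝ e)] at this
    simpa [Function.comp_def] using this
  have h := (hl.lipschitzOnWith (s := uIcc s u)).absolutelyContinuousOnInterval.integral_deriv_eq_sub
  rw [← inner_sub_right, real_inner_self_eq_norm_sq] at h
  have hle : ‖e‖ ^ 2 ≤ ‖e‖ * ∫ t in s..u, ‖deriv σ t‖ := by
    rw [← h, ← intervalIntegral.integral_const_mul]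
    refine intervalIntegral.integral_mono_ae hsu (hint _ (stronglyMeasurable_deriv _) _
      fun t => norm_deriv_le_of_lipschitz hl) (hint _ ((stronglyMeasurable_deriv σ).norm.const_mul _)
      (‖e‖ * L) fun t => ?_) ?_
    · rw [abs_of_nonneg (by positivity)]
      exact mul_le_mul_of_nonneg_left (norm_deriv_le_of_lipschitz hσ) (norm_nonneg _)
    · filter_upwards [hσ.ae_differentiableAt_real] with t ht
      rw [((hasDerivAt_const t e).inner ℝ ht.hasDerivAt).deriv, inner_zero_left, add_zero]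
      exact real_inner_le_norm _ _
  rcases (norm_nonneg e).eq_or_lt with h0 | h0
  · rw [← h0]
    exact intervalIntegral.integral_nonneg hsu fun t _ => norm_nonneg _
  · rw [sq] at hle
    exact le_of_mul_le_mul_left hle h0

end Vale.Agent.P216
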