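import Mathlib

/-!
Closed submanifolds of a Euclidean space, their closed geodesics and rotations.
-/

namespace Vale.Agent.P216

open Metric Set
open scoped RealInnerProductSpace ContDiff

/-- A compact subset whose nearest point map is defined, single valued and smooth on a uniform
neighbourhood. -/
def IsClosedSubmanifold {E : Type*} [NormedAddCommGroup E] [InnerProductSpace ℝ E] (M : Set E) :
    Prop :=
  IsCompact M ∧ ∃ ε > 0, ∃ r : E → E, ContDiffOn ℝ ∞ r (thickening ε M) ∧
    ∀ x ∈ thickening ε M, r x ∈ M ∧ ∀ m ∈ M, m ≠ r x → dist x (r x) < dist x m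

/-- The image of a nonconstant periodic curve of class `C²` in `M` with acceleration normal
to `M`. -/
def IsClosedGeodesicImage {E : Type*} [NormedAddCommGroup E] [InnerProductSpace ℝ E]
    (M S : Set E) : Prop :=
  ∃ c : ℝ → E, ∃ T > 0, ContDiff ℝ 2 c ∧ (∀ t, c t ∈ M) ∧ (∀ t, c (t + T) = c t) ∧
    (∃ t, c t ≠ c 0) ∧
    (∀ t, ∀ v ∈ tangentConeAt ℝ M (c t), ⟪deriv (deriv c) t, v⟫ = 0) ∧ S = range c

/-- Linear maps of the ambient space. -/
abbrev Op (E : Type*) [NormedAddCommGroup E] [InnerProductSpace ℝ E] := E →L[ℝ] E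

section

variable {E : Type*} [NormedAddCommGroup E] [InnerProductSpace ℝ E]

/-- The one-parameter group generated by `A`. -/
noncomputable def flow (A : Op E) (t : ℝ) (x : E) : E := NormedSpace.exp (t • A) x

/-- The bracket of two linear maps. -/
noncomputable def bracket (X Y : Op E) : Op E := X * Y - Y * X

/-- Euclidean space of dimension `N`. -/
abbrev Euc (N : ℕ) : Type := EuclideanSpace ℝ (Fin N)

/-- A skew-adjoint linear map. -/
def IsSkew (A : Op E) : Prop := ∀ x y, ⟪A x, y⟫ = -⟪x, A y⟫

/-- The flow of `A` maps `M` into itself. -/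
def Preserves (M : Set E) (A : Op E) : Prop := ∀ t : ℝ, ∀ x ∈ M, flow A t x ∈ M

/-- The full turn of `A` is the identity. -/
def IsPeriodic (A : Op E) : Prop := NormedSpace.exp A = 1

/-- The generator of an action of the circle by linear isometries preserving `M`. -/
def IsRotation (M : Set E) (A : Op E) : Prop := IsSkew A ∧ IsPeriodic A ∧ Preserves M A

/-- The generator of a one-parameter group of linear isometries preserving `M`. -/
def IsSymmetry (M : Set E) (X : Op E) : Prop := IsSkew X ∧ Preserves M X

/-- The commutators of two symmetries of `M`. -/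
def commutators (M : Set E) : Set (Op E) :=
  {Z | ∃ X Y, IsSymmetry M X ∧ IsSymmetry M Y ∧ Z = bracket X Y}

/-- `A` is a real combination of commutators of symmetries of `M`. -/
def InDerived (M : Set E) (A : Op E) : Prop := A ∈ Submodule.span ℝ (commutators M)

/-- A circle of symmetries, nontrivial on `M`, in the derived algebra. -/
def HasNonabelianSymmetry (M : Set E) : Prop :=
  ∃ A, IsRotation M A ∧ InDerived M A ∧ ∃ x ∈ M, A x ≠ 0

/-- No nonzero combination of `A` and `B` vanishes on `M`. -/
def ActsEffectively (M : Set E) (A B : Op E) : Prop :=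
  ∀ a b : ℝ, (a, b) ≠ 0 → ∃ x ∈ M, a • A x + b • B x ≠ 0

/-- Two commuting circles, effective on `M`. -/
def HasTorusSymmetry (M : Set E) : Prop :=
  ∃ A B, IsRotation M A ∧ IsRotation M B ∧ Commute A B ∧ ActsEffectively M A B

/-- A circle, nontrivial on `M`, with a fixed point in `M`. -/
def HasCircleWithFixedPoint (M : Set E) : Prop :=
  ∃ A, IsRotation M A ∧ (∃ x ∈ M, A x ≠ 0) ∧ ∃ x ∈ M, A x = 0

/-- A circle whose half turn fixes some point of `M` and moves another. -/
def HasHalfTurnWithFixedPoint (M : Set E) : Prop :=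
  ∃ A, IsRotation M A ∧ (∃ x ∈ M, flow A (1 / 2) x = x) ∧ ∃ x ∈ M, flow A (1 / 2) x ≠ x

/-- There are infinitely many images of closed geodesics. -/
def InfinitelyManyClosedGeodesics (M : Set E) : Prop := {S | IsClosedGeodesicImage M S}.Infinite

end

end Vale.Agent.P216
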