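import Vale.Agent.P216.Loops

/-!
Gradient descent of the energy of polygons.
-/

namespace Vale.Agent.P216

open Metric Set Filter Topology
open scoped RealInnerProductSpace ContDiff

variable {E : Type*} [NormedAddCommGroup E] [InnerProductSpace ℝ E] [FiniteDimensional ℝ E]

set_option linter.unusedSectionVars false

variable {M G : Set E} {h : E ≃ₗᵢ[ℝ] E}

lemma sum_parts (x u : ℕ → E) {n : ℕ} (hn : 1 ≤ n) :
    ∑ i ∈ Finset.range n, ⟪x (i + 1) - x i, u (i + 1) - u i⟫ =
      ⟪x 0 - x 1, u 0⟫ + ⟪x n - x (n - 1), u n⟫ +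
        ∑ i ∈ Finset.Ico 1 n, ⟪x i - x (i - 1) + (x i - x (i + 1)), u i⟫ := by
  induction n, hn using Nat.le_induction with
  | base => simp [inner_sub_left, inner_sub_right]; ring
  | succ n hn ih =>
    rw [Finset.sum_range_succ, ih, Finset.sum_Ico_succ_top hn]
    simp only [inner_sub_left, inner_sub_right, inner_add_left, Nat.add_sub_cancel]
    ring

lemma energy_congr {n : ℕ} {x x' : ℕ → E} (h : ∀ i ≤ n, x i = x' i) :
    energy n x = energy n x' := by
  unfold energy
  congr 1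
  exact Finset.sum_congr rfl fun i hi => by
    rw [h _ (Finset.mem_range.1 hi), h _ (Finset.mem_range.1 hi).le]

lemma continuous_energy (n : ℕ) : Continuous (energy (E := E) n) :=
  continuous_const.mul (continuous_finsetSum _ fun i _ =>
    (((continuous_apply (i + 1)).sub (continuous_apply i)).norm.pow 2))

namespace Tube

variable (S : Tube M)

/-- One step of descent of length `τ`. -/
noncomputable def descStep (h : E ≃ₗᵢ[ℝ] E) (n : ℕ) (x : ℕ → E) (τ : ℝ) (i : ℕ) : E :=
  if i ≤ n then S.r (x i - τ • S.grad h n x i) else 0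

lemma continuousOn_grad {n : ℕ} (_hn : 1 ≤ n) (i : ℕ) :
    ContinuousOn (fun x : ℕ → E => S.grad h n x i) {x | ∀ j ≤ n, x j ∈ M} := by
  have hP : ∀ j ≤ n, ContinuousOn (fun x : ℕ → E => S.P (x j)) {x | ∀ k ≤ n, x k ∈ M} :=
    fun j hj => S.smoothP.continuousOn.comp (continuous_apply j).continuousOn
      fun x hx => S.sub (hx j hj)
  have hd : ∀ j k : ℕ, Continuous fun x : ℕ → E => x j - x k := fun j k =>
    (continuous_apply j).sub (continuous_apply k)
  unfold grad
  split_ifs with h0 h1 h2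
  · exact (((hP 0 (Nat.zero_le _)).clm_apply (hd 0 1).continuousOn).add (h.continuous.comp_continuousOn
      ((hP 0 (Nat.zero_le _)).clm_apply (hd 0 1).continuousOn))).const_smul (1 / 2 : ℝ)
  · exact (((hP n le_rfl).clm_apply (hd n (n - 1)).continuousOn).add (h.continuous.comp_continuousOn
      ((hP n le_rfl).clm_apply (hd n (n - 1)).continuousOn))).const_smul (1 / 2 : ℝ)
  · exact (hP i h2.le).clm_apply ((hd i (i - 1)).add (hd i (i + 1))).continuousOn
  · exact continuousOn_const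

lemma grad_tangent (hG : FixedPiece M G h) {n : ℕ} {x : ℕ → E} (hx : IsPoly M G n x) (i : ℕ)
    (hi : i ≤ n) : S.P (x i) (S.grad h n x i) = S.grad h n x i ∧
      ((i = 0 ∨ i = n) → h (S.grad h n x i) = S.grad h n x i) := by
  have key : ∀ j ≤ n, x j ∈ G → ∀ w, S.P (x j) ((1 / 2 : ℝ) • (S.P (x j) w + h (S.P (x j) w))) =
      (1 / 2 : ℝ) • (S.P (x j) w + h (S.P (x j) w)) ∧
      h ((1 / 2 : ℝ) • (S.P (x j) w + h (S.P (x j) w))) =
        (1 / 2 : ℝ) • (S.P (x j) w + h (S.P (x j) w)) := by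
    intro j hj hjG w
    have hm := S.P_mem (hx.1 j hj) w
    constructor
    · rw [map_smul, (S.cone_eq (hx.1 j hj)).1 (S.cone_sym h hG.image (hx.1 j hj) (hG.fixed _ hjG) hm)]
    · rw [map_smul, map_add, S.cone_invol h hG.invol (hx.1 j hj) hm, add_comm]
  unfold grad
  split_ifs with h0 h1 h2
  · subst h0; exact ⟨(key 0 hi hx.2.1 _).1, fun _ => (key 0 hi hx.2.1 _).2⟩
  · subst h1; exact ⟨(key i le_rfl hx.2.2 _).1, fun _ => (key i le_rfl hx.2.2 _).2⟩
  · exact ⟨S.P_idem (hx.1 i hi) _, fun h' => absurd h' (by omega)⟩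
  · exact absurd (lt_of_le_of_ne hi h1) h2

lemma grad_pairing (hG : FixedPiece M G h) {n : ℕ} (hn : 2 ≤ n) {x : ℕ → E}
    (hx : IsPoly M G n x) :
    ∑ i ∈ Finset.range n, ⟪x (i + 1) - x i, S.grad h n x (i + 1) - S.grad h n x i⟫ =
      ∑ i ∈ Finset.range (n + 1), ‖S.grad h n x i‖ ^ 2 := by
  have hend : ∀ j ≤ n, x j ∈ G → ∀ w, ∀ g, g = (1 / 2 : ℝ) • (S.P (x j) w + h (S.P (x j) w)) →
      S.P (x j) g = g → h g = g → ⟪w, g⟫ = ‖g‖ ^ 2 := by
    intro j hj _ w g hg hPg hhg
    have e1 : ⟪w, g⟫ = ⟪S.P (x j) w, g⟫ := by rw [S.P_symm (hx.1 j hj), hPg]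
    have e2 : ⟪h (S.P (x j) w), g⟫ = ⟪S.P (x j) w, g⟫ := by
      nth_rw 1 [← hhg]; exact h.inner_map_map _ _
    rw [← real_inner_self_eq_norm_sq]
    nth_rw 2 [hg]
    rw [real_inner_smul_left, inner_add_left, e2, e1]
    ring
  have g0 : ⟪x 0 - x 1, S.grad h n x 0⟫ = ‖S.grad h n x 0‖ ^ 2 :=
    hend 0 (Nat.zero_le _) hx.2.1 _ _ (by simp [grad]) (S.grad_tangent hG hx 0 (Nat.zero_le _)).1
      ((S.grad_tangent hG hx 0 (Nat.zero_le _)).2 (Or.inl rfl))
  have gn : ⟪x n - x (n - 1), S.grad h n x n⟫ = ‖S.grad h n x n‖ ^ 2 :=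
    hend n le_rfl hx.2.2 _ _ (by simp [grad, show n ≠ 0 by omega]) (S.grad_tangent hG hx n le_rfl).1
      ((S.grad_tangent hG hx n le_rfl).2 (Or.inr rfl))
  rw [sum_parts _ _ (by omega : 1 ≤ n), g0, gn, Finset.sum_range_succ, ← Finset.sum_range_add_sum_Ico
    (fun i => ‖S.grad h n x i‖ ^ 2) (by omega : 1 ≤ n)]
  rw [Finset.sum_range_one]
  suffices e : ∑ i ∈ Finset.Ico 1 n, ⟪x i - x (i - 1) + (x i - x (i + 1)), S.grad h n x i⟫ =
      ∑ i ∈ Finset.Ico 1 n, ‖S.grad h n x i‖ ^ 2 by rw [e]; ring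
  refine Finset.sum_congr rfl fun i hi => ?_
  rw [Finset.mem_Ico] at hi
  have hg : S.grad h n x i = S.P (x i) (x i - x (i - 1) + (x i - x (i + 1))) := by
    simp [grad, show i ≠ 0 by omega, hi.2.ne, hi.2]
  rw [← real_inner_self_eq_norm_sq, hg, S.P_symm (hx.1 i hi.2.le), S.P_idem (hx.1 i hi.2.le)]

end Tube

/-- Without critical polygons, descent shrinks every polygon, keeping polygons in `G` inside `G`. -/
theorem exists_descent (S : Tube M) (hG : FixedPiece M G h) {δ C : ℝ} (hδ : 0 < δ) {n : ℕ}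
    (hn : 2 ≤ n) {ρ : ℝ} (hρ0 : 0 < ρ) (hρε : ρ < S.ε)
    (hρ : ∀ w, h w = w → ∀ a ∈ G, dist w a < ρ → S.r w ∈ G)
    (hreg : ∀ x : ℕ → E, IsPoly M G n x → δ ≤ energy n x → energy n x ≤ C →
      ∃ i ≤ n, S.grad h n x i ≠ 0) :
    ∃ Φ : (ℕ → E) × ℝ → ℕ → E,
      (∀ i ≤ n, ContinuousOn (fun p => Φ p i)
        ({x | IsPoly M G n x ∧ energy n x ≤ C} ×ˢ Icc (0 : ℝ) 1)) ∧
      ∀ x, IsPoly M G n x → energy n x ≤ C →
        (∀ i ≤ n, Φ (x, 0) i = x i) ∧
        (∀ s ∈ Icc (0 : ℝ) 1, IsPoly M G n (Φ (x, s)) ∧ energy n (Φ (x, s)) ≤ C) ∧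
        energy n (Φ (x, 1)) ≤ 2 * δ ∧
        ((∀ i ≤ n, x i ∈ G) → ∀ s ∈ Icc (0 : ℝ) 1, ∀ i ≤ n, Φ (x, s) i ∈ G) := by
  -- compact models of all polygons and of the band
  set P0 : Set (ℕ → E) := univ.pi fun i =>
    if i = 0 ∨ i = n then G else if i ≤ n then M else {0}
  have hP0 : IsCompact P0 := isCompact_univ_pi fun i => by
    split_ifs
    · exact S.compact.of_isClosed_subset hG.closed hG.sub
    · exact S.compact
    · exact isCompact_singleton
  have hP0p : ∀ x ∈ P0, IsPoly M G n x := fun x hx => by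
    refine ⟨fun i hi => ?_, by simpa using hx 0 trivial, by simpa using hx n trivial⟩
    have := hx i trivial
    dsimp only at this
    split_ifs at this
    · exact hG.sub this
    · exact this
  set trunc : (ℕ → E) → ℕ → E := fun x i => if i ≤ n then x i else 0 with htr
  have htrP : ∀ x, IsPoly M G n x → trunc x ∈ P0 := fun x hx i _ => by
    simp only [htr]
    split_ifs with h1 h2 h3
    · rcases h1 with rfl | rfl; exacts [hx.2.1, hx.2.2]
    · exact absurd (h1.elim (fun h => h ▸ Nat.zero_le n) fun h => h.le) h2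
    · exact hx.1 i h3
    · rfl
  have hgc : ∀ i, ContinuousOn (fun x => S.grad h n x i) {x | ∀ j ≤ n, x j ∈ M} :=
    S.continuousOn_grad (by omega)
  -- a safe length of steps
  obtain ⟨Gb, hGb⟩ := hP0.exists_bound_of_continuousOn
    (f := fun x => ∑ i ∈ Finset.range (n + 1), ‖S.grad h n x i‖)
    ((continuousOn_finsetSum _ fun i _ => (hgc i).norm).mono fun x hx => (hP0p x hx).1)
  have hgrad : ∀ x ∈ P0, ∀ i ≤ n, ‖S.grad h n x i‖ ≤ Gb := fun x hx i hi =>
    ((Finset.single_le_sum (f := fun j => ‖S.grad h n x j‖) (fun j _ => norm_nonneg _)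
      (Finset.mem_range.2 (by omega : i < n + 1))).trans (le_abs_self _)).trans (hGb x hx)
  set τ0 : ℝ := ρ / 2 / (|Gb| + 1) with hτ0
  have hτ0p : 0 < τ0 := by positivity
  have hnear : ∀ x ∈ P0, ∀ τ ∈ Icc (0 : ℝ) τ0, ∀ i ≤ n,
      dist (x i - τ • S.grad h n x i) (x i) < ρ := fun x hx τ hτ i hi => by
    rw [dist_eq_norm, sub_sub_cancel_left, norm_neg, norm_smul, Real.norm_eq_abs,
      abs_of_nonneg hτ.1]
    calc τ * ‖S.grad h n x i‖ ≤ τ0 * (|Gb| + 1) := mul_le_mul hτ.2
          ((hgrad x hx i hi).trans (by linarith [le_abs_self Gb])) (norm_nonneg _) hτ0p.le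
      _ = ρ / 2 := div_mul_cancel₀ _ (by positivity)
      _ < ρ := by linarith
  have hU : ∀ x ∈ P0, ∀ τ ∈ Icc (0 : ℝ) τ0, ∀ i ≤ n, x i - τ • S.grad h n x i ∈ S.U :=
    fun x hx τ hτ i hi =>
      S.ball_sub ((hP0p x hx).1 i hi) (mem_ball.2 ((hnear x hx τ hτ i hi).trans hρε))
  have hstepP : ∀ x ∈ P0, ∀ τ ∈ Icc (0 : ℝ) τ0, S.descStep h n x τ ∈ P0 ∧
      ((∀ i ≤ n, x i ∈ G) → ∀ i ≤ n, S.descStep h n x τ i ∈ G) := by
    intro x hx τ hτ
    have hfix : ∀ i ≤ n, x i ∈ G → h (S.grad h n x i) = S.grad h n x i →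
        S.descStep h n x τ i ∈ G := fun i hi hiG hg => by
      simp only [Tube.descStep, hi, if_true]
      exact hρ _ (by rw [map_sub, map_smul, hg, hG.fixed _ hiG]) _ hiG (hnear x hx τ hτ i hi)
    refine ⟨fun i _ => ?_, fun hall i hi => hfix i hi (hall i hi) ?_⟩
    · dsimp only
      split_ifs with h1 h2
      · rcases h1 with rfl | rfl
        · exact hfix 0 (Nat.zero_le _) (hP0p x hx).2.1
            ((S.grad_tangent hG (hP0p x hx) 0 (Nat.zero_le _)).2 (Or.inl rfl))
        · exact hfix i le_rfl (hP0p x hx).2.2 ((S.grad_tangent hG (hP0p x hx) i le_rfl).2 (Or.inr rfl))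
      · simp only [Tube.descStep, h2, if_true]
        exact S.mem _ (hU x hx τ hτ i h2)
      · simp only [Tube.descStep, h2, if_false]; rfl
    · rcases eq_or_ne i 0 with h0 | h0
      · exact (S.grad_tangent hG (hP0p x hx) i hi).2 (Or.inl h0)
      rcases eq_or_ne i n with h1 | h1
      · exact (S.grad_tangent hG (hP0p x hx) i hi).2 (Or.inr h1)
      have hin : i < n := lt_of_le_of_ne hi h1
      have hfx : h (x i) = x i := hG.fixed _ (hall i hi)
      simp only [Tube.grad, h0, h1, hin, if_false, if_true]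
      have := S.P_equivariant h hG.image ((hP0p x hx).1 i hi) (x i - x (i - 1) + (x i - x (i + 1)))
      rw [hfx, map_add, map_sub, map_sub, hfx, hG.fixed _ (hall (i - 1) (by omega)),
        hG.fixed _ (hall (i + 1) (by omega))] at this
      exact this.symm
  -- the derivative of the energy along a step
  set d : (ℕ → E) × ℝ → ℝ := fun p => (n : ℝ) * ∑ i ∈ Finset.range n,
    2 * ⟪S.r (p.1 (i + 1) - p.2 • S.grad h n p.1 (i + 1)) - S.r (p.1 i - p.2 • S.grad h n p.1 i),
      S.P (p.1 (i + 1) - p.2 • S.grad h n p.1 (i + 1)) (-S.grad h n p.1 (i + 1)) -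
        S.P (p.1 i - p.2 • S.grad h n p.1 i) (-S.grad h n p.1 i)⟫ with hd
  have hderiv : ∀ x ∈ P0, ∀ τ ∈ Icc (0 : ℝ) τ0,
      HasDerivAt (fun τ => energy n (S.descStep h n x τ)) (d (x, τ)) τ := by
    intro x hx τ hτ
    have hi : ∀ i ≤ n, HasDerivAt (fun τ => S.descStep h n x τ i)
        (S.P (x i - τ • S.grad h n x i) (-S.grad h n x i)) τ := by
      intro i hi
      have hl : HasDerivAt (fun τ : ℝ => x i - τ • S.grad h n x i) (-S.grad h n x i) τ := by
        simpa using ((hasDerivAt_id τ).smul_const (S.grad h n x i)).const_sub (x i)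
      simp only [Tube.descStep, hi, if_true]
      exact (S.hasP (hU x hx τ hτ i hi)).comp_hasDerivAt τ hl
    refine (HasDerivAt.fun_sum fun i hii => ?_).const_mul (n : ℝ)
    have hii' := Finset.mem_range.1 hii
    have h2 := ((hi (i + 1) hii').sub (hi i hii'.le)).norm_sq
    simpa [Tube.descStep, hii', hii'.le, Pi.sub_def] using h2
  have hdc : ContinuousOn d (P0 ×ˢ Icc (0 : ℝ) τ0) := by
    have hg : ∀ i, ContinuousOn (fun p : (ℕ → E) × ℝ => S.grad h n p.1 i) (P0 ×ˢ Icc 0 τ0) :=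
      fun i => (hgc i).comp continuousOn_fst fun p hp => (hP0p _ hp.1).1
    have hw : ∀ i, ContinuousOn (fun p : (ℕ → E) × ℝ => p.1 i - p.2 • S.grad h n p.1 i)
        (P0 ×ˢ Icc 0 τ0) := fun i =>
      ((continuous_apply i).comp continuous_fst).continuousOn.sub (continuousOn_snd.smul (hg i))
    refine continuousOn_const.mul (continuousOn_finsetSum _ fun i hi => continuousOn_const.mul ?_)
    have hi' := Finset.mem_range.1 hi
    have m1 : ∀ j ≤ n, MapsTo (fun p : (ℕ → E) × ℝ => p.1 j - p.2 • S.grad h n p.1 j)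
        (P0 ×ˢ Icc 0 τ0) S.U := fun j hj p hp => hU p.1 hp.1 p.2 hp.2 j hj
    exact ((S.smooth.continuousOn.comp (hw _) (m1 _ hi')).sub
      (S.smooth.continuousOn.comp (hw _) (m1 _ hi'.le))).inner
      (((S.smoothP.continuousOn.comp (hw _) (m1 _ hi')).clm_apply (hg _).neg).sub
        ((S.smoothP.continuousOn.comp (hw _) (m1 _ hi'.le)).clm_apply (hg _).neg))
  have hd0 : ∀ x ∈ P0, d (x, 0) = -2 * n * ∑ i ∈ Finset.range (n + 1), ‖S.grad h n x i‖ ^ 2 := by
    intro x hx
    have hp := hP0p x hx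
    rw [← S.grad_pairing hG hn hp]
    simp only [hd, Finset.mul_sum]
    refine Finset.sum_congr rfl fun i hi => ?_
    have hi' := Finset.mem_range.1 hi
    simp only [zero_smul, sub_zero, map_neg, S.fix (hp.1 _ hi'), S.fix (hp.1 _ hi'.le),
      (S.grad_tangent hG hp _ hi').1, (S.grad_tangent hG hp _ hi'.le).1]
    simp only [inner_sub_left, inner_sub_right, inner_neg_right]
    ring
  -- the band
  set Bd : Set (ℕ → E) := P0 ∩ {x | δ ≤ energy n x ∧ energy n x ≤ C}
  have hBd : IsCompact Bd := hP0.inter_right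
    ((isClosed_le continuous_const (continuous_energy n)).inter
      (isClosed_le (continuous_energy n) continuous_const))
  obtain ⟨μ, hμ, hμd⟩ : ∃ μ > 0, ∀ x ∈ Bd, d (x, 0) ≤ -μ := by
    rcases Bd.eq_empty_or_nonempty with he | hne
    · exact ⟨1, one_pos, by simp [he]⟩
    obtain ⟨x, hx, hmax⟩ := hBd.exists_isMaxOn hne (hdc.comp (f := fun x => (x, (0 : ℝ)))
      (continuous_id.prodMk continuous_const).continuousOn
      fun x hx => ⟨hx.1, le_rfl, hτ0p.le⟩)
    refine ⟨-d (x, 0), ?_, fun z hz => by rw [neg_neg]; exact hmax hz⟩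
    obtain ⟨i, hi, hne'⟩ := hreg x (hP0p x hx.1) hx.2.1 hx.2.2
    have hs : 0 < ∑ j ∈ Finset.range (n + 1), ‖S.grad h n x j‖ ^ 2 :=
      Finset.sum_pos' (fun j _ => sq_nonneg _) ⟨i, Finset.mem_range.2 (by omega), by positivity⟩
    have hn' : (0 : ℝ) < n := by exact_mod_cast (by omega : 0 < n)
    rw [gt_iff_lt, hd0 x hx.1]
    nlinarith
  obtain ⟨η, hη, hunif⟩ := Metric.mem_nhds_iff.1
    (hBd.eventually_forall_of_forall_eventually (x₀ := (0 : ℝ))
      (P := fun τ x => τ ∈ Icc (0 : ℝ) τ0 → x ∈ P0 → d (x, τ) < -(μ / 2)) fun x hx => by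
        have hlt : d (x, 0) < -(μ / 2) := by linarith [hμd x hx]
        have := (hdc (x, 0) ⟨hx.1, le_rfl, hτ0p.le⟩).eventually (gt_mem_nhds hlt)
        rw [eventually_nhdsWithin_iff] at this
        exact ((continuous_snd.prodMk continuous_fst).continuousAt (x := ((0 : ℝ), x))).eventually this
          |>.mono fun p hp h1 h2 => hp ⟨h2, h1⟩)
  set τ1 : ℝ := min (η / 2) τ0 with hτ1
  have hτ1p : 0 < τ1 := lt_min (half_pos hη) hτ0p
  have hτ1' : ∀ τ ∈ Icc (0 : ℝ) τ1, τ ∈ Icc (0 : ℝ) τ0 := fun τ hτ =>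
    ⟨hτ.1, hτ.2.trans (min_le_right _ _)⟩
  have hdown : ∀ x ∈ Bd, ∀ τ ∈ Icc (0 : ℝ) τ1,
      energy n (S.descStep h n x τ) ≤ energy n x - τ * (μ / 2) := by
    intro x hx τ hτ
    have hlt : ∀ u ∈ Icc (0 : ℝ) τ1, d (x, u) ≤ -(μ / 2) := fun u hu => le_of_lt <|
      hunif (show u ∈ ball (0 : ℝ) η by
        rw [mem_ball, Real.dist_eq, sub_zero, abs_of_nonneg hu.1]
        linarith [hu.2.trans (min_le_left (η / 2) τ0)]) x hx (hτ1' u hu) hx.1
    have hle := (convex_Icc (0 : ℝ) τ1).image_sub_le_mul_sub_of_deriv_le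
      (f := fun u => energy n (S.descStep h n x u))
      (fun u hu => (hderiv x hx.1 u (hτ1' u hu)).continuousAt.continuousWithinAt)
      (fun u hu => (hderiv x hx.1 u (hτ1' u (interior_subset hu))).differentiableAt.differentiableWithinAt)
      (C := -(μ / 2)) (fun u hu => by
        rw [(hderiv x hx.1 u (hτ1' u (interior_subset hu))).deriv]; exact hlt u (interior_subset hu))
      0 (left_mem_Icc.2 hτ1p.le) τ hτ hτ.1
    have e0 : energy n (S.descStep h n x 0) = energy n x := energy_congr fun i hi => by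
      simp [Tube.descStep, hi, S.fix ((hP0p x hx.1).1 i hi)]
    rw [e0] at hle
    linarith
  -- the iteration
  set len : (ℕ → E) → ℝ → ℝ := fun x s => s * (τ1 * clamp ((energy n x - δ) / δ)) with hlen
  set ψ : ℝ → (ℕ → E) → ℕ → E := fun s x => S.descStep h n x (len x s) with hψ
  have hlenI : ∀ x, ∀ s ∈ Icc (0 : ℝ) 1, len x s ∈ Icc (0 : ℝ) τ1 := fun x s hs => by
    have hc := clamp_mem ((energy n x - δ) / δ)
    exact ⟨mul_nonneg hs.1 (mul_nonneg hτ1p.le hc.1),
      (mul_le_of_le_one_left (mul_nonneg hτ1p.le hc.1) hs.2).trans (mul_le_of_le_one_right hτ1p.le hc.2)⟩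
  have hψP : ∀ s ∈ Icc (0 : ℝ) 1, ∀ x ∈ P0, energy n x ≤ C →
      ψ s x ∈ P0 ∧ energy n (ψ s x) ≤ energy n x ∧
        ((∀ i ≤ n, x i ∈ G) → ∀ i ≤ n, ψ s x i ∈ G) ∧
        (s = 1 → energy n (ψ s x) ≤ max (2 * δ) (energy n x - τ1 * (μ / 2))) := by
    intro s hs x hx hxC
    obtain ⟨h1, h2⟩ := hstepP x hx _ (hτ1' _ (hlenI x s hs))
    refine ⟨h1, ?_, h2, fun hs1 => ?_⟩
    all_goals
      rcases le_total δ (energy n x) with hb | hb
    · exact (hdown x ⟨hx, hb, hxC⟩ _ (hlenI x s hs)).trans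
        (sub_le_self _ (mul_nonneg (hlenI x s hs).1 (by positivity)))
    · have : len x s = 0 := by
        simp [hlen, show clamp ((energy n x - δ) / δ) = 0 from max_eq_left
          ((min_le_left _ _).trans (div_nonpos_of_nonpos_of_nonneg (by linarith) hδ.le))]
      refine le_of_eq (energy_congr fun i hi => ?_)
      simp [hψ, this, Tube.descStep, hi, S.fix ((hP0p x hx).1 i hi)]
    · refine (hdown x ⟨hx, hb, hxC⟩ _ (hlenI x s hs)).trans ?_
      rcases le_total (2 * δ) (energy n x) with hb2 | hb2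
      · have : len x s = τ1 := by
          simp only [hlen, hs1]
          unfold clamp
          rw [min_eq_right ((le_div_iff₀ hδ).2 (by linarith)), max_eq_right zero_le_one]
          ring
        rw [this]; exact le_max_right _ _
      · exact (sub_le_self _ (mul_nonneg (hlenI x s hs).1 (by positivity))).trans
          (hb2.trans (le_max_left _ _))
    · have : len x s = 0 := by
        simp [hlen, show clamp ((energy n x - δ) / δ) = 0 from max_eq_left
          ((min_le_left _ _).trans (div_nonpos_of_nonpos_of_nonneg (by linarith) hδ.le))]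
      refine le_trans (le_of_eq (energy_congr fun i hi => ?_)) ((hb.trans (by linarith)).trans (le_max_left _ _))
      simp [hψ, this, Tube.descStep, hi, S.fix ((hP0p x hx).1 i hi)]
  obtain ⟨k, hk⟩ := exists_nat_ge ((C - 2 * δ) / (τ1 * (μ / 2)))
  have hiter : ∀ j, ∀ s ∈ Icc (0 : ℝ) 1, ∀ x ∈ P0, energy n x ≤ C →
      (ψ s)^[j] x ∈ P0 ∧ energy n ((ψ s)^[j] x) ≤ C ∧
        ((∀ i ≤ n, x i ∈ G) → ∀ i ≤ n, (ψ s)^[j] x i ∈ G) ∧
        (s = 1 → energy n ((ψ s)^[j] x) ≤ max (2 * δ) (C - j * (τ1 * (μ / 2)))) := by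
    intro j
    induction j with
    | zero => intro s _ x hx hC; exact ⟨hx, hC, fun hg => hg, fun _ => by simp [hC]⟩
    | succ j ih =>
      intro s hs x hx hC
      obtain ⟨a1, a2, a3, a4⟩ := ih s hs x hx hC
      obtain ⟨b1, b2, b3, b4⟩ := hψP s hs _ a1 a2
      rw [Function.iterate_succ_apply']
      refine ⟨b1, b2.trans a2, fun hg => b3 (a3 hg), fun hs1 => (b4 hs1).trans ?_⟩
      refine max_le (le_max_left _ _) ?_
      have hpos : 0 ≤ τ1 * (μ / 2) := by positivity
      rcases le_max_iff.1 (a4 hs1) with h' | h'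
      · exact le_max_of_le_left (by linarith)
      · exact le_max_of_le_right (by push_cast; linarith)
  refine ⟨fun p => (ψ p.2)^[k] (trunc p.1), ?_, fun x hx hxC => ⟨?_, fun s hs => ?_, ?_, ?_⟩⟩
  · have hc : ∀ j, ∀ i, ContinuousOn (fun p : (ℕ → E) × ℝ => (ψ p.2)^[j] (trunc p.1) i)
        ({x | IsPoly M G n x ∧ energy n x ≤ C} ×ˢ Icc (0 : ℝ) 1) := by
      intro j
      induction j with
      | zero =>
        intro i
        simp only [Function.iterate_zero, id, htr]
        split_ifs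
        · exact ((continuous_apply i).comp continuous_fst).continuousOn
        · exact continuousOn_const
      | succ j ih =>
        intro i
        simp only [Function.iterate_succ_apply', hψ, Tube.descStep]
        split_ifs with hi
        · have hm : ∀ p ∈ {x | IsPoly M G n x ∧ energy n x ≤ C} ×ˢ Icc (0 : ℝ) 1,
              (ψ p.2)^[j] (trunc p.1) ∈ P0 := fun p hp =>
            (hiter j p.2 hp.2 _ (htrP _ hp.1.1)
              ((energy_congr fun i hi => by simp [htr, hi]).trans_le hp.1.2)).1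
          have hv := continuousOn_pi.2 ih
          have hlc : ContinuousOn (fun p : (ℕ → E) × ℝ => len ((ψ p.2)^[j] (trunc p.1)) p.2)
              ({x | IsPoly M G n x ∧ energy n x ≤ C} ×ˢ Icc (0 : ℝ) 1) :=
            continuousOn_snd.mul (continuousOn_const.mul (lipschitz_clamp.continuous.comp_continuousOn
              ((((continuous_energy n).comp_continuousOn hv).sub continuousOn_const).div_const δ)))
          refine S.smooth.continuousOn.comp ((ih i).sub (hlc.smul ((hgc i).comp hv fun p hp =>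
            (hP0p _ (hm p hp)).1))) fun p hp => ?_
          exact hU _ (hm p hp) _ (hτ1' _ (hlenI _ _ hp.2)) i hi
        · exact continuousOn_const
    exact fun i _ => hc k i
  · intro i hi
    have : ∀ j, ∀ l ≤ n, (ψ 0)^[j] (trunc x) l = x l := by
      intro j
      induction j with
      | zero => intro l hl; simp [htr, hl]
      | succ j ih =>
        intro l hl
        rw [Function.iterate_succ_apply']
        simp only [hψ, hlen, zero_mul, Tube.descStep, hl, if_true, zero_smul, sub_zero]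
        simp only [hψ, hlen, zero_mul] at ih
        rw [ih l hl, S.fix (hx.1 l hl)]
    exact this k i hi
  all_goals
    have hC' : energy n (trunc x) ≤ C := (energy_congr fun i hi => by simp [htr, hi]).trans_le hxC
  · obtain ⟨a1, a2, -, -⟩ := hiter k s hs _ (htrP x hx) hC'
    exact ⟨hP0p _ a1, a2⟩
  · obtain ⟨-, -, -, a4⟩ := hiter k 1 (right_mem_Icc.2 zero_le_one) _ (htrP x hx) hC'
    refine (a4 rfl).trans (max_le le_rfl ?_)
    rw [div_le_iff₀ (by positivity)] at hk
    linarith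
  · intro hg s hs
    exact (hiter k s hs _ (htrP x hx) hC').2.2.1 fun i hi => by simpa [htr, hi] using hg i hi

end Vale.Agent.P216
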