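import Vale.Agent.P216.Curves

/-!
The first variation of the energy at a curve of least Lipschitz constant.
-/

namespace Vale.Agent.P216

open Metric Set Filter Topology MeasureTheory
open scoped RealInnerProductSpace ContDiff NNReal

variable {E : Type*} [NormedAddCommGroup E] [InnerProductSpace ℝ E] [FiniteDimensional ℝ E]

set_option linter.unusedSectionVars false

lemma intervalIntegrable_bdd {F : Type*} [NormedAddCommGroup F] {f : ℝ → F}
    (hf : StronglyMeasurable f) {C : ℝ} (h : ∀ t, ‖f t‖ ≤ C) (a b : ℝ) :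
    IntervalIntegrable f volume a b :=
  (intervalIntegrable_const (c := C)).mono_fun' hf.aestronglyMeasurable (Eventually.of_forall h)

lemma integral_congr_Ioo {F : Type*} [NormedAddCommGroup F] [NormedSpace ℝ F] {f g : ℝ → F}
    {a b : ℝ} (hab : a ≤ b) (h : ∀ᵐ t, t ∈ Ioo a b → f t = g t) :
    ∫ t in a..b, f t = ∫ t in a..b, g t := by
  refine intervalIntegral.integral_congr_ae ?_
  filter_upwards [h, Measure.ae_ne volume b] with t ht hne htI
  rw [uIoc_of_le hab] at htI
  exact ht ⟨htI.1, lt_of_le_of_ne htI.2 hne⟩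

lemma norm_prim_sub_le {F : Type*} [NormedAddCommGroup F] [NormedSpace ℝ F] {f : ℝ → F}
    (hf : StronglyMeasurable f) {C : ℝ≥0} (h : ∀ t, ‖f t‖ ≤ C) :
    LipschitzWith C fun t => ∫ u in (0 : ℝ)..t, f u :=
  LipschitzWith.of_dist_le_mul fun s t => by
    rw [dist_eq_norm, intervalIntegral.integral_interval_sub_left
      (intervalIntegrable_bdd hf h _ _) (intervalIntegrable_bdd hf h _ _)]
    exact intervalIntegral.norm_integral_le_of_norm_le_const fun u _ => h u

/-- A least Lipschitz constant gives a least energy. -/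
lemma le_energy {M A B : Set E} {L : ℝ≥0}
    (hmin : ∀ (L' : ℝ≥0) (f : ℝ → E), LipschitzOnWith L' f (Icc 0 1) →
      (∀ t ∈ Icc (0 : ℝ) 1, f t ∈ M) → f 0 ∈ A → f 1 ∈ B → L ≤ L')
    {C : ℝ≥0} {σ : ℝ → E} (hσ : LipschitzWith C σ) (hm : ∀ t, σ t ∈ M) (h0 : σ 0 ∈ A)
    (h1 : σ 1 ∈ B) : (L : ℝ) ^ 2 ≤ ∫ t in (0 : ℝ)..1, ‖deriv σ t‖ ^ 2 := by
  by_contra! hlt
  set a : ℝ → ℝ := fun t => ‖deriv σ t‖ with ha
  have ham : StronglyMeasurable a := (stronglyMeasurable_deriv σ).norm
  have hab : ∀ t, ‖a t‖ ≤ C := fun t => by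
    simpa [ha] using norm_deriv_le_of_lipschitz hσ
  have hai : ∀ x y, IntervalIntegrable a volume x y := intervalIntegrable_bdd ham hab
  set ℓ := ∫ t in (0 : ℝ)..1, a t with hℓ
  have hℓ0 : 0 ≤ ℓ := intervalIntegral.integral_nonneg zero_le_one fun t _ => norm_nonneg _
  have h2i : IntervalIntegrable (fun t => a t ^ 2) volume 0 1 :=
    intervalIntegrable_bdd (ham.pow 2) (fun t => by
      rw [Pi.pow_apply, norm_pow]; exact pow_le_pow_left₀ (norm_nonneg _) (hab t) 2) _ _
  have hℓ2 : ℓ ^ 2 ≤ ∫ t in (0 : ℝ)..1, a t ^ 2 := by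
    have := intervalIntegral.integral_nonneg zero_le_one (μ := volume)
      (f := fun t => (a t ^ 2 - 2 * ℓ * a t) + ℓ ^ 2) fun t _ => by nlinarith [sq_nonneg (a t - ℓ)]
    rw [intervalIntegral.integral_add (h2i.sub ((hai 0 1).const_mul _)) intervalIntegrable_const,
      intervalIntegral.integral_sub h2i ((hai 0 1).const_mul _),
      intervalIntegral.integral_const_mul, ← hℓ, intervalIntegral.integral_const] at this
    simp at this
    nlinarith
  have hℓL : ℓ < L := lt_of_pow_lt_pow_left₀ 2 L.2 (hℓ2.trans_lt hlt)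
  set δ := ((L : ℝ) - ℓ) / 2 with hδ
  have hδ0 : 0 < δ := by rw [hδ]; linarith
  set L' : ℝ≥0 := ⟨ℓ + δ, by positivity⟩
  have hL' : (0 : ℝ) < L' := add_pos_of_nonneg_of_pos hℓ0 hδ0
  set s : ℝ → ℝ := fun t => ((∫ u in (0 : ℝ)..t, a u) + δ * t) / L' with hs
  have hsc : Continuous s := by
    have := intervalIntegral.continuous_primitive hai 0
    fun_prop
  have hs0 : s 0 = 0 := by simp [hs]
  have hs1 : s 1 = 1 := by
    simp only [hs, mul_one, ← hℓ]
    exact div_self hL'.ne'
  have hstep : ∀ t u, t ≤ u → δ * (u - t) + (∫ x in t..u, a x) = L' * (s u - s t) := fun t u _ => by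
    rw [← intervalIntegral.integral_interval_sub_left (hai 0 u) (hai 0 t)]
    simp only [hs]
    field_simp
    ring
  have hmono : ∀ t u, t < u → s t < s u := fun t u htu => by
    have h := hstep t u htu.le
    have : 0 ≤ ∫ x in t..u, a x :=
      intervalIntegral.integral_nonneg htu.le fun x _ => norm_nonneg _
    nlinarith [mul_pos hδ0 (sub_pos.2 htu)]
  set τ := Function.invFunOn s (Icc 0 1) with hτ
  have hsurj : ∀ w ∈ Icc (0 : ℝ) 1, τ w ∈ Icc (0 : ℝ) 1 ∧ s (τ w) = w := fun w hw => by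
    have := intermediate_value_Icc zero_le_one hsc.continuousOn
    rw [hs0, hs1] at this
    exact Function.invFunOn_pos (this hw)
  have hinj : Function.Injective s := StrictMono.injective hmono
  have h := hmin L' (σ ∘ τ) ?_ (fun t _ => hm _) ?_ ?_
  · have : (L : ℝ) ≤ ℓ + δ := h
    linarith
  · refine LipschitzOnWith.of_dist_le_mul fun v hv w hw => ?_
    have key : ∀ v w, v ∈ Icc (0 : ℝ) 1 → w ∈ Icc (0 : ℝ) 1 → τ v ≤ τ w →
        dist (σ (τ v)) (σ (τ w)) ≤ L' * dist v w := by
      intro v w hv hw hle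
      have h := hstep _ _ hle
      rw [(hsurj v hv).2, (hsurj w hw).2] at h
      rw [dist_comm, dist_eq_norm, dist_comm v w, Real.dist_eq]
      refine (Lipschitz.norm_sub_le hσ hle).trans ?_
      have := mul_le_mul_of_nonneg_left (le_abs_self (w - v)) hL'.le
      nlinarith [mul_nonneg hδ0.le (sub_nonneg.2 hle)]
    rcases le_total (τ v) (τ w) with hle | hle
    · exact key v w hv hw hle
    · rw [dist_comm, dist_comm v w]; exact key w v hw hv hle
  · rwa [Function.comp_apply, show τ 0 = 0 from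
      hinj ((hsurj 0 (by simp)).2.trans hs0.symm)]
  · rwa [Function.comp_apply, show τ 1 = 1 from
      hinj ((hsurj 1 (by simp)).2.trans hs1.symm)]

namespace Tube

variable {M : Set E} (S : Tube M)

/-- The force term of the first variation. -/
noncomputable def force (x v : E) : E :=
  ∑ i, ⟪v, S.D2 x (stdOrthonormalBasis ℝ E i) v⟫ • stdOrthonormalBasis ℝ E i

lemma inner_force (x v u : E) : ⟪S.force x v, u⟫ = ⟪v, S.D2 x u v⟫ := by
  conv_rhs => rw [← (stdOrthonormalBasis ℝ E).sum_repr' u]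
  simp only [force, sum_inner, real_inner_smul_left, map_sum, map_smul, _root_.sum_apply,
    _root_.smul_apply, inner_sum, real_inner_smul_right, mul_comm]

lemma continuous_force : ContinuousOn (fun z : E × E => S.force z.1 z.2) (S.U ×ˢ univ) := by
  refine continuousOn_finsetSum _ fun i _ => ?_
  have h := S.smoothD2.continuousOn.comp continuousOn_fst
    (fun z (hz : z ∈ S.U ×ˢ (univ : Set E)) => hz.1)
  exact (continuousOn_snd.inner ((h.clm_apply continuousOn_const).clm_apply continuousOn_snd)).smul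
    continuousOn_const

/-- The energy density, as a function of point, variation, velocity and its variation. -/
noncomputable def dens (z : E × E × E × E) : ℝ := ‖S.P z.1 z.2.2.1‖ ^ 2

/-- Its derivative. -/
noncomputable def dens' (z : E × E × E × E) : ℝ :=
  2 * ⟪S.P z.1 z.2.2.1, S.D2 z.1 z.2.1 z.2.2.1 + S.P z.1 z.2.2.2⟫

lemma continuous_dens : ContinuousOn S.dens (S.U ×ˢ univ) := by
  have cP : ContinuousOn (fun z : E × E × E × E => S.P z.1) (S.U ×ˢ univ) :=
    S.smoothP.continuousOn.comp continuousOn_fst fun z hz => hz.1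
  exact (cP.clm_apply continuousOn_snd.snd.fst).norm.pow 2

lemma continuous_dens' : ContinuousOn S.dens' (S.U ×ˢ univ) := by
  have cP : ContinuousOn (fun z : E × E × E × E => S.P z.1) (S.U ×ˢ univ) :=
    S.smoothP.continuousOn.comp continuousOn_fst fun z hz => hz.1
  have cD : ContinuousOn (fun z : E × E × E × E => S.D2 z.1) (S.U ×ˢ univ) :=
    S.smoothD2.continuousOn.comp continuousOn_fst fun z hz => hz.1
  exact continuousOn_const.mul ((cP.clm_apply continuousOn_snd.snd.fst).inner
    (((cD.clm_apply continuousOn_snd.fst).clm_apply continuousOn_snd.snd.fst).add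
      (cP.clm_apply continuousOn_snd.snd.snd)))

lemma hasDerivAt_dens {x u w ψ : E} {e : ℝ} (h : x + e • u ∈ S.U) :
    HasDerivAt (fun e : ℝ => S.dens (x + e • u, u, w + e • ψ, ψ))
      (S.dens' (x + e • u, u, w + e • ψ, ψ)) e := by
  have hy : HasDerivAt (fun e : ℝ => x + e • u) u e := by
    simpa using ((hasDerivAt_id e).smul_const u).const_add x
  have hw : HasDerivAt (fun e : ℝ => w + e • ψ) ψ e := by
    simpa using ((hasDerivAt_id e).smul_const ψ).const_add w
  have hP : HasDerivAt (fun e : ℝ => S.P (x + e • u)) (S.D2 (x + e • u) u) e :=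
    (S.hasD2 h).comp_hasDerivAt e hy
  have h2 := (hP.clm_apply hw).norm_sq
  unfold dens dens'
  exact h2

lemma stronglyMeasurable_dens {f : E × E × E × E → ℝ} (hf : ContinuousOn f (S.U ×ˢ univ))
    {y u w ψ : ℝ → E} (hy : Continuous y) (hU : ∀ t, y t ∈ S.U) (hu : Continuous u)
    (hw : StronglyMeasurable w) (hψ : StronglyMeasurable ψ) :
    StronglyMeasurable fun t => f (y t, u t, w t, ψ t) := by
  have hc : Continuous fun z : ℝ × E × E => f (y z.1, u z.1, z.2.1, z.2.2) :=
    hf.comp_continuous ((hy.comp continuous_fst).prodMk ((hu.comp continuous_fst).prodMk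
      (continuous_snd.fst.prodMk continuous_snd.snd))) fun z => ⟨hU z.1, trivial⟩
  exact hc.comp_stronglyMeasurable (stronglyMeasurable_id.prodMk (hw.prodMk hψ))

/-- The first variation vanishes at a minimiser. -/
lemma euler_lagrange {A B : Set E} {L : ℝ≥0}
    (hmin : ∀ (L' : ℝ≥0) (f : ℝ → E), LipschitzOnWith L' f (Icc 0 1) →
      (∀ t ∈ Icc (0 : ℝ) 1, f t ∈ M) → f 0 ∈ A → f 1 ∈ B → L ≤ L')
    {γ : ℝ → E} (hγ : LipschitzWith L γ) (hm : ∀ t, γ t ∈ M)
    {C : ℝ≥0} {φ : ℝ → E} (hφ : LipschitzWith C φ) {R : ℝ} (hR : ∀ t, ‖φ t‖ ≤ R)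
    (h0 : ∀ᶠ e : ℝ in 𝓝 0, S.r (γ 0 + e • φ 0) ∈ A)
    (h1 : ∀ᶠ e : ℝ in 𝓝 0, S.r (γ 1 + e • φ 1) ∈ B) :
    ∫ t in (0 : ℝ)..1,
      (⟪deriv γ t, deriv φ t⟫ + ⟪S.force (γ t) (deriv γ t), φ t⟫) = 0 := by
  have hR0 : 0 ≤ R := (norm_nonneg _).trans (hR 0)
  set K := cthickening (S.ε / 2) M
  have hK : IsCompact K := S.compact.cthickening
  have hKU : K ⊆ S.U := cthickening_subset_thickening' S.pos (by linarith [S.pos]) M
  set e0 := S.ε / 2 / (R + 1)
  have he0 : 0 < e0 := div_pos (half_pos S.pos) (by linarith)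
  set Y : ℝ → ℝ → E := fun e t => γ t + e • φ t with hY
  have hYK : ∀ e, |e| ≤ e0 → ∀ t, Y e t ∈ K := fun e he t => by
    refine mem_cthickening_of_dist_le _ (γ t) _ M (hm t) ?_
    rw [dist_eq_norm, hY, add_sub_cancel_left, norm_smul, Real.norm_eq_abs]
    calc |e| * ‖φ t‖ ≤ e0 * (R + 1) := mul_le_mul he ((hR t).trans (by linarith))
          (norm_nonneg _) he0.le
      _ = S.ε / 2 := div_mul_cancel₀ _ (by linarith)
  set w : ℝ → ℝ → E := fun e t => deriv γ t + e • deriv φ t with hw
  set F : ℝ → ℝ → ℝ := fun e t => S.dens (Y e t, φ t, w e t, deriv φ t) with hF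
  set F' : ℝ → ℝ → ℝ := fun e t => S.dens' (Y e t, φ t, w e t, deriv φ t) with hF'
  set R' : ℝ := L + e0 * C
  have hwb : ∀ e, |e| ≤ e0 → ∀ t, ‖w e t‖ ≤ R' := fun e he t => by
    refine (norm_add_le _ _).trans (add_le_add (norm_deriv_le_of_lipschitz hγ) ?_)
    rw [norm_smul, Real.norm_eq_abs]
    exact mul_le_mul he (norm_deriv_le_of_lipschitz hφ) (norm_nonneg _) he0.le
  obtain ⟨CF, hCF⟩ := (hK.prod ((isCompact_closedBall (0 : E) R).prod
      ((isCompact_closedBall (0 : E) R').prod (isCompact_closedBall (0 : E) C))))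
    |>.exists_bound_of_continuousOn (f := fun z => (S.dens z, S.dens' z))
      ((S.continuous_dens.prodMk S.continuous_dens').mono fun z hz => ⟨hKU hz.1, trivial⟩)
  have hbd : ∀ e, |e| ≤ e0 → ∀ t, ‖F e t‖ ≤ CF ∧ ‖F' e t‖ ≤ CF := fun e he t => by
    have h := hCF (Y e t, φ t, w e t, deriv φ t) ⟨hYK e he t, by simpa using hR t,
      by simpa using hwb e he t, by simpa using norm_deriv_le_of_lipschitz hφ⟩
    exact ⟨(norm_fst_le _).trans h, (norm_snd_le _).trans h⟩
  have hmeas : ∀ e, |e| ≤ e0 → StronglyMeasurable (F e) ∧ StronglyMeasurable (F' e) := fun e he => by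
    have hYc : Continuous (Y e) := hγ.continuous.add (hφ.continuous.const_smul e)
    have hwm : StronglyMeasurable (w e) :=
      (stronglyMeasurable_deriv γ).add ((stronglyMeasurable_deriv φ).const_smul e)
    exact ⟨S.stronglyMeasurable_dens S.continuous_dens hYc (fun t => hKU (hYK e he t))
        hφ.continuous hwm (stronglyMeasurable_deriv φ),
      S.stronglyMeasurable_dens S.continuous_dens' hYc (fun t => hKU (hYK e he t))
        hφ.continuous hwm (stronglyMeasurable_deriv φ)⟩
  have hball : ∀ e ∈ ball (0 : ℝ) e0, |e| ≤ e0 := fun e he => by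
    rw [mem_ball, Real.dist_eq, sub_zero] at he; exact he.le
  have hdiff : ∀ e ∈ ball (0 : ℝ) e0, ∀ t, HasDerivAt (fun e => F e t) (F' e t) e := fun e he t =>
    S.hasDerivAt_dens (hKU (hYK e (hball e he) t))
  have hder := (intervalIntegral.hasDerivAt_integral_of_dominated_loc_of_deriv_le (μ := volume)
    (a := 0) (b := 1) (F := F) (F' := F') (bound := fun _ => CF) (ball_mem_nhds 0 he0)
    (eventually_of_mem (ball_mem_nhds 0 he0) fun e he =>
      (hmeas e (hball e he)).1.aestronglyMeasurable)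
    (intervalIntegrable_bdd (hmeas 0 (by simpa using he0.le)).1
      (fun t => (hbd 0 (by simpa using he0.le) t).1) _ _)
    (hmeas 0 (by simpa using he0.le)).2.aestronglyMeasurable
    (Eventually.of_forall fun t _ e he => (hbd e (hball e he) t).2) intervalIntegrable_const
    (Eventually.of_forall fun t _ e he => hdiff e he t)).2
  obtain ⟨Cr, hCr⟩ := S.exists_lipschitz_r hK hKU
  have hlow : ∀ᶠ e : ℝ in 𝓝 0, (L : ℝ) ^ 2 ≤ ∫ t in (0 : ℝ)..1, F e t := by
    filter_upwards [h0, h1, ball_mem_nhds (0 : ℝ) he0] with e ha hb he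
    have hσ : LipschitzWith (Cr * (L + ‖e‖₊ * C)) fun t => S.r (Y e t) := by
      have hl : LipschitzWith (L + ‖e‖₊ * C) (Y e) := hγ.add ((lipschitzWith_smul e).comp hφ)
      exact lipschitzOnWith_univ.1 (hCr.comp hl.lipschitzOnWith fun t _ => hYK e (hball e he) t)
    refine (le_energy hmin hσ (fun t => S.mem _ (hKU (hYK e (hball e he) t))) ha hb).trans_eq ?_
    refine integral_congr_Ioo zero_le_one ?_
    filter_upwards [hγ.ae_differentiableAt_real, hφ.ae_differentiableAt_real] with t ht ht' _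
    have hd : HasDerivAt (fun t => S.r (Y e t)) (S.P (Y e t) (w e t)) t :=
      (S.hasP (hKU (hYK e (hball e he) t))).comp_hasDerivAt t
        (ht.hasDerivAt.add (ht'.hasDerivAt.const_smul e))
    rw [hd.deriv]
    rfl
  have htan : ∀ᵐ t, S.P (γ t) (deriv γ t) = deriv γ t := by
    filter_upwards [hγ.ae_differentiableAt_real] with t ht
    exact S.curve_tangent hm ht.hasDerivAt
  have hup : (∫ t in (0 : ℝ)..1, F 0 t) ≤ (L : ℝ) ^ 2 := by
    have h := intervalIntegral.integral_mono_ae zero_le_one (μ := volume) (f := F 0)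
      (g := fun _ => (L : ℝ) ^ 2) (intervalIntegrable_bdd (hmeas 0 (by simpa using he0.le)).1
        (fun t => (hbd 0 (by simpa using he0.le) t).1) _ _) intervalIntegrable_const (by
        filter_upwards [htan] with t ht
        simp only [hF, dens, hY, hw, zero_smul, add_zero, ht]
        exact pow_le_pow_left₀ (norm_nonneg _) (norm_deriv_le_of_lipschitz hγ) 2)
    simpa using h
  have hloc : IsLocalMin (fun e => ∫ t in (0 : ℝ)..1, F e t) 0 :=
    hlow.mono fun e he => hup.trans he
  have hz := hloc.hasDerivAt_eq_zero hder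
  have hc : ∫ t in (0 : ℝ)..1, F' 0 t = ∫ t in (0 : ℝ)..1,
      2 * (⟪deriv γ t, deriv φ t⟫ + ⟪S.force (γ t) (deriv γ t), φ t⟫) := by
    refine integral_congr_Ioo zero_le_one ?_
    filter_upwards [htan] with t ht _
    simp only [hF', dens', hY, hw, zero_smul, add_zero, inner_force]
    rw [inner_add_right, ht, ← S.P_symm (hm t), ht]
    ring
  rw [hc, intervalIntegral.integral_const_mul] at hz
  linarith

end Tube

end Vale.Agent.P216
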