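import Vale.Agent.P216.Defs

/-!
The definition of a closed submanifold is met by the round sphere.
-/

namespace Vale.Agent.P216

open Metric Set
open scoped RealInnerProductSpace ContDiff

lemma sphere_isClosedSubmanifold (N : ℕ) :
    IsClosedSubmanifold (sphere (0 : EuclideanSpace ℝ (Fin N)) 1) := by
  refine ⟨isCompact_sphere _ _, 1, one_pos, fun x => ‖x‖⁻¹ • x, fun x hx => ?_, fun x hx => ?_⟩
  all_goals
    obtain ⟨m, hm, hd⟩ := mem_thickening_iff.1 hx
    have hx0 : x ≠ 0 := by
      rintro rfl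
      rw [mem_sphere_zero_iff_norm] at hm
      rw [dist_eq_norm, zero_sub, norm_neg, hm] at hd
      exact lt_irrefl _ hd
  · exact (((contDiffAt_norm ℝ hx0).inv (norm_ne_zero_iff.2 hx0)).smul contDiffAt_id).contDiffWithinAt
  · have hp : 0 < ‖x‖ := norm_pos_iff.2 hx0
    refine ⟨by simp [norm_smul, hp.ne'], fun m' hm' hne => ?_⟩
    rw [mem_sphere_zero_iff_norm] at hm'
    refine lt_of_pow_lt_pow_left₀ 2 dist_nonneg ?_
    have hlt : ⟪x, m'⟫ < ‖x‖ := by
      refine lt_of_le_of_ne ((real_inner_le_norm _ _).trans_eq (by rw [hm', mul_one])) fun he => hne ?_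
      have := (inner_eq_norm_mul_iff_real (x := x) (y := m')).1 (by rw [he, hm', mul_one])
      rw [hm', one_smul] at this
      exact (eq_inv_smul_iff₀ hp.ne').2 this.symm
    rw [dist_eq_norm, dist_eq_norm, norm_sub_sq_real, norm_sub_sq_real, hm', real_inner_smul_right,
      real_inner_self_eq_norm_sq, norm_smul, norm_inv, Real.norm_eq_abs, abs_norm]
    field_simp
    nlinarith

end Vale.Agent.P216
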