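import Vale.Agent.P216.Limit
import Vale.Agent.P216.Descent

/-!
Families of paths with ends on a fixed piece shrink into the piece when there is no segment.
-/

namespace Vale.Agent.P216

open Metric Set Filter Topology
open scoped RealInnerProductSpace ContDiff NNReal

variable {E : Type*} [NormedAddCommGroup E] [InnerProductSpace ℝ E] [FiniteDimensional ℝ E]

set_option linter.unusedSectionVars false

/-- The piecewise linear path through `n + 1` points. -/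
noncomputable def pl (n : ℕ) (x : ℕ → E) (t : ℝ) : E :=
  x 0 + ∑ i ∈ Finset.range n, clamp ((n : ℝ) * t - i) • (x (i + 1) - x i)

lemma clamp_nonpos {t : ℝ} (h : t ≤ 0) : clamp t = 0 :=
  max_eq_left ((min_le_left _ _).trans h)

lemma clamp_ge_one {t : ℝ} (h : 1 ≤ t) : clamp t = 1 := by
  unfold clamp; rw [min_eq_right h, max_eq_right zero_le_one]

lemma pl_zero (n : ℕ) (x : ℕ → E) : pl n x 0 = x 0 := by
  rw [pl, Finset.sum_eq_zero fun i _ => by rw [clamp_nonpos (by simp), zero_smul], add_zero]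

lemma pl_one (n : ℕ) (x : ℕ → E) : pl n x 1 = x n := by
  rw [pl, Finset.sum_congr rfl fun i hi => by
    rw [mul_one, clamp_ge_one (by
      have : (i : ℝ) + 1 ≤ n := by exact_mod_cast Finset.mem_range.1 hi
      linarith), one_smul], Finset.sum_range_sub, add_sub_cancel]

lemma pl_congr {n : ℕ} {x x' : ℕ → E} (h : ∀ i ≤ n, x i = x' i) (t : ℝ) : pl n x t = pl n x' t := by
  unfold pl
  rw [h 0 (Nat.zero_le _)]
  congr 1
  exact Finset.sum_congr rfl fun i hi => by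
    rw [h _ (Finset.mem_range.1 hi), h _ (Finset.mem_range.1 hi).le]

lemma norm_pl_sub_zero (n : ℕ) (x : ℕ → E) (t : ℝ) :
    ‖pl n x t - x 0‖ ≤ ∑ i ∈ Finset.range n, ‖x (i + 1) - x i‖ := by
  rw [pl, add_sub_cancel_left]
  refine (norm_sum_le _ _).trans (Finset.sum_le_sum fun i _ => ?_)
  rw [norm_smul, Real.norm_eq_abs, abs_of_nonneg (clamp_mem _).1]
  exact mul_le_of_le_one_left (norm_nonneg _) (clamp_mem _).2

lemma norm_pl_sub (n : ℕ) (x : ℕ → E) (t u : ℝ) :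
    ‖pl n x t - pl n x u‖ ≤
      n * (∑ i ∈ Finset.range n, ‖x (i + 1) - x i‖) * dist t u := by
  rw [pl, pl, add_sub_add_left_eq_sub, ← Finset.sum_sub_distrib, Finset.mul_sum, Finset.sum_mul]
  refine (norm_sum_le _ _).trans (Finset.sum_le_sum fun i _ => ?_)
  rw [← sub_smul, norm_smul, Real.norm_eq_abs, mul_right_comm]
  refine mul_le_mul_of_nonneg_right ?_ (norm_nonneg _)
  rw [← Real.dist_eq]
  refine (lipschitz_clamp.dist_le_mul _ _).trans_eq ?_
  rw [NNReal.coe_one, one_mul, Real.dist_eq, Real.dist_eq, sub_sub_sub_cancel_right, ← mul_sub,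
    abs_mul, Nat.abs_cast]

lemma exists_pl_eq {n : ℕ} (hn : 0 < n) (x : ℕ → E) {t : ℝ} (ht : t ∈ Icc (0 : ℝ) 1) :
    ∃ j < n, (j : ℝ) / n ≤ t ∧ t ≤ ((j : ℝ) + 1) / n ∧
      pl n x t = x j + clamp ((n : ℝ) * t - j) • (x (j + 1) - x j) := by
  have hn' : (0 : ℝ) < n := by exact_mod_cast hn
  set j := min ⌊(n : ℝ) * t⌋₊ (n - 1) with hj
  have hj1 : j < n := by omega
  have hjl : (j : ℝ) ≤ (n : ℝ) * t :=
    (Nat.cast_le.2 (min_le_left _ _)).trans (Nat.floor_le (mul_nonneg hn'.le ht.1))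
  have hju : (n : ℝ) * t ≤ (j : ℝ) + 1 := by
    rcases le_total ⌊(n : ℝ) * t⌋₊ (n - 1) with h | h
    · rw [hj, min_eq_left h]; exact (Nat.lt_floor_add_one _).le
    · rw [hj, min_eq_right h]
      have : ((n - 1 : ℕ) : ℝ) = n - 1 := by rw [Nat.cast_sub hn]; simp
      rw [this]; nlinarith [ht.2]
  refine ⟨j, hj1, (div_le_iff₀ hn').2 (by linarith), (le_div_iff₀ hn').2 (by linarith), ?_⟩
  have hsplit : ∀ i ∈ Finset.range n, clamp ((n : ℝ) * t - i) • (x (i + 1) - x i) =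
      (if i < j then x (i + 1) - x i else 0) +
        (if i = j then clamp ((n : ℝ) * t - j) • (x (j + 1) - x j) else 0) := by
    intro i _
    rcases lt_trichotomy i j with h | rfl | h
    · have : (i : ℝ) + 1 ≤ j := by exact_mod_cast h
      rw [if_pos h, if_neg h.ne, clamp_ge_one (by linarith), one_smul, add_zero]
    · simp
    · have : (j : ℝ) + 1 ≤ i := by exact_mod_cast h
      rw [if_neg (by omega), if_neg h.ne', clamp_nonpos (by linarith), zero_smul, add_zero]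
  rw [pl, Finset.sum_congr rfl hsplit, Finset.sum_add_distrib,
    Finset.sum_ite_eq' (Finset.range n) j (fun _ => clamp ((n : ℝ) * t - j) • (x (j + 1) - x j)),
    if_pos (Finset.mem_range.2 hj1), ← Finset.sum_filter,
    show (Finset.range n).filter (fun i => i < j) = Finset.range j by ext i; simp; omega,
    Finset.sum_range_sub, ← add_assoc, add_sub_cancel]

lemma dist_pl_le {n : ℕ} (hn : 0 < n) (x : ℕ → E) {t : ℝ} (ht : t ∈ Icc (0 : ℝ) 1) :
    ∃ j < n, (j : ℝ) / n ≤ t ∧ t ≤ ((j : ℝ) + 1) / n ∧ dist (pl n x t) (x j) ≤ ‖x (j + 1) - x j‖ := by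
  obtain ⟨j, hj, h1, h2, he⟩ := exists_pl_eq hn x ht
  refine ⟨j, hj, h1, h2, ?_⟩
  rw [he, dist_eq_norm, add_sub_cancel_left, norm_smul, Real.norm_eq_abs,
    abs_of_nonneg (clamp_mem _).1]
  exact mul_le_of_le_one_left (norm_nonneg _) (clamp_mem _).2

lemma pl_fixed (h : E ≃ₗᵢ[ℝ] E) {n : ℕ} {x : ℕ → E} (hx : ∀ i ≤ n, h (x i) = x i) (t : ℝ) :
    h (pl n x t) = pl n x t := by
  rw [pl, map_add, map_sum, hx 0 (Nat.zero_le _)]
  congr 1
  exact Finset.sum_congr rfl fun i hi => by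
    rw [map_smul, map_sub, hx _ (Finset.mem_range.1 hi), hx _ (Finset.mem_range.1 hi).le]

lemma continuousOn_pl {X : Type*} [TopologicalSpace X] {s : Set X} {n : ℕ} {x : X → ℕ → E}
    {t : X → ℝ} (hx : ∀ i ≤ n, ContinuousOn (fun p => x p i) s) (ht : ContinuousOn t s) :
    ContinuousOn (fun p => pl n (x p) (t p)) s := by
  refine (hx 0 (Nat.zero_le _)).add (continuousOn_finsetSum _ fun i hi => ?_)
  exact (lipschitz_clamp.continuous.comp_continuousOn
    ((continuousOn_const.mul ht).sub continuousOn_const)).smul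
      ((hx _ (Finset.mem_range.1 hi)).sub (hx _ (Finset.mem_range.1 hi).le))

lemma sum_step_le {n : ℕ} {x : ℕ → E} {D : ℝ} (h : energy n x ≤ D) :
    ∑ i ∈ Finset.range n, ‖x (i + 1) - x i‖ ≤ Real.sqrt D := by
  refine Real.le_sqrt_of_sq_le (le_trans ?_ h)
  have := sq_sum_le_card_mul_sum_sq (s := Finset.range n) (f := fun i => ‖x (i + 1) - x i‖)
  rwa [Finset.card_range] at this

lemma step_le {n : ℕ} {x : ℕ → E} {D : ℝ} (h : energy n x ≤ D) {j : ℕ} (hj : j < n) :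
    ‖x (j + 1) - x j‖ ^ 2 ≤ D / n := by
  rw [le_div_iff₀ (by exact_mod_cast Nat.lt_of_le_of_lt (Nat.zero_le j) hj), mul_comm]
  refine le_trans ?_ h
  exact mul_le_mul_of_nonneg_left (Finset.single_le_sum (f := fun i => ‖x (i + 1) - x i‖ ^ 2)
    (fun i _ => sq_nonneg _) (Finset.mem_range.2 hj)) (Nat.cast_nonneg _)

/-- A deformation of families of paths in `M` with ends in `G`. -/
def Deform (M G : Set E) {F : Type*} [TopologicalSpace F] (Y : Set F) (f g : F × ℝ → E) : Prop :=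
  ∃ K : (F × ℝ) × ℝ → E, ContinuousOn K ((Y ×ˢ Icc (0 : ℝ) 1) ×ˢ Icc (0 : ℝ) 1) ∧
    (∀ p ∈ Y ×ˢ Icc (0 : ℝ) 1, K (p, 0) = f p ∧ K (p, 1) = g p ∧
      ∀ s ∈ Icc (0 : ℝ) 1, K (p, s) ∈ M) ∧
    ∀ y ∈ Y, ∀ s ∈ Icc (0 : ℝ) 1, K ((y, 0), s) ∈ G ∧ K ((y, 1), s) ∈ G ∧
      ((∀ t ∈ Icc (0 : ℝ) 1, f (y, t) ∈ G) → ∀ t ∈ Icc (0 : ℝ) 1, K ((y, t), s) ∈ G)

lemma Deform.trans {M G : Set E} {F : Type*} [TopologicalSpace F] {Y : Set F}
    {f g k : F × ℝ → E} (h : Deform M G Y f g) (h' : Deform M G Y g k) : Deform M G Y f k := by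
  obtain ⟨K, hK, hKp, hKy⟩ := h
  obtain ⟨K', hK', hKp', hKy'⟩ := h'
  set S : Set ((F × ℝ) × ℝ) := (Y ×ˢ Icc (0 : ℝ) 1) ×ˢ Icc (0 : ℝ) 1
  have m1 : ∀ {s : ℝ}, s ∈ Icc (0 : ℝ) 1 → s ≤ 1 / 2 → 2 * s ∈ Icc (0 : ℝ) 1 := fun hs h =>
    ⟨by linarith [hs.1], by linarith⟩
  have m2 : ∀ {s : ℝ}, s ∈ Icc (0 : ℝ) 1 → ¬ s < 1 / 2 → 2 * s - 1 ∈ Icc (0 : ℝ) 1 := fun hs h =>
    ⟨by linarith, by linarith [hs.2]⟩
  refine ⟨fun q => if q.2 ≤ 1 / 2 then K (q.1, 2 * q.2) else K' (q.1, 2 * q.2 - 1), ?_,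
    fun p hp => ⟨?_, ?_, fun s hs => ?_⟩, fun y hy s hs => ?_⟩
  · refine ContinuousOn.if (fun q hq => ?_) ?_ ?_
    · have hf := frontier_le_subset_eq continuous_snd continuous_const hq.2
      simp only [mem_ofPred_eq] at hf
      rw [hf]
      norm_num
      rw [(hKp q.1 hq.1.1).2.1, (hKp' q.1 hq.1.1).1]
    · refine hK.comp (continuousOn_fst.prodMk (continuousOn_const.mul continuousOn_snd)) fun q hq => ?_
      have hle : q.2 ≤ 1 / 2 :=
        closure_minimal (fun _ h => h) (isClosed_le continuous_snd continuous_const) hq.2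
      exact ⟨hq.1.1, m1 hq.1.2 hle⟩
    · refine hK'.comp (continuousOn_fst.prodMk
        ((continuousOn_const.mul continuousOn_snd).sub continuousOn_const)) fun q hq => ?_
      have hle : 1 / 2 ≤ q.2 :=
        closure_minimal (fun q h => (not_le.1 h).le) (isClosed_le continuous_const continuous_snd) hq.2
      exact ⟨hq.1.1, m2 hq.1.2 (not_lt.2 hle)⟩
  · norm_num; exact (hKp p hp).1
  · norm_num; exact (hKp' p hp).2.1
  · dsimp only
    split_ifs with h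
    · exact (hKp p hp).2.2 _ (m1 hs h)
    · exact (hKp' p hp).2.2 _ (m2 hs fun h' => h h'.le)
  · dsimp only
    split_ifs with h
    · exact ⟨(hKy y hy _ (m1 hs h)).1, (hKy y hy _ (m1 hs h)).2.1, (hKy y hy _ (m1 hs h)).2.2⟩
    · have hs' := m2 hs fun h' => h h'.le
      refine ⟨(hKy' y hy _ hs').1, (hKy' y hy _ hs').2.1, fun hf => (hKy' y hy _ hs').2.2 fun t ht => ?_⟩
      rw [← (hKp (y, t) ⟨hy, ht⟩).2.1]
      exact (hKy y hy 1 ⟨zero_le_one, le_rfl⟩).2.2 hf t ht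

lemma Deform.congr {M G : Set E} {F : Type*} [TopologicalSpace F] {Y : Set F}
    {f g g' : F × ℝ → E} (h : Deform M G Y f g) (he : ∀ p ∈ Y ×ˢ Icc (0 : ℝ) 1, g p = g' p) :
    Deform M G Y f g' := by
  obtain ⟨K, hK, hKp, hKy⟩ := h
  exact ⟨K, hK, fun p hp => ⟨(hKp p hp).1, (hKp p hp).2.1.trans (he p hp), (hKp p hp).2.2⟩, hKy⟩

namespace Tube

variable {M G : Set E} (S : Tube M) {h : E ≃ₗᵢ[ℝ] E}

/-- Near the piece, fixed vectors retract into the piece. -/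
lemma exists_near (hG : FixedPiece M G h) :
    ∃ ρ > 0, ρ < S.ε ∧ ∀ w, h w = w → ∀ a ∈ G, dist w a < ρ → S.r w ∈ G := by
  have hopen : ∀ a ∈ G, ∃ ρ > 0, ∀ w ∈ M, h w = w → dist w a < ρ → w ∈ G := fun a ha => by
    obtain ⟨ρ, hρ, hs⟩ := Metric.mem_nhdsWithin_iff.1 (hG.isOpen a ha)
    exact ⟨ρ, hρ, fun w hw hf hd => hs ⟨hd, hw⟩ hf⟩
  choose! ρ hρ hρG using hopen
  obtain ⟨t, ht, hcov⟩ := (S.compact.of_isClosed_subset hG.closed hG.sub).elim_nhds_subcover
    (fun a => ball a (ρ a / 2)) fun a ha => ball_mem_nhds a (half_pos (hρ a ha))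
  have hne : (insert (S.ε) (t.image fun a => ρ a / 2)).Nonempty := Finset.insert_nonempty _ _
  set m := (insert (S.ε) (t.image fun a => ρ a / 2)).min' hne with hm
  have hm0 : 0 < m := by
    rw [hm, Finset.lt_min'_iff]
    simp only [Finset.mem_insert, Finset.mem_image, forall_eq_or_imp, forall_exists_index, and_imp,
      forall_apply_eq_imp_iff₂]
    exact ⟨S.pos, fun a ha => half_pos (hρ a (ht a ha))⟩
  have hmε : m ≤ S.ε := Finset.min'_le _ _ (Finset.mem_insert_self _ _)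
  refine ⟨m / 2, half_pos hm0, by linarith [S.pos], fun w hw a ha hd => ?_⟩
  have hU : w ∈ S.U := S.ball_sub (hG.sub ha) (by rw [mem_ball]; linarith)
  obtain ⟨b, hb, hab⟩ := mem_iUnion₂.1 (hcov ha)
  have hle : dist w (S.r w) ≤ dist w a := by
    rcases eq_or_ne a (S.r w) with h' | h'
    · rw [← h']
    · exact (S.nearest w hU a (hG.sub ha) h').le
  refine hρG b (ht b hb) _ (S.mem w hU) ?_ ?_
  · rw [← (S.r_equivariant h hG.image hU).2, hw]
  · have hmb : m ≤ ρ b / 2 :=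
      Finset.min'_le _ _ (Finset.mem_insert_of_mem (Finset.mem_image_of_mem _ hb))
    rw [mem_ball] at hab
    calc dist (S.r w) b ≤ dist (S.r w) w + dist w a + dist a b := dist_triangle4 _ _ _ _
      _ < ρ b := by rw [dist_comm (S.r w) w]; linarith

lemma segment_deform (hG : FixedPiece M G h) {ρ : ℝ} (hρε : ρ < S.ε)
    (hρ : ∀ w, h w = w → ∀ a ∈ G, dist w a < ρ → S.r w ∈ G) {F : Type*} [TopologicalSpace F]
    {Y : Set F} {u v : F × ℝ → E} (hu : ContinuousOn u (Y ×ˢ Icc (0 : ℝ) 1))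
    (hv : ContinuousOn v (Y ×ˢ Icc (0 : ℝ) 1))
    (hm : ∀ p ∈ Y ×ˢ Icc (0 : ℝ) 1, u p ∈ M ∧ dist (u p) (v p) < ρ)
    (he : ∀ y ∈ Y, (u (y, 0) ∈ G ∧ h (v (y, 0)) = v (y, 0)) ∧
      (u (y, 1) ∈ G ∧ h (v (y, 1)) = v (y, 1)) ∧
      ((∀ t ∈ Icc (0 : ℝ) 1, u (y, t) ∈ G) → ∀ t ∈ Icc (0 : ℝ) 1, h (v (y, t)) = v (y, t))) :
    Deform M G Y u fun p => S.r (v p) := by
  set w : (F × ℝ) × ℝ → E := fun q => (1 - q.2) • u q.1 + q.2 • v q.1 with hw
  have hd : ∀ p ∈ Y ×ˢ Icc (0 : ℝ) 1, ∀ s ∈ Icc (0 : ℝ) 1, dist (w (p, s)) (u p) < ρ := by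
    intro p hp s hs
    rw [dist_eq_norm, show w (p, s) - u p = s • (v p - u p) by simp only [hw]; module, norm_smul,
      Real.norm_eq_abs, abs_of_nonneg hs.1, ← dist_eq_norm, dist_comm]
    exact lt_of_le_of_lt (mul_le_of_le_one_left dist_nonneg hs.2) (hm p hp).2
  have hU : ∀ p ∈ Y ×ˢ Icc (0 : ℝ) 1, ∀ s ∈ Icc (0 : ℝ) 1, w (p, s) ∈ S.U := fun p hp s hs =>
    S.ball_sub (hm p hp).1 (mem_ball.2 ((hd p hp s hs).trans hρε))
  have hfix : ∀ p ∈ Y ×ˢ Icc (0 : ℝ) 1, ∀ s ∈ Icc (0 : ℝ) 1, u p ∈ G → h (v p) = v p →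
      S.r (w (p, s)) ∈ G := fun p hp s hs hu' hv' => by
    refine hρ _ ?_ _ hu' (hd p hp s hs)
    simp only [hw, map_add, map_smul, hv', hG.fixed _ hu']
  refine ⟨fun q => S.r (w q), ?_, fun p hp => ⟨?_, ?_, fun s hs => S.mem _ (hU p hp s hs)⟩,
    fun y hy s hs => ⟨?_, ?_, fun hf t ht => ?_⟩⟩
  · refine S.smooth.continuousOn.comp ?_ fun q hq => hU q.1 hq.1 q.2 hq.2
    exact ((continuousOn_const.sub continuousOn_snd).smul
      (hu.comp continuousOn_fst fun q hq => hq.1)).add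
        (continuousOn_snd.smul (hv.comp continuousOn_fst fun q hq => hq.1))
  · simp [hw, S.fix (hm p hp).1]
  · simp [hw]
  · exact hfix _ ⟨hy, left_mem_Icc.2 zero_le_one⟩ s hs (he y hy).1.1 (he y hy).1.2
  · exact hfix _ ⟨hy, right_mem_Icc.2 zero_le_one⟩ s hs (he y hy).2.1.1 (he y hy).2.1.2
  · exact hfix _ ⟨hy, ht⟩ s hs (hf t ht) ((he y hy).2.2 hf t ht)

include S in
/-- Without a segment every compact family of paths with ends in `G` deforms into `G`. -/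
theorem shrink (hG : FixedPiece M G h) (hno : ¬ S.HasSegment G h) {F : Type*} [MetricSpace F]
    {Y : Set F} (hY : IsCompact Y) {f : F × ℝ → E} (hf : ContinuousOn f (Y ×ˢ Icc (0 : ℝ) 1))
    (hm : ∀ p ∈ Y ×ˢ Icc (0 : ℝ) 1, f p ∈ M) (he : ∀ y ∈ Y, f (y, 0) ∈ G ∧ f (y, 1) ∈ G) :
    ∃ g, Deform M G Y f g ∧ ∀ p ∈ Y ×ˢ Icc (0 : ℝ) 1, g p ∈ G := by
  set I : Set ℝ := Icc 0 1
  have hI0 : (0 : ℝ) ∈ I := left_mem_Icc.2 zero_le_one
  have hI1 : (1 : ℝ) ∈ I := right_mem_Icc.2 zero_le_one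
  obtain ⟨ρ, hρ0, hρε, hρ⟩ := S.exists_near hG
  obtain ⟨η, hη, hunif⟩ := Metric.uniformContinuousOn_iff.1
    ((hY.prod isCompact_Icc).uniformContinuousOn_of_continuous hf) (ρ / 4) (by positivity)
  obtain ⟨m', hm'⟩ := exists_nat_one_div_lt hη
  set m := m' + 1 with hmdef
  have hm0 : 0 < m := Nat.succ_pos _
  have hmR : (m : ℝ) ≠ 0 := by exact_mod_cast hm0.ne'
  have hmη : (1 : ℝ) / m < η := by simpa [hmdef] using hm'
  have hgrid : ∀ i : ℕ, i ≤ m → (i : ℝ) / m ∈ I := fun i hi =>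
    ⟨by positivity, (div_le_one (by exact_mod_cast hm0)).2 (by exact_mod_cast hi)⟩
  set a : F → ℕ → E := fun y i => f (y, (i : ℝ) / m) with ha
  have hclose : ∀ y ∈ Y, ∀ t ∈ I, ∀ u ∈ I, |t - u| ≤ 1 / (m : ℝ) →
      dist (f (y, t)) (f (y, u)) < ρ / 4 := fun y hy t ht u hu h' =>
    hunif _ ⟨hy, ht⟩ _ ⟨hy, hu⟩ (by
      rw [Prod.dist_eq, dist_self, Real.dist_eq]
      exact max_lt hη (h'.trans_lt hmη))
  have hstep : ∀ y ∈ Y, ∀ i < m, ‖a y (i + 1) - a y i‖ ≤ ρ / 4 := fun y hy i hi => by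
    rw [← dist_eq_norm]
    refine (hclose y hy _ (hgrid _ hi) _ (hgrid _ hi.le) ?_).le
    rw [← sub_div, abs_div, Nat.abs_cast]
    push_cast
    simp
  have hnear : ∀ y ∈ Y, ∀ t ∈ I, dist (f (y, t)) (pl m (a y) t) < ρ := fun y hy t ht => by
    obtain ⟨j, hj, h1, h2, hd⟩ := dist_pl_le hm0 (a y) ht
    have := hclose y hy t ht _ (hgrid j hj.le) (by
      rw [abs_le]; rw [add_div] at h2
      constructor <;> linarith [show (0 : ℝ) ≤ 1 / m by positivity])
    calc dist (f (y, t)) (pl m (a y) t) ≤ dist (f (y, t)) (a y j) + dist (a y j) (pl m (a y) t) :=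
          dist_triangle _ _ _
      _ < ρ := by rw [dist_comm (a y j)]; linarith [hd.trans (hstep y hy j hj)]
  have hac : ∀ i ≤ m, ContinuousOn (fun p : F × ℝ => a p.1 i) (Y ×ˢ I) := fun i hi =>
    hf.comp (continuousOn_fst.prodMk continuousOn_const) fun p hp => ⟨hp.1, hgrid i hi⟩
  have D1 : Deform M G Y f fun p => S.r (pl m (a p.1) p.2) :=
    S.segment_deform hG hρε hρ hf (continuousOn_pl hac continuousOn_snd)
      (fun p hp => ⟨hm p hp, hnear p.1 hp.1 p.2 hp.2⟩) fun y hy =>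
      ⟨⟨(he y hy).1, by simp only [pl_zero]; exact hG.fixed _ (by simpa [ha] using (he y hy).1)⟩,
        ⟨(he y hy).2, by
          simp only [pl_one]
          exact hG.fixed _ (by simpa [ha, div_self hmR] using (he y hy).2)⟩,
        fun hall t _ => pl_fixed h (fun i hi => hG.fixed _ (hall _ (hgrid i hi))) t⟩
  set K := cthickening ρ M
  have hK : IsCompact K := S.compact.cthickening
  have hKU : K ⊆ S.U := cthickening_subset_thickening' S.pos hρε M
  obtain ⟨Lr, hLr⟩ := S.exists_lipschitz_r hK hKU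
  have hplK : ∀ y ∈ Y, ∀ t ∈ I, pl m (a y) t ∈ K := fun y hy t ht =>
    mem_cthickening_of_dist_le _ (f (y, t)) _ M (hm _ ⟨hy, ht⟩)
      (by rw [dist_comm]; exact (hnear y hy t ht).le)
  set L : ℝ := Lr * ((m : ℝ) * (m * (ρ / 4))) with hL
  have hL0 : 0 ≤ L := by positivity
  have hlip : ∀ y ∈ Y, ∀ t ∈ I, ∀ u ∈ I,
      dist (S.r (pl m (a y) t)) (S.r (pl m (a y) u)) ≤ L * dist t u := fun y hy t ht u hu => by
    refine (hLr.dist_le_mul _ (hplK y hy t ht) _ (hplK y hy u hu)).trans ?_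
    rw [hL, mul_assoc (Lr : ℝ)]
    refine mul_le_mul_of_nonneg_left ?_ Lr.2
    rw [dist_eq_norm]
    refine (norm_pl_sub _ _ _ _).trans (mul_le_mul_of_nonneg_right
      (mul_le_mul_of_nonneg_left ?_ (Nat.cast_nonneg _)) dist_nonneg)
    refine (Finset.sum_le_sum fun i hi => hstep y hy i (Finset.mem_range.1 hi)).trans_eq ?_
    rw [Finset.sum_const, Finset.card_range, nsmul_eq_mul]
  obtain ⟨n₀, hn₀, hreg⟩ := no_critical S hG hno (C := L ^ 2)
    (show (0 : ℝ) < ρ ^ 2 / 64 by positivity)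
  obtain ⟨n₁, hn₁⟩ := exists_nat_gt (4 * L / ρ + L ^ 2 / ρ ^ 2)
  set n := max n₀ n₁ with hn
  have hn2 : 2 ≤ n := hn₀.trans (le_max_left _ _)
  have hn0 : (0 : ℝ) < n := by exact_mod_cast (by omega : 0 < n)
  have hLn : L / n < ρ / 4 := by
    rw [div_lt_iff₀ hn0]
    have : 4 * L / ρ < n := lt_of_le_of_lt (le_add_of_nonneg_right (by positivity))
      (hn₁.trans_le (by exact_mod_cast le_max_right _ _))
    rw [div_lt_iff₀ hρ0] at this
    linarith
  have hLn2 : L ^ 2 < ρ ^ 2 * n := by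
    have : L ^ 2 / ρ ^ 2 < n := lt_of_le_of_lt (le_add_of_nonneg_left (by positivity))
      (hn₁.trans_le (by exact_mod_cast le_max_right _ _))
    rw [div_lt_iff₀ (by positivity)] at this
    linarith
  have hsmall : ∀ {x : ℕ → E}, energy n x ≤ L ^ 2 → ∀ j < n, ‖x (j + 1) - x j‖ < ρ := by
    intro x hx j hj
    refine lt_of_pow_lt_pow_left₀ 2 hρ0.le ((step_le hx hj).trans_lt ?_)
    rw [div_lt_iff₀ hn0]
    linarith
  obtain ⟨Φ, hΦc, hΦ⟩ := exists_descent S hG (show (0 : ℝ) < ρ ^ 2 / 64 by positivity) hn2 hρ0 hρε hρ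
    (hreg n (le_max_left _ _))
  set x : F → ℕ → E := fun y i => S.r (pl m (a y) (min ((i : ℝ) / n) 1)) with hx
  have hxI : ∀ i : ℕ, min ((i : ℝ) / n) 1 ∈ I := fun i =>
    ⟨le_min (by positivity) zero_le_one, min_le_right _ _⟩
  have hxp : ∀ y ∈ Y, IsPoly M G n (x y) ∧ energy n (x y) ≤ L ^ 2 := fun y hy => by
    refine ⟨⟨fun i _ => S.mem _ (hKU (hplK y hy _ (hxI i))), ?_, ?_⟩, ?_⟩
    · simp only [hx, Nat.cast_zero, zero_div, min_eq_left zero_le_one, pl_zero]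
      rw [show a y 0 = f (y, 0) by simp [ha], S.fix (hm (y, 0) ⟨hy, hI0⟩)]
      exact (he y hy).1
    · simp only [hx, div_self hn0.ne', min_self, pl_one]
      rw [show a y m = f (y, 1) by simp [ha, div_self hmR],
        S.fix (hm (y, 1) ⟨hy, hI1⟩)]
      exact (he y hy).2
    · calc energy n (x y) ≤ (n : ℝ) * ∑ _i ∈ Finset.range n, (L / n) ^ 2 := by
            refine mul_le_mul_of_nonneg_left (Finset.sum_le_sum fun i _ => ?_) hn0.le
            rw [← dist_eq_norm]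
            refine pow_le_pow_left₀ dist_nonneg ((hlip y hy _ (hxI _) _ (hxI _)).trans ?_) 2
            rw [div_eq_mul_one_div L]
            refine mul_le_mul_of_nonneg_left ?_ hL0
            rw [Real.dist_eq]
            refine (abs_min_sub_min_le_max _ _ _ _).trans (max_le ?_ (by simp))
            rw [← sub_div, abs_div, Nat.abs_cast]
            push_cast
            simp
        _ = L ^ 2 := by rw [Finset.sum_const, Finset.card_range, nsmul_eq_mul]; field_simp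
  have hxc : ∀ i, ContinuousOn (fun y => x y i) Y := fun i =>
    S.smooth.continuousOn.comp (continuousOn_pl (fun k hk => hf.comp
      (continuousOn_id.prodMk continuousOn_const) fun y hy => ⟨hy, hgrid k hk⟩) continuousOn_const)
      fun y hy => hKU (hplK y hy _ (hxI i))
  have hall : ∀ y ∈ Y, (∀ t ∈ I, S.r (pl m (a y) t) ∈ G) → ∀ i, x y i ∈ G := fun y _ hg i =>
    hg _ (hxI i)
  have D2 : Deform M G Y (fun p => S.r (pl m (a p.1) p.2)) fun p => S.r (pl n (x p.1) p.2) := by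
    refine S.segment_deform hG hρε hρ
      (S.smooth.continuousOn.comp (continuousOn_pl hac continuousOn_snd)
        fun p hp => hKU (hplK _ hp.1 _ hp.2))
      (continuousOn_pl (fun i _ => (hxc i).comp continuousOn_fst fun p hp => hp.1) continuousOn_snd)
      (fun p hp => ⟨S.mem _ (hKU (hplK _ hp.1 _ hp.2)), ?_⟩) fun y hy => ?_
    · obtain ⟨j, hj, h1, h2, hd⟩ := dist_pl_le (by omega : 0 < n) (x p.1) hp.2
      have hj1 : min ((j : ℝ) / n) 1 = (j : ℝ) / n := min_eq_left (h1.trans hp.2.2)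
      have e1 : dist (S.r (pl m (a p.1) p.2)) (x p.1 j) ≤ L / n := by
        refine (hlip _ hp.1 _ hp.2 _ (hxI j)).trans ?_
        rw [hj1, Real.dist_eq, abs_of_nonneg (by linarith), div_eq_mul_one_div L]
        rw [add_div] at h2
        exact mul_le_mul_of_nonneg_left (by linarith) hL0
      have e2 : ‖x p.1 (j + 1) - x p.1 j‖ ≤ L / n := by
        rw [← dist_eq_norm]
        refine (hlip _ hp.1 _ (hxI _) _ (hxI _)).trans ?_
        rw [div_eq_mul_one_div L]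
        refine mul_le_mul_of_nonneg_left ?_ hL0
        rw [Real.dist_eq]
        refine (abs_min_sub_min_le_max _ _ _ _).trans (max_le ?_ (by simp))
        rw [← sub_div, abs_div, Nat.abs_cast]
        push_cast
        simp
      calc _ ≤ dist (S.r (pl m (a p.1) p.2)) (x p.1 j) + dist (x p.1 j) (pl n (x p.1) p.2) :=
            dist_triangle _ _ _
        _ < ρ := by rw [dist_comm (x p.1 j)]; linarith
    · refine ⟨⟨?_, by simp only [pl_zero]; exact hG.fixed _ (hxp y hy).1.2.1⟩,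
        ⟨?_, by simp only [pl_one]; exact hG.fixed _ (hxp y hy).1.2.2⟩,
        fun hg t _ => pl_fixed h (fun i _ => hG.fixed _ (hall y hy hg i)) t⟩
      · simp only [pl_zero]
        rw [show a y 0 = f (y, 0) by simp [ha], S.fix (hm (y, 0) ⟨hy, hI0⟩)]
        exact (he y hy).1
      · simp only [pl_one]
        rw [show a y m = f (y, 1) by simp [ha, div_self hmR],
          S.fix (hm (y, 1) ⟨hy, hI1⟩)]
        exact (he y hy).2
  set Z : (F × ℝ) × ℝ → ℕ → E := fun q => Φ (x q.1.1, q.2) with hZ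
  have hZp : ∀ q ∈ (Y ×ˢ I) ×ˢ I, IsPoly M G n (Z q) ∧ energy n (Z q) ≤ L ^ 2 := fun q hq =>
    (hΦ _ (hxp _ hq.1.1).1 (hxp _ hq.1.1).2).2.1 q.2 hq.2
  have hZU : ∀ q ∈ (Y ×ˢ I) ×ˢ I, ∀ t ∈ I, pl n (Z q) t ∈ S.U := fun q hq t ht => by
    obtain ⟨j, hj, -, -, hd⟩ := dist_pl_le (by omega : 0 < n) (Z q) ht
    exact S.ball_sub ((hZp q hq).1.1 j hj.le)
      (mem_ball.2 ((hd.trans_lt (hsmall (hZp q hq).2 j hj)).trans hρε))
  have hZc : ∀ i ≤ n, ContinuousOn (fun q => Z q i) ((Y ×ˢ I) ×ˢ I) := fun i hi =>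
    (hΦc i hi).comp ((continuousOn_pi.2 fun k => (hxc k).comp
      (continuousOn_fst.comp continuousOn_fst fun q hq => hq.1) fun q hq => hq.1.1).prodMk
        continuousOn_snd) fun q hq => ⟨hxp _ hq.1.1, hq.2⟩
  have D3 : Deform M G Y (fun p => S.r (pl n (x p.1) p.2))
      fun p => S.r (pl n (Φ (x p.1, 1)) p.2) := by
    refine ⟨fun q => S.r (pl n (Z q) q.1.2), ?_, fun p hp => ⟨?_, rfl, fun s hs => ?_⟩,
      fun y hy s hs => ⟨?_, ?_, fun hg t ht => ?_⟩⟩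
    · exact S.smooth.continuousOn.comp (continuousOn_pl hZc
        (continuousOn_snd.comp continuousOn_fst fun q hq => hq.1))
        fun q hq => hZU q hq _ hq.1.2
    · simp only [hZ]
      rw [pl_congr (fun i hi => (hΦ _ (hxp _ hp.1).1 (hxp _ hp.1).2).1 i hi)]
    · exact S.mem _ (hZU (p, s) ⟨hp, hs⟩ _ hp.2)
    · simp only [pl_zero]
      have h0 := (hZp ((y, 0), s) ⟨⟨hy, hI0⟩, hs⟩).1
      rw [S.fix (h0.1 0 (Nat.zero_le _))]
      exact h0.2.1
    · simp only [pl_one]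
      have h1 := (hZp ((y, 1), s) ⟨⟨hy, hI1⟩, hs⟩).1
      rw [S.fix (h1.1 n le_rfl)]
      exact h1.2.2
    · have hxG : ∀ i ≤ n, x y i ∈ G := fun i hi => by
        have hq : (i : ℝ) / n ∈ I := ⟨by positivity, (div_le_one hn0).2 (by exact_mod_cast hi)⟩
        have h' := hg _ hq
        obtain ⟨j, hj, e1, e2, he'⟩ := exists_pl_eq (by omega : 0 < n) (x y) hq
        have hji : pl n (x y) ((i : ℝ) / n) = x y i := by
          rw [he']
          rw [div_le_div_iff_of_pos_right hn0, Nat.cast_le] at e1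
          rw [div_le_div_iff_of_pos_right hn0] at e2
          have e2' : i ≤ j + 1 := by exact_mod_cast e2
          rcases (show i = j ∨ i = j + 1 by omega) with rfl | rfl
          · rw [mul_div_cancel₀ _ hn0.ne', sub_self, clamp_zero, zero_smul, add_zero]
          · rw [mul_div_cancel₀ _ hn0.ne', clamp_ge_one (by simp), one_smul, add_sub_cancel]
        simp only [hji] at h'
        rwa [S.fix (S.mem _ (hKU (hplK y hy _ (hxI i))))] at h'
      have hzG := (hΦ _ (hxp y hy).1 (hxp y hy).2).2.2.2 hxG s hs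
      obtain ⟨j, hj, -, -, hd⟩ := dist_pl_le (by omega : 0 < n) (Z ((y, t), s)) ht
      exact hρ _ (pl_fixed h (fun i hi => hG.fixed _ (hzG i hi)) t) _ (hzG j hj.le)
        (hd.trans_lt (hsmall (hZp ((y, t), s) ⟨⟨hy, ht⟩, hs⟩).2 j hj))
  have hq1 : ∀ p ∈ Y ×ˢ I, (p, (1 : ℝ)) ∈ (Y ×ˢ I) ×ˢ I := fun p hp => ⟨hp, hI1⟩
  have D4 : Deform M G Y (fun p => S.r (pl n (Φ (x p.1, 1)) p.2))
      fun p => S.r (Φ (x p.1, 1) 0) := by
    refine S.segment_deform hG hρε hρ ?_ ?_ (fun p hp => ⟨S.mem _ (hZU _ (hq1 p hp) _ hp.2), ?_⟩)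
      fun y hy => ?_
    · exact S.smooth.continuousOn.comp (continuousOn_pl (fun i hi => (hZc i hi).comp
        (continuousOn_id.prodMk continuousOn_const) hq1) continuousOn_snd)
        fun p hp => hZU _ (hq1 p hp) _ hp.2
    · exact (hZc 0 (Nat.zero_le _)).comp (continuousOn_id.prodMk continuousOn_const) hq1
    · have h0 := (hZp _ (hq1 p hp)).1
      have hE := (hΦ _ (hxp _ hp.1).1 (hxp _ hp.1).2).2.2.1
      have hsum := sum_step_le hE
      have hsq : Real.sqrt (2 * (ρ ^ 2 / 64)) < ρ / 4 := by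
        rw [Real.sqrt_lt' (by positivity)]; nlinarith
      have hw := norm_pl_sub_zero n (Φ (x p.1, 1)) p.2
      rw [← dist_eq_norm] at hw
      have hnear' : dist (pl n (Φ (x p.1, 1)) p.2) (S.r (pl n (Φ (x p.1, 1)) p.2)) ≤
          dist (pl n (Φ (x p.1, 1)) p.2) (Φ (x p.1, 1) 0) := by
        rcases eq_or_ne (Φ (x p.1, 1) 0) (S.r (pl n (Φ (x p.1, 1)) p.2)) with h' | h'
        · rw [← h']
        · exact (S.nearest _ (hZU _ (hq1 p hp) _ hp.2) _ (h0.1 0 (Nat.zero_le _)) h').le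
      calc _ ≤ dist (S.r (pl n (Φ (x p.1, 1)) p.2)) (pl n (Φ (x p.1, 1)) p.2) +
            dist (pl n (Φ (x p.1, 1)) p.2) (Φ (x p.1, 1) 0) := dist_triangle _ _ _
        _ < ρ := by rw [dist_comm (S.r _)]; linarith
    · have h0 := (hZp ((y, 0), 1) ⟨⟨hy, hI0⟩, hI1⟩).1
      refine ⟨⟨?_, hG.fixed _ h0.2.1⟩, ⟨?_, hG.fixed _ h0.2.1⟩, fun _ _ _ => hG.fixed _ h0.2.1⟩
      · simp only [pl_zero]; rw [S.fix (h0.1 0 (Nat.zero_le _))]; exact h0.2.1
      · simp only [pl_one]; rw [S.fix (h0.1 n le_rfl)]; exact h0.2.2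
  refine ⟨_, ((D1.trans D2).trans D3).trans D4, fun p hp => ?_⟩
  have h0 := (hZp ((p.1, 0), 1) ⟨⟨hp.1, hI0⟩, hI1⟩).1
  rw [show S.r (Φ (x p.1, 1) 0) = Φ (x p.1, 1) 0 from S.fix (h0.1 0 (Nat.zero_le _))]
  exact h0.2.1

end Tube

end Vale.Agent.P216
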