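import Vale.Agent.P216.Tube

/-!
Geodesics as solutions of a first order system; one parameter groups of rotations.
-/

namespace Vale.Agent.P216

open Metric Set Filter Topology NormedSpace
open scoped RealInnerProductSpace ContDiff

variable {E : Type*} [NormedAddCommGroup E] [InnerProductSpace ℝ E] [FiniteDimensional ℝ E]

set_option linter.unusedSectionVars false

namespace Tube

variable {M : Set E} (S : Tube M)

/-- The geodesic field. -/
noncomputable def field (z : E × E) : E × E := (z.2, S.D2 z.1 z.2 z.2)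

/-- A complete geodesic with its velocity. -/
def Geo (y : ℝ → E × E) : Prop := ∀ t, (y t).1 ∈ M ∧ HasDerivAt y (S.field (y t)) t

variable {y z : ℝ → E × E}

lemma Geo.d1 (hy : S.Geo y) (t : ℝ) : HasDerivAt (fun u => (y u).1) (y t).2 t :=
  (hasFDerivAt_fst (p := y t)).comp_hasDerivAt t (hy t).2

lemma Geo.d2 (hy : S.Geo y) (t : ℝ) :
    HasDerivAt (fun u => (y u).2) (S.D2 (y t).1 (y t).2 (y t).2) t :=
  (hasFDerivAt_snd (p := y t)).comp_hasDerivAt t (hy t).2

lemma Geo.cont (hy : S.Geo y) : Continuous y :=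
  continuous_iff_continuousAt.2 fun t => (hy t).2.continuousAt

lemma curve_tangent {c : ℝ → E} {v : E} {t : ℝ} (hc : ∀ u, c u ∈ M) (h : HasDerivAt c v t) :
    S.P (c t) v = v := by
  have h1 := (S.hasP (S.sub (hc t))).comp_hasDerivAt t h
  rw [show S.r ∘ c = c from funext fun u => S.fix (hc u)] at h1
  exact h1.unique h

lemma curve_normal {c c' : ℝ → E} {a : E} {t : ℝ} (hc : ∀ u, c u ∈ M)
    (h1 : ∀ u, HasDerivAt c (c' u) u) (h2 : HasDerivAt c' a t) :
    S.D2 (c t) (c' t) (c' t) + S.P (c t) a = a := by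
  have hP : HasDerivAt (fun u => S.P (c u)) (S.D2 (c t) (c' t)) t :=
    (S.hasD2 (S.sub (hc t))).comp_hasDerivAt t (h1 t)
  have h3 := hP.clm_apply h2
  rw [show (fun u => S.P (c u) (c' u)) = c' from funext fun u => S.curve_tangent hc (h1 u)] at h3
  exact h3.unique h2

lemma Geo.tangent (hy : S.Geo y) (t : ℝ) : S.P (y t).1 (y t).2 = (y t).2 :=
  S.curve_tangent (c := fun u => (y u).1) (fun u => (hy u).1) (Geo.d1 S hy t)

lemma Geo.normal (hy : S.Geo y) (t : ℝ) : S.P (y t).1 (S.D2 (y t).1 (y t).2 (y t).2) = 0 := by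
  have h := S.curve_normal (c := fun u => (y u).1) (c' := fun u => (y u).2) (fun u => (hy u).1)
    (Geo.d1 S hy) (Geo.d2 S hy t)
  simpa using h

lemma Geo.speed (hy : S.Geo y) (t : ℝ) : ‖(y t).2‖ = ‖(y 0).2‖ := by
  have h : ∀ u, HasDerivAt (fun u => ‖(y u).2‖ ^ 2) 0 u := by
    intro u
    refine ((Geo.d2 S hy u).norm_sq).congr_deriv ?_
    nth_rw 1 [← Geo.tangent S hy u]
    rw [S.P_symm (hy u).1, Geo.normal S hy u, inner_zero_right, mul_zero]
  have := is_const_of_deriv_eq_zero (fun u => (h u).differentiableAt) (fun u => (h u).deriv) t 0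
  exact (pow_left_inj₀ (norm_nonneg _) (norm_nonneg _) two_ne_zero).1 this

lemma field_smooth : ContDiffOn ℝ 1 S.field (S.U ×ˢ univ) := by
  have h1 : ContDiffOn ℝ 1 (fun z : E × E => S.D2 z.1) (S.U ×ˢ univ) :=
    (S.smoothD2.of_le (by exact_mod_cast le_top)).comp contDiffOn_fst fun z hz => hz.1
  exact contDiffOn_snd.prodMk ((h1.clm_apply contDiffOn_snd).clm_apply contDiffOn_snd)

/-- Uniqueness of geodesics. -/
lemma Geo.eq_of_eq (hy : S.Geo y) (hz : S.Geo z) {t₀ : ℝ} (h : y t₀ = z t₀) : y = z := by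
  obtain ⟨K, hK⟩ : ∃ K, LipschitzOnWith K S.field
      (M ×ˢ closedBall (0 : E) (max ‖(y 0).2‖ ‖(z 0).2‖)) := by
    refine LocallyLipschitzOn.exists_lipschitzOnWith_of_compact
      (S.compact.prod (isCompact_closedBall _ _)) fun w hw => ?_
    obtain ⟨K, t, ht, hK⟩ := (S.field_smooth.contDiffAt
      ((S.isOpen.prod isOpen_univ).mem_nhds ⟨S.sub hw.1, trivial⟩)).exists_lipschitzOnWith
    exact ⟨K, t, mem_nhdsWithin_of_mem_nhds ht, hK⟩
  refine ODE_solution_unique_univ (v := fun _ => S.field) (fun _ => hK) (fun t => ⟨(hy t).2, ?_⟩)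
    (fun t => ⟨(hz t).2, ?_⟩) h
  · exact ⟨(hy t).1, by simp [Geo.speed S hy t]⟩
  · exact ⟨(hz t).1, by simp [Geo.speed S hz t]⟩

/-- The image of a periodic nonconstant geodesic is the image of a closed geodesic. -/
lemma Geo.isImage (hy : S.Geo y) {T : ℝ} (hT : 0 < T) (hper : ∀ t, y (t + T) = y t)
    (hne : (y 0).2 ≠ 0) : IsClosedGeodesicImage M (range fun t => (y t).1) := by
  have hd : deriv (fun t => (y t).1) = fun t => (y t).2 := funext fun t => (Geo.d1 S hy t).deriv
  refine ⟨fun t => (y t).1, T, hT, ?_, fun t => (hy t).1, fun t => by simp [hper t], ?_, ?_, rfl⟩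
  · rw [show (2 : WithTop ℕ∞) = 1 + 1 from rfl, contDiff_succ_iff_deriv, hd]
    refine ⟨fun t => (Geo.d1 S hy t).differentiableAt, by simp, ?_⟩
    rw [contDiff_one_iff_deriv]
    refine ⟨fun t => (Geo.d2 S hy t).differentiableAt, ?_⟩
    rw [show deriv (fun t => (y t).2) = fun t => (S.field (y t)).2 from
      funext fun t => (Geo.d2 S hy t).deriv]
    exact continuous_snd.comp (S.field_smooth.continuousOn.comp_continuous (Geo.cont S hy)
      fun t => ⟨S.sub (hy t).1, trivial⟩)
  · by_contra hcon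
    push Not at hcon
    have h0 := (Geo.d1 S hy 0)
    rw [show (fun t => (y t).1) = fun _ => (y 0).1 from funext hcon] at h0
    exact hne (h0.unique (hasDerivAt_const _ _))
  · intro t v hv
    rw [hd, (Geo.d2 S hy t).deriv]
    exact (S.normal_iff (hy t).1).2 (Geo.normal S hy t) v hv

/-- An isometry maps geodesics to geodesics. -/
lemma Geo.map (hy : S.Geo y) (h : E ≃ₗᵢ[ℝ] E) (hM : h '' M = M) :
    S.Geo fun t => (h (y t).1, h (y t).2) := by
  intro t
  have hc : ∀ u, h (y u).1 ∈ M := fun u => hM.subset (mem_image_of_mem h (hy u).1)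
  refine ⟨hc t, ?_⟩
  have d1 : ∀ u, HasDerivAt (fun u => h (y u).1) (h (y u).2) u := fun u =>
    ((h.toContinuousLinearEquiv : E →L[ℝ] E).hasFDerivAt).comp_hasDerivAt u (Geo.d1 S hy u)
  have d2 : HasDerivAt (fun u => h (y u).2) (h (S.D2 (y t).1 (y t).2 (y t).2)) t :=
    ((h.toContinuousLinearEquiv : E →L[ℝ] E).hasFDerivAt).comp_hasDerivAt t (Geo.d2 S hy t)
  have e := S.curve_normal hc d1 d2
  rw [S.P_equivariant h hM (hy t).1, Geo.normal S hy t, map_zero, add_zero] at e
  refine (d1 t).prodMk (d2.congr_deriv ?_)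
  simp [e]

/-- Reversal of time. -/
lemma Geo.neg (hy : S.Geo y) : S.Geo fun t => ((y (-t)).1, -(y (-t)).2) := by
  intro t
  refine ⟨(hy _).1, HasDerivAt.prodMk ?_ ?_⟩
  · simpa [field, Function.comp_def] using (Geo.d1 S hy (-t)).scomp t (hasDerivAt_neg t)
  · simpa [field, Function.comp_def] using ((Geo.d2 S hy (-t)).scomp t (hasDerivAt_neg t)).fun_neg

end Tube

section Rot

/-- A skew operator. -/
def Skew (A : E →L[ℝ] E) : Prop := ∀ x y, ⟪A x, y⟫ = -⟪x, A y⟫

variable {A B : E →L[ℝ] E}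

lemma Skew.lin (hA : Skew A) (hB : Skew B) (a b : ℝ) : Skew (a • A + b • B) := fun x y => by
  simp only [_root_.add_apply, _root_.smul_apply, inner_add_left,
    inner_add_right, real_inner_smul_left, real_inner_smul_right, hA x y, hB x y]
  ring

lemma Skew.inner_self (hA : Skew A) (x : E) : ⟪A x, x⟫ = 0 := by
  have h := hA x x
  rw [real_inner_comm (A x) x] at h
  linarith

lemma exp_smul_add (A : E →L[ℝ] E) (s t : ℝ) :
    exp ((s + t) • A) = exp (s • A) * exp (t • A) := by
  let := NormedAlgebra.restrictScalars ℚ ℝ (E →L[ℝ] E)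
  rw [add_smul]
  exact exp_add_of_commute ((Commute.refl A).smul_left s |>.smul_right t)

lemma flow_add (A : E →L[ℝ] E) (s t : ℝ) (x : E) :
    exp ((s + t) • A) x = exp (s • A) (exp (t • A) x) := by
  rw [exp_smul_add]; rfl

lemma flow_cancel (A : E →L[ℝ] E) (t : ℝ) (x : E) : exp ((-t) • A) (exp (t • A) x) = x := by
  rw [← flow_add, neg_add_cancel, zero_smul, exp_zero]; rfl

lemma hasDerivAt_flow (A : E →L[ℝ] E) (x : E) (t : ℝ) :
    HasDerivAt (fun s : ℝ => exp (s • A) x) (A (exp (t • A) x)) t := by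
  simpa using (hasDerivAt_exp_smul_const' A t).clm_apply (hasDerivAt_const t x)

lemma continuous_flow (A : E →L[ℝ] E) : Continuous fun p : ℝ × E => exp (p.1 • A) p.2 := by
  have h : Continuous fun s : ℝ => exp (s • A) :=
    continuous_iff_continuousAt.2 fun t => (hasDerivAt_exp_smul_const' A t).continuousAt
  exact (h.comp continuous_fst).clm_apply continuous_snd

lemma flow_norm (hA : Skew A) (t : ℝ) (x : E) : ‖exp (t • A) x‖ = ‖x‖ := by
  have h : ∀ u, HasDerivAt (fun u => ‖exp (u • A) x‖ ^ 2) 0 u := fun u => by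
    refine ((hasDerivAt_flow A x u).norm_sq).congr_deriv ?_
    rw [real_inner_comm, hA.inner_self, mul_zero]
  have := is_const_of_deriv_eq_zero (fun u => (h u).differentiableAt) (fun u => (h u).deriv) t 0
  rw [zero_smul, exp_zero] at this
  exact (pow_left_inj₀ (norm_nonneg _) (norm_nonneg _) two_ne_zero).1 this

/-- The rotation by `t`. -/
noncomputable def rot (hA : Skew A) (t : ℝ) : E ≃ₗᵢ[ℝ] E where
  toFun x := exp (t • A) x
  invFun x := exp ((-t) • A) x
  left_inv := flow_cancel A t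
  right_inv x := by simpa using flow_cancel A (-t) x
  map_add' := map_add _
  map_smul' := map_smul _
  norm_map' := flow_norm hA t

@[simp] lemma rot_apply (hA : Skew A) (t : ℝ) (x : E) : rot hA t x = exp (t • A) x := rfl

lemma rot_image (hA : Skew A) {M : Set E} (hp : ∀ t : ℝ, ∀ x ∈ M, exp (t • A) x ∈ M) (t : ℝ) :
    rot hA t '' M = M :=
  Subset.antisymm (image_subset_iff.2 fun x hx => hp t x hx)
    fun x hx => ⟨exp ((-t) • A) x, hp _ x hx, by simpa using flow_cancel A (-t) x⟩

lemma flow_comm_of (h : Commute A B) (s t : ℝ) (x : E) :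
    exp (s • A) (exp (t • B) x) = exp (t • B) (exp (s • A) x) :=
  have : Commute (exp (s • A)) (exp (t • B)) :=
    let := NormedAlgebra.restrictScalars ℚ ℝ (E →L[ℝ] E)
    ((h.smul_left s).smul_right t).exp
  DFunLike.congr_fun this.eq x

lemma flow_apply_comm (h : Commute A B) (t : ℝ) (x : E) :
    A (exp (t • B) x) = exp (t • B) (A x) :=
  DFunLike.congr_fun (h.smul_right t).exp_right.eq x

lemma flow_of_apply_eq_zero (A : E →L[ℝ] E) {x : E} (hx : A x = 0) (t : ℝ) :
    exp (t • A) x = x := by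
  have h : ∀ u, HasDerivAt (fun u : ℝ => exp (u • A) x) 0 u := fun u => by
    refine (hasDerivAt_flow A x u).congr_deriv ?_
    rw [flow_apply_comm (Commute.refl A), hx, map_zero]
  simpa using is_const_of_deriv_eq_zero (fun u => (h u).differentiableAt)
    (fun u => (h u).deriv) t 0

lemma apply_eq_zero_of_flow (A : E →L[ℝ] E) {x : E} (hx : ∀ t : ℝ, exp (t • A) x = x) :
    A x = 0 := by
  have h := hasDerivAt_flow A x 0
  simp only [hx] at h
  exact ((hasDerivAt_const (0 : ℝ) x).unique h).symm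

/-- An orbit through a critical point of the square of the length is a geodesic. -/
lemma exists_max_orbit {M : Set E} (S : Tube M) (hne : M.Nonempty) (hA : Skew A)
    (hp : ∀ t : ℝ, ∀ x ∈ M, exp (t • A) x ∈ M) (hA0 : ∃ x ∈ M, A x ≠ 0) :
    ∃ x ∈ M, A x ≠ 0 ∧ S.Geo fun t => (exp (t • A) x, exp (t • A) (A x)) := by
  obtain ⟨x, hx, hmax⟩ := S.compact.exists_isMaxOn hne
    (Continuous.continuousOn (f := fun x => ‖A x‖ ^ 2) (by fun_prop))
  have hx0 : A x ≠ 0 := by
    obtain ⟨z, hz, hz0⟩ := hA0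
    intro h0
    have := hmax hz
    simp [h0] at this
    exact hz0 this
  refine ⟨x, hx, hx0, ?_⟩
  have hn : S.P x (A (A x)) = 0 := by
    refine (S.normal_iff hx).1 fun v hv => ?_
    have hline : HasDerivAt (fun s : ℝ => x + s • v) v 0 := by
      simpa using ((hasDerivAt_id (0 : ℝ)).smul_const v).const_add x
    have hr : HasDerivAt (fun s : ℝ => S.r (x + s • v)) v 0 := by
      have h := (show HasFDerivAt S.r (S.P x) ((fun s : ℝ => x + s • v) 0) by
        simpa using S.hasP (S.sub hx)).comp_hasDerivAt 0 hline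
      rwa [(S.cone_eq hx).1 hv] at h
    have hd := ((A.hasFDerivAt).comp_hasDerivAt 0 hr).norm_sq
    have hloc : IsLocalMax (fun s : ℝ => ‖A (S.r (x + s • v))‖ ^ 2) 0 := by
      have he : ∀ᶠ s : ℝ in 𝓝 0, x + s • v ∈ S.U :=
        hline.continuousAt.preimage_mem_nhds (by simpa using S.nhds hx)
      filter_upwards [he] with s hs
      simpa [S.fix hx] using hmax (S.mem _ hs)
    have h0 := hloc.hasDerivAt_eq_zero hd
    simp [S.fix hx] at h0
    rw [hA (A x) v, h0, neg_zero]
  intro t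
  have hc : ∀ u : ℝ, exp (u • A) x ∈ M := fun u => hp u x hx
  have d1 : ∀ u, HasDerivAt (fun s : ℝ => exp (s • A) x) (exp (u • A) (A x)) u := fun u => by
    simpa [flow_apply_comm (Commute.refl A)] using hasDerivAt_flow A x u
  have d2 : HasDerivAt (fun s : ℝ => exp (s • A) (A x)) (exp (t • A) (A (A x))) t := by
    simpa [flow_apply_comm (Commute.refl A)] using hasDerivAt_flow A (A x) t
  have e := S.curve_normal hc d1 d2
  have hz : S.P (exp (t • A) x) (exp (t • A) (A (A x))) = 0 := by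
    have := S.P_equivariant (rot hA t) (rot_image hA hp t) hx (A (A x))
    simp only [rot_apply] at this
    rw [this, hn, map_zero]
  rw [hz, add_zero] at e
  exact ⟨hc t, (d1 t).prodMk (d2.congr_deriv e.symm)⟩

end Rot

end Vale.Agent.P216
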