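import Vale.Agent.P216.Loops

/-!
Limits of critical polygons are geodesic segments.
-/

namespace Vale.Agent.P216

open Metric Set Filter Topology
open scoped RealInnerProductSpace ContDiff

variable {E : Type*} [NormedAddCommGroup E] [InnerProductSpace ℝ E] [FiniteDimensional ℝ E]
variable {M G : Set E} {h : E ≃ₗᵢ[ℝ] E}

set_option linter.unusedSectionVars false

namespace Limit

/-- The rescaled edges of a polygon. -/
noncomputable def vel (n : ℕ) (x : ℕ → E) (i : ℕ) : E := (n : ℝ) • (x (i + 1) - x i)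

/-- The state of a polygon at a vertex. -/
noncomputable def state (n : ℕ) (x : ℕ → E) (i : ℕ) : E × E := (x i, vel n x i)

/-- Telescoping bound. -/
lemma norm_sum_steps {F : Type*} [NormedAddCommGroup F] (u : ℕ → F) (g : F) {e : ℝ} {i j : ℕ}
    (hij : i ≤ j) (hs : ∀ k, i ≤ k → k < j → ‖u (k + 1) - u k - g‖ ≤ e) :
    ‖u j - u i - (j - i) • g‖ ≤ (j - i : ℕ) * e := by
  obtain ⟨d, rfl⟩ := Nat.exists_eq_add_of_le hij
  simp only [Nat.add_sub_cancel_left]
  clear hij
  induction d with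
  | zero => simp
  | succ d ih =>
    have h1 := ih fun k hk hk' => hs k hk (by omega)
    have h2 := hs (i + d) (by omega) (by omega)
    have he : u (i + (d + 1)) - u i - (d + 1) • g =
        (u (i + d + 1) - u (i + d) - g) + (u (i + d) - u i - d • g) := by
      rw [succ_nsmul, ← Nat.add_assoc]
      abel
    rw [he]
    refine (norm_add_le _ _).trans ?_
    push_cast
    linarith

section Local

variable (S : Tube M)

/-- The normal part of a short chord is half the second differential. -/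
lemma chord_normal {η : ℝ} (hη : 0 < η) : ∃ ρ > 0, ∀ p ∈ M, ∀ b ∈ M, ‖b - p‖ < ρ →
    ‖(b - p - S.P p (b - p)) - (1 / 2 : ℝ) • S.D2 p (b - p) (b - p)‖ ≤ η * ‖b - p‖ ^ 2 := by
  have hsub : cthickening (S.ε / 2) M ⊆ S.U :=
    cthickening_subset_thickening' S.pos (by linarith [S.pos]) M
  obtain ⟨ρ, hρ, hu⟩ := Metric.uniformContinuousOn_iff.1
    ((S.compact.cthickening (r := S.ε / 2)).uniformContinuousOn_of_continuous
      (S.smoothD2.continuousOn.mono hsub)) η hη
  refine ⟨min ρ (S.ε / 2), lt_min hρ (half_pos S.pos), fun p hp b hb hd => ?_⟩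
  set d := b - p with hdd
  have hmem : ∀ s ∈ Icc (0 : ℝ) 1, p + s • d ∈ cthickening (S.ε / 2) M ∧
      dist (p + s • d) p < ρ := fun s hs => by
    have : ‖s • d‖ ≤ ‖d‖ := by
      rw [norm_smul, Real.norm_eq_abs, abs_of_nonneg hs.1]
      exact mul_le_of_le_one_left (norm_nonneg _) hs.2
    refine ⟨mem_cthickening_of_dist_le _ p _ M hp ?_, ?_⟩ <;>
      rw [dist_eq_norm, add_sub_cancel_left]
    · exact this.trans (hd.le.trans (min_le_right _ _))
    · exact this.trans_lt (hd.trans_le (min_le_left _ _))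
  set g : ℝ → E := fun s => S.r (p + s • d) - s • S.P p d - (s ^ 2 / 2) • S.D2 p d d
  set g₁ : ℝ → E := fun s => S.P (p + s • d) d - S.P p d - s • S.D2 p d d
  have hline : ∀ s : ℝ, HasDerivAt (fun s : ℝ => p + s • d) d s := fun s => by
    simpa using ((hasDerivAt_id s).smul_const d).const_add p
  have h1 : ∀ s ∈ Icc (0 : ℝ) 1, HasDerivWithinAt g (g₁ s) (Icc 0 1) s := fun s hs => by
    have hr : HasDerivAt (fun s : ℝ => S.r (p + s • d)) (S.P (p + s • d) d) s :=
      (S.hasP (hsub (hmem s hs).1)).comp_hasDerivAt s (hline s)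
    have hq := ((hasDerivAt_pow 2 s).div_const (2 : ℝ)).smul_const (S.D2 p d d)
    refine (((hr.sub ((hasDerivAt_id s).smul_const (S.P p d))).sub hq).congr_deriv ?_).hasDerivWithinAt
    simp [g₁]
  have h2 : ∀ s ∈ Icc (0 : ℝ) 1,
      HasDerivWithinAt g₁ (S.D2 (p + s • d) d d - S.D2 p d d) (Icc 0 1) s := fun s hs => by
    have hP : HasDerivAt (fun s : ℝ => S.P (p + s • d)) (S.D2 (p + s • d) d) s :=
      (S.hasD2 (hsub (hmem s hs).1)).comp_hasDerivAt s (hline s)
    have hP' := hP.clm_apply (hasDerivAt_const s d)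
    refine (((hP'.sub_const (S.P p d)).sub ((hasDerivAt_id s).smul_const (S.D2 p d d))).congr_deriv
      ?_).hasDerivWithinAt
    simp
  have hb2 : ∀ s ∈ Icc (0 : ℝ) 1, ‖S.D2 (p + s • d) d d - S.D2 p d d‖ ≤ η * ‖d‖ ^ 2 :=
    fun s hs => by
    have hl := hu _ (hmem s hs).1 p (self_subset_cthickening _ hp) (hmem s hs).2
    rw [dist_eq_norm] at hl
    refine ((S.D2 (p + s • d) - S.D2 p).le_opNorm₂ d d).trans ?_
    rw [sq, mul_assoc]
    exact mul_le_mul_of_nonneg_right hl.le (by positivity)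
  have hg₁ : ∀ s ∈ Icc (0 : ℝ) 1, ‖g₁ s‖ ≤ η * ‖d‖ ^ 2 := fun s hs => by
    have h := norm_image_sub_le_of_norm_deriv_le_segment' h2
      (fun u hu => hb2 u (Ico_subset_Icc_self hu)) s hs
    simp only [g₁, zero_smul, add_zero, sub_self, sub_zero] at h
    exact h.trans (mul_le_of_le_one_right (by positivity) hs.2)
  have h := norm_image_sub_le_of_norm_deriv_le_segment_01' h1
    (fun u hu => hg₁ u (Ico_subset_Icc_self hu))
  refine le_trans (le_of_eq ?_) h
  congr 1
  simp only [g, one_smul, zero_smul, add_zero, sub_zero, ne_eq, OfNat.ofNat_ne_zero,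
    not_false_eq_true, zero_pow, zero_div, one_pow, hdd, add_sub_cancel, S.fix hp, S.fix hb]
  abel

lemma step_normal {n : ℕ} {x : ℕ → E} {i : ℕ} (hn : i + 1 < n)
    (hg : S.grad h n x (i + 1) = 0) :
    S.P (x (i + 1)) (vel n x (i + 1) - vel n x i) = 0 := by
  simp only [Tube.grad, Nat.add_one_ne_zero, hn.ne, hn, ↓reduceIte, Nat.add_sub_cancel] at hg
  have : vel n x (i + 1) - vel n x i =
      (-(n : ℝ)) • (x (i + 1) - x i + (x (i + 1) - x (i + 1 + 1))) := by
    simp only [vel]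
    module
  rw [this, map_smul, hg, smul_zero]

end Local

/-- There is a bound for the second differential on `M`. -/
lemma exists_curv (S : Tube M) : ∃ K > 0, ∀ a ∈ M, ∀ w : E, ‖S.D2 a w w‖ ≤ K * ‖w‖ ^ 2 := by
  obtain ⟨K, hK⟩ := S.compact.exists_bound_of_continuousOn (E := E →L[ℝ] E →L[ℝ] E)
    (f := S.D2) (S.smoothD2.continuousOn.mono S.sub)
  refine ⟨|K| + 1, by positivity, fun a ha w => ?_⟩
  refine ((S.D2 a).le_opNorm₂ w w).trans ?_
  rw [sq, mul_assoc]
  exact mul_le_mul_of_nonneg_right ((hK a ha).trans (by linarith [le_abs_self K])) (by positivity)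

/-- A bound for the second differential. -/
noncomputable def curv (S : Tube M) : ℝ := (exists_curv S).choose

lemma curv_pos (S : Tube M) : 0 < curv S := (exists_curv S).choose_spec.1

lemma norm_D2_le (S : Tube M) {a : E} (ha : a ∈ M) (w : E) :
    ‖S.D2 a w w‖ ≤ curv S * ‖w‖ ^ 2 := (exists_curv S).choose_spec.2 a ha w

/-- A sequence of critical polygons of bounded energy with more and more edges. -/
structure Seq (S : Tube M) (G : Set E) (h : E ≃ₗᵢ[ℝ] E) (C : ℝ) where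
  /-- the numbers of edges -/
  n : ℕ → ℕ
  /-- the polygons -/
  x : ℕ → ℕ → E
  two_le : ∀ k, 2 ≤ n k
  tendsto_n : Tendsto (fun k => (n k : ℝ)) atTop atTop
  poly : ∀ k, IsPoly M G (n k) (x k)
  high : ∀ k, energy (n k) (x k) ≤ C
  crit : ∀ k, ∀ i ≤ n k, S.grad h (n k) (x k) i = 0

namespace Seq

variable {S : Tube M} {C : ℝ} (c : Seq S G h C)

/-- The rescaled edges of the sequence. -/
noncomputable def v (k i : ℕ) : E := vel (c.n k) (c.x k) i

/-- The states of the sequence. -/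
noncomputable def z (k i : ℕ) : E × E := (c.x k i, c.v k i)

/-- A bound for the velocities. -/
noncomputable def speed (_c : Seq S G h C) : ℝ := Real.sqrt C + 4 * curv S * C + 1

/-- A compact set of states. -/
def box : Set (E × E) := M ×ˢ closedBall (0 : E) c.speed

lemma npos (k : ℕ) : (0 : ℝ) < c.n k := Nat.cast_pos.2 (by linarith [c.two_le k])

lemma mem {k i : ℕ} (hi : i ≤ c.n k) : c.x k i ∈ M := (c.poly k).1 i hi

lemma d_eq (k i : ℕ) : c.x k (i + 1) - c.x k i = (1 / (c.n k : ℝ)) • c.v k i := by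
  simp only [v, vel, smul_smul, one_div_mul_cancel (c.npos k).ne', one_smul]

lemma sum_sq (k : ℕ) :
    ∑ i ∈ Finset.range (c.n k), ‖c.v k i‖ ^ 2 = c.n k * energy (c.n k) (c.x k) := by
  simp only [energy, v, vel, norm_smul, mul_pow, Real.norm_eq_abs, sq_abs, ← mul_assoc,
    Finset.mul_sum, ← sq]

include c in
lemma nonneg : 0 ≤ C := by
  refine le_trans ?_ (c.high 0)
  exact mul_nonneg (Nat.cast_nonneg _) (Finset.sum_nonneg fun _ _ => sq_nonneg _)

lemma speed_pos : 0 < c.speed := by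
  have := c.nonneg
  have := curv_pos S
  simp only [speed]
  positivity

lemma small : ∀ ρ > 0, ∀ᶠ k in atTop, ∀ i < c.n k, ‖c.x k (i + 1) - c.x k i‖ < ρ := fun ρ hρ => by
  filter_upwards [c.tendsto_n.eventually_gt_atTop (C / ρ ^ 2)] with k hk i hi
  have h1 : ‖c.v k i‖ ^ 2 ≤ c.n k * C :=
    (Finset.single_le_sum (f := fun i => ‖c.v k i‖ ^ 2) (fun _ _ => sq_nonneg _)
      (Finset.mem_range.2 hi)).trans ((c.sum_sq k).trans_le
        (mul_le_mul_of_nonneg_left (c.high k) (c.npos k).le))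
  refine lt_of_pow_lt_pow_left₀ 2 hρ.le ?_
  rw [c.d_eq, norm_smul, mul_pow, Real.norm_eq_abs, abs_of_pos (one_div_pos.2 (c.npos k))]
  refine (mul_le_mul_of_nonneg_left h1 (sq_nonneg _)).trans_lt ?_
  rw [div_lt_iff₀ (by positivity)] at hk
  have := c.npos k
  field_simp
  linarith

/-- The second order expansion along the polygons. -/
lemma second : ∀ η > 0, ∀ᶠ k in atTop, ∀ i, i + 1 < c.n k →
    ‖c.v k (i + 1) - c.v k i - (1 / (2 * (c.n k : ℝ))) •
        (S.D2 (c.x k (i + 1)) (c.v k (i + 1)) (c.v k (i + 1)) +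
          S.D2 (c.x k (i + 1)) (c.v k i) (c.v k i))‖ ≤
      η * (‖c.v k (i + 1)‖ ^ 2 + ‖c.v k i‖ ^ 2) / c.n k := by
  intro η hη
  obtain ⟨ρ, hρ, hch⟩ := chord_normal S hη
  filter_upwards [c.small ρ hρ] with k hk i hi
  have hP : S.P (c.x k (i + 1)) (c.v k (i + 1) - c.v k i) = 0 :=
    step_normal S hi (c.crit k _ hi.le)
  have hb := hch _ (c.mem hi.le) _ (c.mem (i := i + 1 + 1) hi) (hk _ hi)
  have hc := hch _ (c.mem hi.le) _ (c.mem (k := k) (i := i) (by omega))
    (by rw [norm_sub_rev]; exact hk _ (by omega))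
  have eb : c.x k (i + 1 + 1) - c.x k (i + 1) = (1 / (c.n k : ℝ)) • c.v k (i + 1) :=
    c.d_eq k (i + 1)
  have ec : c.x k i - c.x k (i + 1) = (-(1 / (c.n k : ℝ))) • c.v k i := by
    rw [neg_smul, ← c.d_eq k i, neg_sub]
  rw [eb] at hb
  rw [ec] at hc
  have hm : 0 < (c.n k : ℝ) := c.npos k
  generalize c.x k (i + 1) = a at *
  generalize c.v k (i + 1) = p at *
  generalize c.v k i = q at *
  set m : ℝ := (c.n k : ℝ)
  clear_value m
  set β : ℝ := 1 / m with hβ
  have hmβ : m * β = 1 := mul_one_div_cancel hm.ne'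
  simp only [map_smul, smul_apply, norm_smul, mul_pow, Real.norm_eq_abs, abs_neg, sq_abs] at hb hc
  have hPq : S.P a p = S.P a q := sub_eq_zero.1 (by rw [← map_sub]; exact hP)
  have key : p - q - (1 / (2 * m)) • (S.D2 a p p + S.D2 a q q) =
      m • ((β • p - β • S.P a p - (1 / 2 : ℝ) • β • β • S.D2 a p p) +
        ((-β) • q - (-β) • S.P a q - (1 / 2 : ℝ) • (-β) • (-β) • S.D2 a q q)) := by
    rw [hPq, show 1 / (2 * m) = m * (1 / 2 * β * β) by rw [hβ]; field_simp]
    calc _ = (m * β) • (p - q) - (m * (1 / 2 * β * β)) • (S.D2 a p p + S.D2 a q q) := by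
          rw [hmβ, one_smul]
      _ = _ := by module
  rw [key, norm_smul, Real.norm_eq_abs, abs_of_pos hm]
  refine (mul_le_mul_of_nonneg_left ((norm_add_le _ _).trans (add_le_add hb hc)) hm.le).trans_eq ?_
  rw [hβ]
  field_simp

lemma variation : ∀ᶠ k in atTop, ∀ i, i + 1 < c.n k →
    ‖c.v k (i + 1) - c.v k i‖ ≤
      2 * curv S * (‖c.v k (i + 1)‖ ^ 2 + ‖c.v k i‖ ^ 2) / c.n k := by
  filter_upwards [c.second (curv S) (curv_pos S)] with k hk i hi
  have hm := c.npos k
  have := curv_pos S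
  refine (norm_le_norm_sub_add _ _).trans ((add_le_add (hk i hi) ?_).trans_eq
    (show curv S * (‖c.v k (i + 1)‖ ^ 2 + ‖c.v k i‖ ^ 2) / c.n k +
      curv S * (‖c.v k (i + 1)‖ ^ 2 + ‖c.v k i‖ ^ 2) / c.n k = _ by ring))
  rw [norm_smul, Real.norm_eq_abs, abs_of_pos (by positivity : (0:ℝ) < 1 / (2 * (c.n k : ℝ)))]
  refine (mul_le_mul_of_nonneg_left ((norm_add_le _ _).trans (add_le_add
    (norm_D2_le S (c.mem hi.le) _) (norm_D2_le S (c.mem hi.le) _))) (by positivity)).trans ?_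
  rw [← mul_add, one_div_mul_eq_div]
  exact div_le_div_of_nonneg_left (by positivity) hm (by linarith)

lemma vel_le : ∀ᶠ k in atTop, ∀ i < c.n k, ‖c.v k i‖ ≤ c.speed := by
  filter_upwards [c.variation] with k hk i hi
  have hm := c.npos k
  have hK := curv_pos S
  obtain ⟨j, hj, hjC⟩ : ∃ j < c.n k, ‖c.v k j‖ ^ 2 ≤ C := by
    by_contra hall
    push Not at hall
    have := Finset.sum_lt_sum_of_nonempty (s := Finset.range (c.n k))
      (Finset.nonempty_range_iff.2 (by omega)) (fun j hj => hall j (Finset.mem_range.1 hj))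
    rw [c.sum_sq, Finset.sum_const, Finset.card_range, nsmul_eq_mul] at this
    nlinarith [c.high k]
  have part_le : ∀ a b, b ≤ c.n k →
      ∑ l ∈ Finset.Ico a b, ‖c.v k l‖ ^ 2 ≤ c.n k * C := fun a b hb => by
    refine ((Finset.sum_le_sum_of_subset_of_nonneg (fun l hl => ?_) fun _ _ _ => sq_nonneg _).trans_eq
      (c.sum_sq k)).trans (mul_le_mul_of_nonneg_left (c.high k) hm.le)
    simp only [Finset.mem_Ico] at hl
    simp only [Finset.mem_range]
    omega
  have hsum : ∀ a b, a ≤ b → b < c.n k → ‖c.v k b - c.v k a‖ ≤ 4 * curv S * C := by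
    intro a b hab hb
    rw [← Finset.sum_Ico_sub (c.v k) hab]
    refine (norm_sum_le _ _).trans ((Finset.sum_le_sum fun l hl => hk l
      (by simp only [Finset.mem_Ico] at hl; omega)).trans ?_)
    rw [← Finset.sum_div, ← Finset.mul_sum, Finset.sum_add_distrib, div_le_iff₀ hm,
      Finset.sum_Ico_add' (fun l => ‖c.v k l‖ ^ 2) a b 1]
    have s1 := part_le (a + 1) (b + 1) (by omega)
    have s2 := part_le a b hb.le
    nlinarith [mul_le_mul_of_nonneg_left (add_le_add s1 s2) (by positivity : (0:ℝ) ≤ 2 * curv S)]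
  have hj' : ‖c.v k j‖ ≤ Real.sqrt C := Real.le_sqrt_of_sq_le hjC
  have : ‖c.v k i - c.v k j‖ ≤ 4 * curv S * C := by
    rcases le_total j i with hji | hji
    · exact hsum j i hji hi
    · rw [norm_sub_rev]; exact hsum i j hji hj
  have := norm_le_norm_sub_add (c.v k i) (c.v k j)
  simp only [speed]
  linarith

lemma z_mem : ∀ᶠ k in atTop, ∀ i < c.n k, c.z k i ∈ c.box :=
  c.vel_le.mono fun _ hk i hi => ⟨c.mem hi.le, mem_closedBall_zero_iff.2 (hk i hi)⟩

lemma box_compact : IsCompact c.box := S.compact.prod (isCompact_closedBall _ _)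

lemma field_cont : ContinuousOn S.field c.box :=
  S.field_smooth.continuousOn.mono fun _ hw => ⟨S.sub hw.1, trivial⟩

lemma field_ucont : UniformContinuousOn S.field c.box :=
  c.box_compact.uniformContinuousOn_of_continuous c.field_cont

lemma near : ∀ ρ > 0, ∀ᶠ k in atTop, ∀ i, i + 1 < c.n k →
    dist (c.z k i) (c.z k (i + 1)) < ρ ∧ dist (c.z k i) (c.x k (i + 1), c.v k i) < ρ := by
  intro ρ hρ
  filter_upwards [c.vel_le, c.variation, c.tendsto_n.eventually_gt_atTop
    ((c.speed + 4 * curv S * c.speed ^ 2 + 1) / ρ)] with k h1 h2 h3 i hi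
  have hm := c.npos k
  have hK := curv_pos S
  have hB := c.speed_pos
  rw [div_lt_iff₀ hρ] at h3
  have ex : ‖c.x k (i + 1) - c.x k i‖ < ρ := by
    rw [c.d_eq, norm_smul, Real.norm_eq_abs, abs_of_pos (one_div_pos.2 hm), one_div_mul_eq_div,
      div_lt_iff₀ hm]
    nlinarith [h1 i (by omega), mul_nonneg hK.le (sq_nonneg c.speed)]
  have ev : ‖c.v k (i + 1) - c.v k i‖ < ρ := by
    refine (h2 i hi).trans_lt ?_
    rw [div_lt_iff₀ hm]
    have a1 := pow_le_pow_left₀ (norm_nonneg _) (h1 (i + 1) hi) 2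
    have a2 := pow_le_pow_left₀ (norm_nonneg _) (h1 i (by omega)) 2
    nlinarith
  rw [norm_sub_rev] at ex ev
  simp only [z, dist_eq_norm, Prod.norm_def, Prod.fst_sub, Prod.snd_sub, max_lt_iff, sub_self,
    norm_zero]
  exact ⟨⟨ex, ev⟩, ex, hρ⟩

lemma euler : ∀ η > 0, ∀ᶠ k in atTop, ∀ i, i + 1 < c.n k →
    ‖c.z k (i + 1) - c.z k i - (1 / (c.n k : ℝ)) • S.field (c.z k i)‖ ≤ η / c.n k := by
  intro η hη
  obtain ⟨ρ, hρ, hu⟩ := Metric.uniformContinuousOn_iff.1 c.field_ucont (η / 2) (half_pos hη)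
  have hB := c.speed_pos
  filter_upwards [c.near ρ hρ, c.z_mem, c.second (η / (4 * (c.speed ^ 2 + 1))) (by positivity),
    c.vel_le] with k h1 h2 h3 h4 i hi
  have hm := c.npos k
  have hmm : ((c.x k (i + 1), c.v k i) : E × E) ∈ c.box :=
    ⟨c.mem hi.le, mem_closedBall_zero_iff.2 (h4 i (by omega))⟩
  have e1 := hu _ (h2 i (by omega)) _ (h2 (i + 1) hi) (h1 i hi).1
  have e2 := hu _ (h2 i (by omega)) _ hmm (h1 i hi).2
  rw [dist_eq_norm] at e1 e2
  replace e1 := (norm_snd_le _).trans_lt e1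
  replace e2 := (norm_snd_le _).trans_lt e2
  simp only [Tube.field, z, Prod.snd_sub] at e1 e2
  have hfst : c.x k (i + 1) - c.x k i - (1 / (c.n k : ℝ)) • c.v k i = 0 := by
    rw [c.d_eq, sub_self]
  rw [show c.z k (i + 1) - c.z k i - (1 / (c.n k : ℝ)) • S.field (c.z k i) =
    (c.x k (i + 1) - c.x k i - (1 / (c.n k : ℝ)) • c.v k i,
      c.v k (i + 1) - c.v k i - (1 / (c.n k : ℝ)) • S.D2 (c.x k i) (c.v k i) (c.v k i)) from rfl,
    hfst, Prod.norm_def, norm_zero, max_eq_right (norm_nonneg _)]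
  have h3' : ‖c.v k (i + 1) - c.v k i - (1 / (2 * (c.n k : ℝ))) •
      (S.D2 (c.x k (i + 1)) (c.v k (i + 1)) (c.v k (i + 1)) +
        S.D2 (c.x k (i + 1)) (c.v k i) (c.v k i))‖ ≤ η / 2 / c.n k :=
    (h3 i hi).trans (div_le_div_of_nonneg_right (by
    have a1 := pow_le_pow_left₀ (norm_nonneg _) (h4 (i + 1) hi) 2
    have a2 := pow_le_pow_left₀ (norm_nonneg _) (h4 i (by omega)) 2
    rw [div_mul_eq_mul_div, div_le_iff₀ (by positivity)]
    nlinarith) hm.le)
  generalize S.D2 (c.x k i) (c.v k i) (c.v k i) = F₀ at *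
  generalize S.D2 (c.x k (i + 1)) (c.v k (i + 1)) (c.v k (i + 1)) = F₁ at *
  generalize S.D2 (c.x k (i + 1)) (c.v k i) (c.v k i) = F₂ at *
  generalize c.v k (i + 1) - c.v k i = Q at *
  have e : Q - (1 / (c.n k : ℝ)) • F₀ = (Q - (1 / (2 * (c.n k : ℝ))) • (F₁ + F₂)) -
      (1 / (2 * (c.n k : ℝ))) • ((F₀ - F₁) + (F₀ - F₂)) := by
    rw [show (1 / (c.n k : ℝ)) = 1 / (2 * (c.n k : ℝ)) + 1 / (2 * (c.n k : ℝ)) by field_simp; ring]
    module
  rw [e]
  refine (norm_sub_le _ _).trans ((add_le_add h3' ?_).trans_eq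
    (show η / 2 / c.n k + η / 2 / c.n k = η / c.n k by ring))
  rw [norm_smul, Real.norm_eq_abs, abs_of_pos (by positivity : (0:ℝ) < 1 / (2 * (c.n k : ℝ))),
    one_div_mul_eq_div, div_le_div_iff₀ (by positivity) hm]
  nlinarith [norm_add_le (F₀ - F₁) (F₀ - F₂)]

lemma exists_move : ∃ Λ > 0, ∀ᶠ k in atTop, ∀ i j, i ≤ j → j < c.n k →
    ‖c.z k j - c.z k i‖ ≤ Λ * ((j - i : ℕ) / (c.n k : ℝ)) := by
  obtain ⟨Kf, hKf⟩ := c.box_compact.exists_bound_of_continuousOn c.field_cont
  refine ⟨|Kf| + 1, by positivity, ?_⟩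
  filter_upwards [c.euler 1 one_pos, c.z_mem] with k h1 h2 i j hij hj
  have h := norm_sum_steps (c.z k) 0 hij (e := (|Kf| + 1) / c.n k) fun l hl hl' => by
    have hm := c.npos k
    rw [sub_zero]
    refine (norm_le_norm_sub_add _ ((1 / (c.n k : ℝ)) • S.field (c.z k l))).trans ?_
    rw [norm_smul, Real.norm_eq_abs, abs_of_pos (one_div_pos.2 hm)]
    refine (add_le_add (h1 l (by omega)) (mul_le_mul_of_nonneg_left
      ((hKf _ (h2 l (by omega))).trans (le_abs_self Kf)) (one_div_pos.2 hm).le)).trans_eq ?_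
    ring
  simp only [smul_zero, sub_zero] at h
  exact h.trans_eq (by ring)

/-- The vertex at time `t`. -/
noncomputable def idx (t : ℝ) (k : ℕ) : ℕ := ⌊t * ((c.n k - 1 : ℕ) : ℝ)⌋₊

/-- A fixed nonprincipal ultrafilter, as a filter. -/
noncomputable abbrev free : Filter ℕ := (Filter.hyperfilter ℕ : Ultrafilter ℕ)

lemma idx_lt {t : ℝ} (ht : t ∈ Icc (0 : ℝ) 1) (k : ℕ) : c.idx t k < c.n k := by
  have := Nat.floor_le_of_le (mul_le_of_le_one_left (Nat.cast_nonneg (c.n k - 1)) ht.2)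
  have := c.two_le k
  simp only [idx]
  omega

lemma idx_mono {s t : ℝ} (hst : s ≤ t) (k : ℕ) : c.idx s k ≤ c.idx t k :=
  Nat.floor_mono (mul_le_mul_of_nonneg_right hst (Nat.cast_nonneg _))

lemma exists_curve : ∃ y : ℝ → E × E, ∀ t ∈ Icc (0 : ℝ) 1,
    y t ∈ c.box ∧ Tendsto (fun k => c.z k (c.idx t k)) free (𝓝 (y t)) := by
  have hlim : ∀ t ∈ Icc (0 : ℝ) 1, ∃ w, w ∈ c.box ∧
      Tendsto (fun k => c.z k (c.idx t k)) free (𝓝 w) := fun t ht => by
    refine c.box_compact.ultrafilter_le_nhds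
      ((Filter.hyperfilter ℕ).map fun k => c.z k (c.idx t k)) ?_
    rw [Ultrafilter.coe_map, le_principal_iff, Filter.mem_map]
    exact Nat.hyperfilter_le_atTop (c.z_mem.mono fun k hk => hk _ (c.idx_lt ht k))
  choose! y hy using hlim
  exact ⟨y, hy⟩

lemma tendsto_quot {s t : ℝ} (hs : s ∈ Icc (0 : ℝ) 1) (ht : t ∈ Icc (0 : ℝ) 1) (hst : s ≤ t) :
    Tendsto (fun k => ((c.idx t k - c.idx s k : ℕ) : ℝ) / c.n k) atTop (𝓝 (t - s)) := by
  have key : ∀ r ∈ Icc (0 : ℝ) 1,
      Tendsto (fun k => (c.idx r k : ℝ) / c.n k) atTop (𝓝 r) := fun r hr => by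
    refine tendsto_iff_norm_sub_tendsto_zero.2 (squeeze_zero (fun k => norm_nonneg _) (fun k => ?_)
      (tendsto_const_nhds.div_atTop c.tendsto_n : Tendsto (fun k => (2 : ℝ) / c.n k) atTop (𝓝 0)))
    have hm := c.npos k
    have h1 := Nat.floor_le (mul_nonneg hr.1 (Nat.cast_nonneg (α := ℝ) (c.n k - 1)))
    have h2 := Nat.lt_floor_add_one (r * ((c.n k - 1 : ℕ) : ℝ))
    have h3 : ((c.n k - 1 : ℕ) : ℝ) = c.n k - 1 := by
      rw [Nat.cast_sub (le_trans (by norm_num) (c.two_le k))]; norm_num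
    rw [Real.norm_eq_abs, div_sub' hm.ne', abs_div, abs_of_pos hm]
    refine div_le_div_of_nonneg_right (abs_le.2 ?_) hm.le
    simp only [idx]
    rw [h3] at h1 h2 ⊢
    constructor <;> nlinarith [hr.1, hr.2]
  refine ((key t ht).sub (key s hs)).congr fun k => ?_
  rw [Nat.cast_sub (c.idx_mono hst k), sub_div]

variable {y : ℝ → E × E}
  (hy : ∀ t ∈ Icc (0 : ℝ) 1, y t ∈ c.box ∧ Tendsto (fun k => c.z k (c.idx t k)) free (𝓝 (y t)))

include hy

lemma exists_lip : ∃ Λ > 0, (∀ᶠ k in atTop, ∀ i j, i ≤ j → j < c.n k →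
    ‖c.z k j - c.z k i‖ ≤ Λ * ((j - i : ℕ) / (c.n k : ℝ))) ∧
    ∀ s t : ℝ, s ∈ Icc (0 : ℝ) 1 → t ∈ Icc (0 : ℝ) 1 → s ≤ t → ‖y t - y s‖ ≤ Λ * (t - s) := by
  obtain ⟨Λ, hΛ, hmove⟩ := c.exists_move
  refine ⟨Λ, hΛ, hmove, fun s t hs ht hst => ?_⟩
  refine le_of_tendsto_of_tendsto (((hy t ht).2.sub (hy s hs).2).norm)
    (((c.tendsto_quot hs ht hst).mono_left Nat.hyperfilter_le_atTop).const_mul Λ) ?_
  filter_upwards [Nat.hyperfilter_le_atTop hmove] with k hk using
    hk _ _ (c.idx_mono hst k) (c.idx_lt ht k)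

lemma increments : ∀ η > 0, ∃ τ > 0, ∀ s t : ℝ, s ∈ Icc (0 : ℝ) 1 → t ∈ Icc (0 : ℝ) 1 → s ≤ t →
    t - s < τ → ‖y t - y s - (t - s) • S.field (y s)‖ ≤ η * (t - s) ∧
      ‖S.field (y t) - S.field (y s)‖ ≤ η := by
  intro η hη
  obtain ⟨Λ, hΛ0, hmove, hlip⟩ := c.exists_lip hy
  obtain ⟨ρ, hρ, hu⟩ := Metric.uniformContinuousOn_iff.1 c.field_ucont (η / 2) (half_pos hη)
  refine ⟨ρ / (2 * Λ), by positivity, fun s t hs ht hst hτ => ?_⟩
  rw [lt_div_iff₀ (by positivity)] at hτ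
  refine ⟨?_, ?_⟩
  · have hq := (c.tendsto_quot hs ht hst).mono_left Nat.hyperfilter_le_atTop
    have hfl : Tendsto (fun k => S.field (c.z k (c.idx s k))) free (𝓝 (S.field (y s))) :=
      (c.field_cont _ (hy s hs).1).tendsto.comp (tendsto_nhdsWithin_iff.2
        ⟨(hy s hs).2, Nat.hyperfilter_le_atTop (c.z_mem.mono fun k hk => hk _ (c.idx_lt hs k))⟩)
    refine le_of_tendsto_of_tendsto ((((hy t ht).2.sub (hy s hs).2).sub
      (hq.smul hfl)).norm) (hq.const_mul η) ?_
    have hsm : ∀ᶠ k in free, ((c.idx t k - c.idx s k : ℕ) : ℝ) / c.n k < ρ / Λ :=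
      hq.eventually_lt_const (by rw [lt_div_iff₀ hΛ0]; nlinarith)
    filter_upwards [Nat.hyperfilter_le_atTop hmove,
      Nat.hyperfilter_le_atTop (c.euler (η / 2) (half_pos hη)),
      Nat.hyperfilter_le_atTop c.z_mem, hsm] with k h1 h2 h3 h4
    have hm := c.npos k
    have hij := c.idx_mono hst k
    have hj := c.idx_lt ht k
    generalize c.idx s k = a at *
    generalize c.idx t k = b at *
    have h := norm_sum_steps (c.z k) ((1 / (c.n k : ℝ)) • S.field (c.z k a)) hij (e := η / c.n k)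
      fun l hl hl' => by
        have hclose : dist (c.z k l) (c.z k a) < ρ := by
          rw [dist_eq_norm]
          refine (h1 _ _ hl (by omega)).trans_lt ?_
          refine lt_of_le_of_lt ?_ ((lt_div_iff₀' hΛ0).1 h4)
          refine mul_le_mul_of_nonneg_left (div_le_div_of_nonneg_right ?_ hm.le) hΛ0.le
          exact_mod_cast (show l - a ≤ b - a by omega)
        have e := hu _ (h3 l (by omega)) _ (h3 _ (by omega)) hclose
        rw [dist_eq_norm] at e
        have e' : ‖(1 / (c.n k : ℝ)) • S.field (c.z k l) -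
            (1 / (c.n k : ℝ)) • S.field (c.z k a)‖ ≤ η / 2 / c.n k := by
          rw [← smul_sub, norm_smul, Real.norm_eq_abs, abs_of_pos (one_div_pos.2 hm),
            one_div_mul_eq_div]
          exact div_le_div_of_nonneg_right e.le hm.le
        exact (norm_sub_le_norm_sub_add_norm_sub _ _ _).trans
          ((add_le_add (h2 l (by omega)) e').trans_eq (by ring))
    rw [← Nat.cast_smul_eq_nsmul ℝ, smul_smul, mul_one_div] at h
    exact h.trans_eq (by ring)
  · have h := hu _ (hy t ht).1 _ (hy s hs).1 (by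
      rw [dist_eq_norm]
      nlinarith [hlip s t hs ht hst])
    rw [dist_eq_norm] at h
    linarith

lemma ode {t : ℝ} (ht : t ∈ Icc (0 : ℝ) 1) :
    HasDerivWithinAt y (S.field (y t)) (Icc 0 1) t := by
  rw [hasDerivWithinAt_iff_isLittleO, Asymptotics.isLittleO_iff]
  intro e he
  obtain ⟨τ, hτ, hd'⟩ := c.increments hy (e / 2) (half_pos he)
  filter_upwards [inter_mem_nhdsWithin _ (ball_mem_nhds t hτ)] with s hs
  obtain ⟨hsI, hsb⟩ := hs
  rw [mem_ball, Real.dist_eq, abs_lt] at hsb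
  rcases le_total t s with hts | hts
  · obtain ⟨h1, -⟩ := hd' t s ht hsI hts (by linarith)
    rw [Real.norm_eq_abs, abs_of_nonneg (sub_nonneg.2 hts)]
    exact h1.trans (by nlinarith)
  · obtain ⟨h1, h2⟩ := hd' s t hsI ht hts (by linarith)
    rw [Real.norm_eq_abs, abs_of_nonpos (sub_nonpos.2 hts), neg_sub]
    rw [show y s - y t - (s - t) • S.field (y t) =
        -(y t - y s - (t - s) • S.field (y s)) + (t - s) • (S.field (y t) - S.field (y s)) by module]
    refine (norm_add_le _ _).trans ?_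
    rw [norm_neg, norm_smul, Real.norm_eq_abs, abs_of_nonneg (sub_nonneg.2 hts)]
    nlinarith [mul_le_mul_of_nonneg_left h2 (sub_nonneg.2 hts)]

omit hy in
lemma tendsto_P {a w : E} {a' w' : ℕ → E} (ha : a ∈ M) (ha' : Tendsto a' free (𝓝 a))
    (hw' : Tendsto w' free (𝓝 w)) :
    Tendsto (fun k => S.P (a' k) (w' k)) free (𝓝 (S.P a w)) :=
  (isBoundedBilinearMap_apply.continuous.tendsto (S.P a, w)).comp
    (((S.smoothP.continuousOn.continuousAt (S.isOpen.mem_nhds (S.sub ha))).tendsto.comp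
      ha').prodMk_nhds hw')

lemma tendsto_pos {t : ℝ} (ht : t ∈ Icc (0 : ℝ) 1) :
    Tendsto (fun k => c.x k (c.idx t k)) free (𝓝 (y t).1) ∧
      Tendsto (fun k => c.v k (c.idx t k)) free (𝓝 (y t).2) :=
  ⟨(continuous_fst.tendsto (y t)).comp (hy t ht).2,
    (continuous_snd.tendsto (y t)).comp (hy t ht).2⟩

lemma tangent {t : ℝ} (ht : t ∈ Icc (0 : ℝ) 1) : S.P (y t).1 (y t).2 = (y t).2 := by
  obtain ⟨hx', hv'⟩ := c.tendsto_pos hy ht
  have hl := hv'.sub (tendsto_P (S := S) (hy t ht).1.1 hx' hv')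
  have h0' : Tendsto (fun k => c.v k (c.idx t k) - S.P (c.x k (c.idx t k)) (c.v k (c.idx t k)))
      free (𝓝 0) := by
    obtain ⟨ρ, hρ, hch⟩ := chord_normal S one_pos
    refine squeeze_zero_norm' (a := fun k => (1 + curv S) * c.speed ^ 2 / c.n k) ?_
      ((tendsto_const_nhds.div_atTop c.tendsto_n).mono_left Nat.hyperfilter_le_atTop)
    filter_upwards [Nat.hyperfilter_le_atTop (c.small ρ hρ), Nat.hyperfilter_le_atTop c.vel_le]
      with k hk hkB
    have hi := c.idx_lt ht k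
    generalize c.idx t k = i at *
    have hm := c.npos k
    have hK := curv_pos S
    have hb := hch _ (c.mem hi.le) _ (c.mem hi) (hk i hi)
    have hF' := norm_D2_le S (c.mem hi.le) (c.x k (i + 1) - c.x k i)
    rw [c.d_eq, map_smul, ← smul_sub] at hb
    rw [c.d_eq] at hF'
    set Z := c.v k i - S.P (c.x k i) (c.v k i)
    have hn' : ‖(1 / (c.n k : ℝ)) • Z‖ ≤
        (1 + curv S) * ‖(1 / (c.n k : ℝ)) • c.v k i‖ ^ 2 := by
      refine (norm_le_norm_sub_add _ _).trans ((add_le_add hb ?_).trans_eq (add_mul 1 _ _).symm)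
      rw [norm_smul (1 / 2 : ℝ), Real.norm_eq_abs, abs_of_pos (by norm_num : (0:ℝ) < 1 / 2)]
      exact (mul_le_of_le_one_left (norm_nonneg _) (by norm_num)).trans hF'
    rw [norm_smul, norm_smul, Real.norm_eq_abs, abs_of_pos (one_div_pos.2 hm), mul_pow] at hn'
    have hB2 := pow_le_pow_left₀ (norm_nonneg _) (hkB i hi) 2
    have e := mul_le_mul_of_nonneg_left hn' (sq_nonneg (c.n k : ℝ))
    field_simp at e
    rw [le_div_iff₀ hm]
    nlinarith
  exact (sub_eq_zero.1 (tendsto_nhds_unique hl h0')).symm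

omit hy in
lemma symm_of_tendsto {a w : E} {a' w' : ℕ → E} {s : ℕ → ℝ} (ha : a ∈ M)
    (ha' : Tendsto a' free (𝓝 a)) (hw' : Tendsto w' free (𝓝 w)) (hPw : S.P a w = w)
    (hk : ∀ k, S.P (a' k) (s k • w' k) + h (S.P (a' k) (s k • w' k)) = 0)
    (hs : ∀ k, s k ≠ 0) : h w = -w := by
  have hl := tendsto_P (S := S) ha ha' hw'
  rw [hPw] at hl
  have hl' : Tendsto (fun k => S.P (a' k) (w' k) + h (S.P (a' k) (w' k))) free (𝓝 (w + h w)) :=
    hl.add ((h.continuous.tendsto w).comp hl)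
  have : ∀ k, S.P (a' k) (w' k) + h (S.P (a' k) (w' k)) = 0 := fun k => by
    have e := hk k
    rw [map_smul, map_smul, ← smul_add] at e
    exact (smul_eq_zero.1 e).resolve_left (hs k)
  simp only [this] at hl'
  exact eq_neg_of_add_eq_zero_right (tendsto_nhds_unique tendsto_const_nhds hl').symm

lemma ends (hG : FixedPiece M G h) : (y 0).1 ∈ G ∧ (y 1).1 ∈ G ∧
    h (y 0).2 = -(y 0).2 ∧ h (y 1).2 = -(y 1).2 := by
  have h0 : (0 : ℝ) ∈ Icc (0 : ℝ) 1 := left_mem_Icc.2 zero_le_one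
  have h1 : (1 : ℝ) ∈ Icc (0 : ℝ) 1 := right_mem_Icc.2 zero_le_one
  have hi0 : ∀ k, c.idx 0 k = 0 := fun k => by simp [idx]
  have hi1 : ∀ k, c.idx 1 k = c.n k - 1 := fun k => by simp [idx]
  have hsucc : ∀ k, c.n k - 1 + 1 = c.n k := fun k =>
    Nat.sub_add_cancel (le_trans (by norm_num) (c.two_le k))
  obtain ⟨hpos0, hvel0⟩ := c.tendsto_pos hy h0
  obtain ⟨hposm, hvelm⟩ := c.tendsto_pos hy h1
  simp only [hi0] at hpos0 hvel0
  simp only [hi1] at hposm hvelm
  have hpos1 : Tendsto (fun k => c.x k (c.n k)) free (𝓝 (y 1).1) := by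
    have h' : Tendsto (fun k => c.x k (c.n k - 1) + (1 / (c.n k : ℝ)) • c.v k (c.n k - 1)) free
        (𝓝 ((y 1).1 + (0 : ℝ) • (y 1).2)) :=
      hposm.add (((tendsto_const_nhds.div_atTop c.tendsto_n).mono_left
        Nat.hyperfilter_le_atTop).smul hvelm)
    rw [zero_smul, add_zero] at h'
    refine h'.congr fun k => ?_
    rw [← c.d_eq, hsucc, add_sub_cancel]
  have hG0 : (y 0).1 ∈ G :=
    hG.closed.mem_of_tendsto hpos0 (Eventually.of_forall fun k => (c.poly k).2.1)
  have hG1 : (y 1).1 ∈ G :=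
    hG.closed.mem_of_tendsto hpos1 (Eventually.of_forall fun k => (c.poly k).2.2)
  refine ⟨hG0, hG1,
    symm_of_tendsto (S := S) (s := fun k => -(1 / (c.n k : ℝ))) (hG.sub hG0) hpos0 hvel0 (c.tangent hy h0)
      (fun k => ?_) (fun k => neg_ne_zero.2 (one_div_pos.2 (c.npos k)).ne'),
    symm_of_tendsto (S := S) (s := fun k => 1 / (c.n k : ℝ)) (hG.sub hG1) hpos1 hvelm (c.tangent hy h1)
      (fun k => ?_) (fun k => (one_div_pos.2 (c.npos k)).ne')⟩
  · have hg := c.crit k 0 (Nat.zero_le _)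
    simp only [Tube.grad, ↓reduceIte] at hg
    rw [neg_smul, ← c.d_eq k 0, neg_sub]
    exact (smul_eq_zero.1 hg).resolve_left (by norm_num)
  · have hg := c.crit k (c.n k) le_rfl
    have hne : c.n k ≠ 0 := by linarith [c.two_le k]
    simp only [Tube.grad, hne, ↓reduceIte] at hg
    rw [← c.d_eq k (c.n k - 1), hsucc]
    exact (smul_eq_zero.1 hg).resolve_left (by norm_num)

omit hy in
/-- The speed grows at most exponentially along the polygons. -/
lemma growth : ∀ᶠ k in atTop, ∀ i < c.n k,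
    ‖c.v k i‖ ≤ Real.exp (8 * curv S * c.speed) * ‖c.v k 0‖ := by
  set q := 8 * curv S * c.speed with hq
  have hK := curv_pos S
  have hB := c.speed_pos
  have hq0 : 0 < q := by positivity
  filter_upwards [c.vel_le, c.variation, c.tendsto_n.eventually_gt_atTop q] with k h1 h2 h3
  have hm := c.npos k
  have hgrow : ∀ i < c.n k, ‖c.v k i‖ ≤ (1 + q / c.n k) ^ i * ‖c.v k 0‖ := by
    intro i
    induction i with
    | zero => intro _; simp
    | succ i ih =>
      intro hi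
      refine le_trans ?_ ((mul_le_mul_of_nonneg_left (ih (by omega))
        (by positivity : (0:ℝ) ≤ 1 + q / c.n k)).trans_eq (by ring))
      have hQ := h2 i hi
      rw [le_div_iff₀ hm] at hQ
      have a1 := norm_le_norm_sub_add (c.v k (i + 1)) (c.v k i)
      have p1 := h1 (i + 1) hi
      have p0 := h1 i (by omega)
      rw [one_add_div hm.ne', div_mul_eq_mul_div, le_div_iff₀ hm]
      generalize ‖c.v k (i + 1) - c.v k i‖ = d at *
      have hN0 := norm_nonneg (c.v k i)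
      have hN1 := norm_nonneg (c.v k (i + 1))
      generalize ‖c.v k (i + 1)‖ = P at *
      generalize ‖c.v k i‖ = R at *
      have hd : d * (c.n k : ℝ) ≤ q / 4 * (P + R) := by
        refine hQ.trans ?_
        rw [hq]
        nlinarith [mul_le_mul_of_nonneg_right p1 hN1, mul_le_mul_of_nonneg_right p0 hN0]
      have hmain : P * (c.n k - q / 4) ≤ R * (c.n k + q / 4) := by
        nlinarith [mul_le_mul_of_nonneg_right a1 hm.le]
      have hpos : 0 < (c.n k : ℝ) - q / 4 := by linarith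
      refine le_of_mul_le_mul_right ?_ hpos
      have hn2q : (0:ℝ) ≤ c.n k / 2 - q / 4 := by linarith
      calc P * c.n k * (c.n k - q / 4) = c.n k * (P * (c.n k - q / 4)) := by ring
        _ ≤ c.n k * (R * (c.n k + q / 4)) := mul_le_mul_of_nonneg_left hmain hm.le
        _ ≤ _ := by nlinarith [mul_nonneg (mul_nonneg hN0 hq0.le) hn2q]
  intro i hi
  refine (hgrow i hi).trans (mul_le_mul_of_nonneg_right ?_ (norm_nonneg _))
  refine (pow_le_pow_right₀ (le_add_of_nonneg_right (by positivity)) hi.le).trans ?_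
  refine (pow_le_pow_left₀ (by positivity)
    (by linarith [Real.add_one_le_exp (q / c.n k)] : 1 + q / c.n k ≤ Real.exp (q / c.n k))
    _).trans (le_of_eq ?_)
  rw [← Real.exp_nat_mul, mul_div_cancel₀ _ hm.ne']

lemma vel_ne_zero {δ : ℝ} (hδ : 0 < δ) (hlow : ∀ k, δ ≤ energy (c.n k) (c.x k)) :
    (y 0).2 ≠ 0 := by
  intro hzero
  set q := 8 * curv S * c.speed
  have hlow0 : ∀ᶠ k in free, Real.sqrt δ ≤ Real.exp q * ‖c.v k 0‖ := by
    filter_upwards [Nat.hyperfilter_le_atTop c.growth] with k hk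
    have hm := c.npos k
    obtain ⟨i, hi, hiδ⟩ : ∃ i < c.n k, δ ≤ ‖c.v k i‖ ^ 2 := by
      by_contra hall
      push Not at hall
      have := Finset.sum_lt_sum_of_nonempty (s := Finset.range (c.n k))
        (Finset.nonempty_range_iff.2 (by linarith [c.two_le k]))
        (fun j hj => hall j (Finset.mem_range.1 hj))
      rw [c.sum_sq, Finset.sum_const, Finset.card_range, nsmul_eq_mul] at this
      nlinarith [hlow k]
    exact ((Real.sqrt_le_left (norm_nonneg _)).2 hiδ).trans (hk i hi)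
  have hv0 := (c.tendsto_pos hy (left_mem_Icc.2 zero_le_one)).2
  simp only [show ∀ k, c.idx 0 k = 0 from fun k => by simp [idx]] at hv0
  have := le_of_tendsto_of_tendsto tendsto_const_nhds (hv0.norm.const_mul (Real.exp q)) hlow0
  rw [hzero, norm_zero, mul_zero] at this
  linarith [Real.sqrt_pos.2 hδ]

end Seq

end Limit

open Limit

/-- Without a segment, fine polygons of bounded positive energy are not critical. -/
theorem no_critical (S : Tube M) (hG : FixedPiece M G h) (hno : ¬ S.HasSegment G h) {δ C : ℝ}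
    (hδ : 0 < δ) :
    ∃ n₀ : ℕ, 2 ≤ n₀ ∧ ∀ n ≥ n₀, ∀ x : ℕ → E, IsPoly M G n x → δ ≤ energy n x → energy n x ≤ C →
      ∃ i ≤ n, S.grad h n x i ≠ 0 := by
  by_contra hcon
  push Not at hcon
  choose n hn x hx hlow hhigh hcrit using fun k : ℕ => hcon (k + 2) (by omega)
  let c : Seq S G h C :=
    { n := n
      x := x
      two_le := fun k => le_trans (by omega) (hn k)
      tendsto_n := tendsto_natCast_atTop_atTop.comp
        (tendsto_atTop_mono (fun k => show k ≤ n k by have := hn k; omega) tendsto_id)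
      poly := hx
      high := hhigh
      crit := hcrit }
  obtain ⟨y, hy⟩ := c.exists_curve
  obtain ⟨hG0, hG1, he0, he1⟩ := c.ends hy hG
  exact hno ⟨y, fun t ht => ⟨(hy t ht).1.1, c.ode hy ht⟩, hG0, hG1, he0, he1,
    c.vel_ne_zero hy hδ hlow⟩

end Vale.Agent.P216
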