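import Vale.Agent.P216.Chord

/-!
Polygonal paths with both ends on a piece of the fixed set of an involution.
-/

namespace Vale.Agent.P216

open Metric Set Filter Topology
open scoped RealInnerProductSpace ContDiff

variable {E : Type*} [NormedAddCommGroup E] [InnerProductSpace ℝ E] [FiniteDimensional ℝ E]

/-- `G` is a nonempty closed piece, open in the fixed set, of the involution `h` of `M`. -/
structure FixedPiece (M G : Set E) (h : E ≃ₗᵢ[ℝ] E) : Prop where
  image : h '' M = M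
  invol : ∀ x ∈ M, h (h x) = x
  closed : IsClosed G
  sub : G ⊆ M
  nonempty : G.Nonempty
  fixed : ∀ a ∈ G, h a = a
  isOpen : ∀ a ∈ G, ∀ᶠ y in 𝓝[M] a, h y = y → y ∈ G

/-- A polygon in `M` with `n` edges and both ends on `G`. -/
def IsPoly (M G : Set E) (n : ℕ) (x : ℕ → E) : Prop := (∀ i ≤ n, x i ∈ M) ∧ x 0 ∈ G ∧ x n ∈ G

/-- The energy of a polygon. -/
noncomputable def energy (n : ℕ) (x : ℕ → E) : ℝ :=
  (n : ℝ) * ∑ i ∈ Finset.range n, ‖x (i + 1) - x i‖ ^ 2

namespace Tube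

variable {M : Set E} (S : Tube M)

/-- Half the gradient of the energy, up to the factor `n`. -/
noncomputable def grad (h : E ≃ₗᵢ[ℝ] E) (n : ℕ) (x : ℕ → E) (i : ℕ) : E :=
  if i = 0 then (1 / 2 : ℝ) • (S.P (x 0) (x 0 - x 1) + h (S.P (x 0) (x 0 - x 1)))
  else if i = n then (1 / 2 : ℝ) • (S.P (x n) (x n - x (n - 1)) + h (S.P (x n) (x n - x (n - 1))))
  else if i < n then S.P (x i) (x i - x (i - 1) + (x i - x (i + 1)))
  else 0

/-- A geodesic segment between points of `G`, reversed at both ends by `h`. -/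
def HasSegment (G : Set E) (h : E ≃ₗᵢ[ℝ] E) : Prop :=
  ∃ y : ℝ → E × E,
    (∀ t ∈ Icc (0 : ℝ) 1, (y t).1 ∈ M ∧ HasDerivWithinAt y (S.field (y t)) (Icc 0 1) t) ∧
      (y 0).1 ∈ G ∧ (y 1).1 ∈ G ∧ h (y 0).2 = -(y 0).2 ∧ h (y 1).2 = -(y 1).2 ∧ (y 0).2 ≠ 0

end Tube

end Vale.Agent.P216
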