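import Vale.Agent.P216.Chord

/-!
Isometric actions forcing infinitely many closed geodesics.
-/

namespace Vale.Agent.P216

open Metric Set Filter Topology NormedSpace
open scoped RealInnerProductSpace ContDiff

variable {E : Type*} [NormedAddCommGroup E] [InnerProductSpace ℝ E] [FiniteDimensional ℝ E]

set_option linter.unusedSectionVars false

variable {M : Set E}

/-- A closed geodesic of a relatively open piece is a closed geodesic. -/
lemma image_piece {G : Set E} (hG : G ⊆ M) (ho : ∀ a ∈ G, ∀ᶠ y in 𝓝[M] a, y ∈ G) {s : Set E}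
    (hs : IsClosedGeodesicImage G s) : IsClosedGeodesicImage M s := by
  obtain ⟨c, T, hT, hc, hm, hper, hne, hn, rfl⟩ := hs
  exact ⟨c, T, hT, hc, fun t => hG (hm t), hper, hne, fun t v hv => hn t v
    (tangentConeAt_mono_nhds (nhdsWithin_le_iff.2 (ho _ (hm t))) hv), rfl⟩

/-- A closed geodesic of the fixed set of an involution is a closed geodesic. -/
lemma image_fixed (S : Tube M) (h : E ≃ₗᵢ[ℝ] E) (hM : h '' M = M) (hi : ∀ y ∈ M, h (h y) = y)
    {s : Set E} (hs : IsClosedGeodesicImage (M ∩ {x | h x = x}) s) :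
    IsClosedGeodesicImage M s := by
  obtain ⟨c, T, hT, hc, hm, hper, hne, hn, rfl⟩ := hs
  refine ⟨c, T, hT, hc, fun t => (hm t).1, hper, hne, fun t v hv => ?_, rfl⟩
  set L : E →L[ℝ] E := (h.toContinuousLinearEquiv : E →L[ℝ] E)
  have hd1 : Differentiable ℝ c := hc.differentiable (by norm_num)
  have hd2 : Differentiable ℝ (deriv c) := by
    have : ContDiff ℝ 1 (deriv c) := by
      rw [show (2 : WithTop ℕ∞) = 1 + 1 from rfl, contDiff_succ_iff_deriv] at hc
      exact hc.2.2
    exact this.differentiable one_ne_zero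
  have e1 : ∀ u, L (deriv c u) = deriv c u := fun u => by
    have h1 : HasDerivAt (fun u => L (c u)) (L (deriv c u)) u :=
      L.hasFDerivAt.comp_hasDerivAt u (hd1 u).hasDerivAt
    rw [show (fun u => L (c u)) = c from funext fun u => (hm u).2] at h1
    exact h1.unique (hd1 u).hasDerivAt
  have e2 : h (deriv (deriv c) t) = deriv (deriv c) t := by
    have h1 : HasDerivAt (fun u => L (deriv c u)) (L (deriv (deriv c) t)) t :=
      L.hasFDerivAt.comp_hasDerivAt t (hd2 t).hasDerivAt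
    rw [show (fun u => L (deriv c u)) = deriv c from funext e1] at h1
    exact h1.unique (hd2 t).hasDerivAt
  set W : Submodule ℝ E :=
    LinearMap.eqLocus (h.toLinearEquiv : E →ₗ[ℝ] E) (LinearMap.id : E →ₗ[ℝ] E)
  have hu : h (v + h v) = v + h v := by
    rw [map_add, S.cone_invol h hi (hm t).1 hv, add_comm]
  have huM := S.cone_sym h hM (hm t).1 (hm t).2 hv
  have hcone : v + h v ∈ tangentConeAt ℝ (M ∩ {x | h x = x}) (c t) := by
    refine ((S.fixed h hM).cone_eq (hm t)).2 ?_
    have hW : W.starProjection (c t) = c t := Submodule.starProjection_eq_self_iff.2 (hm t).2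
    have hr : HasFDerivAt S.r (S.P (c t)) (W.starProjection (c t)) := by
      rw [hW]; exact S.hasP (S.sub (hm t).1)
    have hd : HasFDerivAt (S.fixed h hM).r ((S.P (c t)).comp W.starProjection) (c t) :=
      hr.comp (c t) W.starProjection.hasFDerivAt
    rw [show (S.fixed h hM).P (c t) = (S.P (c t)).comp W.starProjection from hd.fderiv,
      ContinuousLinearMap.comp_apply, Submodule.starProjection_eq_self_iff.2 hu]
    exact (S.cone_eq (hm t).1).1 huM
  have h2 := hn t _ hcone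
  have h3 : ⟪deriv (deriv c) t, h v⟫ = ⟪deriv (deriv c) t, v⟫ := by
    nth_rw 1 [← e2]
    exact h.inner_map_map _ _
  rw [inner_add_right, h3] at h2
  linarith

/-- The component of a fixed point in the fixed set of an involution. -/
def piece (M : Set E) (h : E ≃ₗᵢ[ℝ] E) (x : E) : Set E :=
  connectedComponentIn (M ∩ {y | h y = y}) x

lemma piece_subset (h : E ≃ₗᵢ[ℝ] E) (x : E) : piece M h x ⊆ M :=
  (connectedComponentIn_subset _ _).trans inter_subset_left

lemma piece_fixed {h : E ≃ₗᵢ[ℝ] E} {x y : E} (hy : y ∈ piece M h x) : h y = y :=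
  (connectedComponentIn_subset _ _ hy).2

lemma piece_preconnected (h : E ≃ₗᵢ[ℝ] E) (x : E) : IsPreconnected (piece M h x) :=
  isPreconnected_connectedComponentIn

lemma piece_finite (S : Tube M) (h : E ≃ₗᵢ[ℝ] E) (hM : h '' M = M) (hi : ∀ y ∈ M, h (h y) = y)
    (x : E) (hfin : {s | IsClosedGeodesicImage M s}.Finite) :
    {s | IsClosedGeodesicImage (piece M h x) s}.Finite :=
  hfin.subset fun _ hs => image_fixed S h hM hi
    (image_piece (connectedComponentIn_subset _ _) (fun _ ha => (S.fixed h hM).component_open ha) hs)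

lemma piece_open (S : Tube M) (h : E ≃ₗᵢ[ℝ] E) (hM : h '' M = M) {x a : E}
    (ha : a ∈ piece M h x) : ∀ᶠ y in 𝓝[M] a, h y = y → y ∈ piece M h x := by
  have := (S.fixed h hM).component_open ha
  rw [nhdsWithin_inter', eventually_inf_principal] at this
  exact this

lemma piece_invariant {h : E ≃ₗᵢ[ℝ] E} {X : E →L[ℝ] E}
    (hp : ∀ t : ℝ, ∀ y ∈ M, exp (t • X) y ∈ M)
    (hc : ∀ t : ℝ, ∀ y, h (exp (t • X) y) = exp (t • X) (h y)) {x y : E} (hy : y ∈ piece M h x)
    (t : ℝ) : exp (t • X) y ∈ piece M h x := by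
  have hy' := connectedComponentIn_subset _ _ hy
  rw [piece, connectedComponentIn_eq hy]
  refine (isPreconnected_range ((continuous_flow X).comp
    (continuous_id.prodMk continuous_const))).subset_connectedComponentIn
      ⟨0, by simp [exp_zero]⟩ ?_ ⟨t, rfl⟩
  rintro _ ⟨u, rfl⟩
  exact ⟨hp u y hy'.1, by simp only [mem_ofPred_eq, Function.comp_apply, id, hc, show h y = y from hy'.2]⟩

lemma piece_finrank (h : E ≃ₗᵢ[ℝ] E) (x : E) (hmove : ∃ y ∈ M, h y ≠ y) :
    Module.finrank ℝ (Submodule.span ℝ (piece M h x)) <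
      Module.finrank ℝ (Submodule.span ℝ M) := by
  refine Submodule.finrank_lt_finrank_of_lt
    (lt_of_le_of_ne (Submodule.span_mono (piece_subset h x)) fun he => ?_)
  obtain ⟨y, hy, hne⟩ := hmove
  refine hne ?_
  have hle : Submodule.span ℝ (piece M h x) ≤
      LinearMap.eqLocus (h.toLinearEquiv : E →ₗ[ℝ] E) (LinearMap.id : E →ₗ[ℝ] E) :=
    Submodule.span_le.2 fun z hz => piece_fixed hz
  exact hle (he ▸ Submodule.subset_span hy)

lemma rot_skew {A : E →L[ℝ] E} (hA : IsRotation M A) : Skew A := hA.1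

lemma exp_int {A : E →L[ℝ] E} (hA : exp A = 1) (n : ℤ) : exp ((n : ℝ) • A) = 1 := by
  let := NormedAlgebra.restrictScalars ℚ ℝ (E →L[ℝ] E)
  have hnat : ∀ k : ℕ, exp ((k : ℝ) • A) = 1 := fun k => by
    rw [Nat.cast_smul_eq_nsmul, exp_nsmul, hA, one_pow]
  obtain ⟨k, rfl | rfl⟩ := n.eq_nat_or_neg
  · exact_mod_cast hnat k
  · have h := exp_smul_add A (((-(k : ℤ) : ℤ) : ℝ)) (k : ℝ)
    push_cast at h ⊢
    rw [neg_add_cancel, zero_smul, exp_zero, hnat, mul_one] at h
    exact h.symm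

lemma comb_rotation {A B : E →L[ℝ] E} (hA : IsRotation M A) (hB : IsRotation M B)
    (hc : Commute A B) (m n : ℤ) : IsRotation M ((m : ℝ) • A + (n : ℝ) • B) := by
  let := NormedAlgebra.restrictScalars ℚ ℝ (E →L[ℝ] E)
  refine ⟨Skew.lin hA.1 hB.1 _ _, ?_, fun t x hx => ?_⟩
  · unfold IsPeriodic
    rw [exp_add_of_commute ((hc.smul_left _).smul_right _), exp_int hA.2.1, exp_int hB.2.1, one_mul]
  · unfold flow
    rw [smul_add, smul_smul, smul_smul,
      exp_add_of_commute ((hc.smul_left _).smul_right _), ContinuousLinearMap.mul_apply]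
    exact hA.2.2 _ _ (hB.2.2 _ x hx)

/-- An involution inside a circle acting nontrivially, fixing the zeros of its generator. -/
lemma involution {D : E →L[ℝ] E} (hD : IsRotation M D) (hne : ∃ x ∈ M, D x ≠ 0) :
    ∃ c : ℝ, (∀ x ∈ M, rot hD.1 c (rot hD.1 c x) = x) ∧ (∃ x ∈ M, rot hD.1 c x ≠ x) ∧
      ∀ x, D x = 0 → rot hD.1 c x = x := by
  obtain ⟨c, h1, h2⟩ := exists_involution hD.2.1 hne
  exact ⟨c, h1, h2, fun x hx => flow_of_apply_eq_zero D hx c⟩

/-- Two components of the fixed set of an involution in a circle. -/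
theorem infinite_of_two_components (S : Tube M) (hM : IsPreconnected M) {D : E →L[ℝ] E}
    (hD : Skew D) (hpD : ∀ t : ℝ, ∀ x ∈ M, exp (t • D) x ∈ M) {c : ℝ}
    (hci : ∀ x ∈ M, rot hD c (rot hD c x) = x) {x z : E}
    (hx : x ∈ M) (hxf : rot hD c x = x) (hz : z ∈ M) (hzf : rot hD c z = z)
    (hne : z ∉ piece M (rot hD c) x) : {s | IsClosedGeodesicImage M s}.Infinite := by
  set h := rot hD c
  have hhM : h '' M = M := rot_image hD hpD c
  have hd : Disjoint (piece M h x) (piece M h z) := by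
    refine disjoint_left.2 fun y hy hy' => hne ?_
    rw [piece, connectedComponentIn_eq hy, ← connectedComponentIn_eq hy']
    exact mem_connectedComponentIn ⟨hz, hzf⟩
  exact chord S hM hD hpD hci h hhM hci (fun y _ => rfl)
    ((S.fixed h hhM).component (m₀ := x) ⟨hx, hxf⟩).compact.isClosed
    ((S.fixed h hhM).component (m₀ := z) ⟨hz, hzf⟩).compact.isClosed
    (piece_subset h x) (piece_subset h z) ⟨x, mem_connectedComponentIn ⟨hx, hxf⟩⟩
    ⟨z, mem_connectedComponentIn ⟨hz, hzf⟩⟩ hd (fun _ ha => piece_fixed ha)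
    (fun _ hb => piece_fixed hb) (fun _ ha => piece_open S h hhM ha)
    (fun _ hb => piece_open S h hhM hb)

/-- A circle action with finitely many closed geodesics has connected fixed point set. -/
theorem fixed_preconnected {D : E →L[ℝ] E} (S : Tube M) (hM : IsPreconnected M)
    (hD : IsRotation M D) (hfin : {s | IsClosedGeodesicImage M s}.Finite) :
    IsPreconnected (M ∩ {x | D x = 0}) := by
  induction hn : Module.finrank ℝ (Submodule.span ℝ M) using Nat.strong_induction_on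
    generalizing M with
  | _ n ih =>
  by_cases hne : ∃ x ∈ M, D x ≠ 0
  swap
  · push Not at hne
    rwa [inter_eq_left.2 (show M ⊆ {x | D x = 0} from hne)]
  obtain ⟨c, hci, hmove, hfix⟩ := involution hD hne
  set h := rot hD.1 c
  have hhM : h '' M = M := rot_image hD.1 hD.2.2 c
  rcases (M ∩ {x | D x = 0}).eq_empty_or_nonempty with he | ⟨x, hx, hDx⟩
  · rw [he]; exact isPreconnected_empty
  have hsub : M ∩ {y | D y = 0} = piece M h x ∩ {y | D y = 0} := by
    refine Subset.antisymm (fun z hz => ⟨by_contra fun hzn => ?_, hz.2⟩)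
      (inter_subset_inter_left _ (piece_subset h x))
    exact infinite_of_two_components S hM hD.1 hD.2.2 hci hx (hfix x hDx) hz.1 (hfix z hz.2) hzn hfin
  rw [hsub]
  have hxm : x ∈ M ∩ {y | h y = y} := ⟨hx, hfix x hDx⟩
  refine ih _ (hn ▸ piece_finrank h x hmove) ((S.fixed h hhM).component hxm)
    (piece_preconnected h x) ⟨hD.1, hD.2.1, fun t y hy => piece_invariant hD.2.2
      (fun u y => flow_comm_of (Commute.refl D) c u y) hy t⟩ (piece_finite S h hhM hci x hfin) rfl

/-- A torus of rank two with finitely many closed geodesics has a fixed point. -/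
theorem exists_common_zero {A B : E →L[ℝ] E} (hc : Commute A B) (S : Tube M)
    (hM : IsPreconnected M) (hA : IsRotation M A) (hB : IsRotation M B)
    (heff : ∀ a b : ℝ, (a, b) ≠ 0 → ∃ x ∈ M, a • A x + b • B x ≠ 0)
    (hfin : {s | IsClosedGeodesicImage M s}.Finite) : ∃ x ∈ M, A x = 0 ∧ B x = 0 := by
  induction hn : Module.finrank ℝ (Submodule.span ℝ M) using Nat.strong_induction_on
    generalizing M with
  | _ n ih =>
  by_contra hnone
  push Not at hnone
  have hA0 : ∃ x ∈ M, A x ≠ 0 := by simpa using heff 1 0 (by simp)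
  obtain ⟨x1, hx1, hAx1, hg1⟩ := exists_max_orbit S ⟨_, hA0.choose_spec.1⟩ hA.1 hA.2.2 hA0
  obtain ⟨κ, hκ⟩ := orbit_tangent S hfin hA.1 hA.2.1 hB.1 hB.2.2 hAx1 hg1
  have hκ0 : B x1 = κ • A x1 := by simpa [exp_zero] using hκ 0
  obtain ⟨m, j, hm, hmj⟩ := exists_int_comb hA.2.1 hB.2.1 hc hAx1 hκ0
  set D1 : E →L[ℝ] E := ((-j : ℤ) : ℝ) • A + (m : ℝ) • B with hD1
  have hr1 : IsRotation M D1 := comb_rotation hA hB hc _ _
  have hz1 : D1 x1 = 0 := by simp [hD1, hmj]
  have hn1 : ∃ x ∈ M, D1 x ≠ 0 := by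
    obtain ⟨x, hx, hx'⟩ := heff ((-j : ℤ) : ℝ) (m : ℝ) (by simp [hm])
    exact ⟨x, hx, by simpa [hD1] using hx'⟩
  obtain ⟨x2, hx2, hDx2, hg2⟩ := exists_max_orbit S ⟨x1, hx1⟩ hr1.1 hr1.2.2 hn1
  have hc1A : Commute D1 A := ((Commute.refl A).smul_left _).add_left (hc.symm.smul_left _)
  have hc1B : Commute D1 B := (hc.smul_left _).add_left ((Commute.refl B).smul_left _)
  obtain ⟨κ', hκ'⟩ := orbit_tangent S hfin hr1.1 hr1.2.1 hA.1 hA.2.2 hDx2 hg2
  have hκ0' : A x2 = κ' • D1 x2 := by simpa [exp_zero] using hκ' 0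
  obtain ⟨m', j', hm', hmj'⟩ := exists_int_comb hr1.2.1 hA.2.1 hc1A hDx2 hκ0'
  set D2 : E →L[ℝ] E := ((m' + j' * j : ℤ) : ℝ) • A + ((-(j' * m) : ℤ) : ℝ) • B with hD2
  have hr2 : IsRotation M D2 := comb_rotation hA hB hc _ _
  have hD2e : ∀ y, D2 y = (m' : ℝ) • A y - (j' : ℝ) • D1 y := fun y => by
    simp [hD1, hD2]; module
  have hz2 : D2 x2 = 0 := by rw [hD2e, hmj', sub_self]
  have hab2 : (((m' + j' * j : ℤ) : ℝ), ((-(j' * m) : ℤ) : ℝ)) ≠ 0 := by
    intro h0
    simp only [Prod.mk_eq_zero, Int.cast_eq_zero, neg_eq_zero, mul_eq_zero] at h0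
    obtain ⟨e1, e2⟩ := h0
    rcases e2 with e2 | e2
    · exact hm' (by simpa [e2] using e1)
    · exact hm e2
  have hn2 : ∃ x ∈ M, D2 x ≠ 0 := by
    obtain ⟨x, hx, hx'⟩ := heff _ _ hab2
    exact ⟨x, hx, by simpa [hD2] using hx'⟩
  obtain ⟨c1, hi1, hmove1, hfix1⟩ := involution hr1 hn1
  obtain ⟨c2, hi2, hmove2, hfix2⟩ := involution hr2 hn2
  set h1 := rot hr1.1 c1
  set h2 := rot hr2.1 c2
  have hM1 : h1 '' M = M := rot_image hr1.1 hr1.2.2 c1
  have hM2 : h2 '' M = M := rot_image hr2.1 hr2.2.2 c2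
  have hm1 : x1 ∈ M ∩ {y | h1 y = y} := ⟨hx1, hfix1 x1 hz1⟩
  have hm2 : x2 ∈ M ∩ {y | h2 y = y} := ⟨hx2, hfix2 x2 hz2⟩
  have hc2A : Commute D2 A := ((Commute.refl A).smul_left _).add_left (hc.symm.smul_left _)
  have hc2B : Commute D2 B := (hc.smul_left _).add_left ((Commute.refl B).smul_left _)
  have h12 : Commute D1 D2 := (hc1A.smul_right _).add_right (hc1B.smul_right _)
  have hkill : ∀ (D : E →L[ℝ] E) (hD : Skew D) (hp : ∀ t : ℝ, ∀ x ∈ M, exp (t • D) x ∈ M)
      (c : ℝ) (α β : ℝ) (x : E), D = α • A + β • B → Commute D A → Commute D B →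
      (∀ y ∈ M, rot hD c (rot hD c y) = y) → (∃ y ∈ M, rot hD c y ≠ y) →
      x ∈ M ∩ {y | rot hD c y = y} → D x = 0 →
      ∀ y ∈ piece M (rot hD c) x, D y = 0 := by
    intro D hD hp c α β x he hcA hcB hi hmove hx hz y hy
    set h := rot hD c
    have hhM : h '' M = M := rot_image hD hp c
    by_cases hr : ∀ a b : ℝ, (a, b) ≠ 0 → ∃ z ∈ piece M h x, a • A z + b • B z ≠ 0
    · obtain ⟨z, hz, e1, e2⟩ := ih _ (hn ▸ piece_finrank h x hmove)
        ((S.fixed h hhM).component hx) (piece_preconnected h x)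
        ⟨hA.1, hA.2.1, fun t z hz => piece_invariant hA.2.2
          (fun u w => flow_comm_of hcA c u w) hz t⟩
        ⟨hB.1, hB.2.1, fun t z hz => piece_invariant hB.2.2
          (fun u w => flow_comm_of hcB c u w) hz t⟩
        hr (piece_finite S h hhM hi x hfin) rfl
      exact absurd e2 (hnone z (piece_subset h x hz) e1)
    push Not at hr
    obtain ⟨a, b, hab, hkill⟩ := hr
    have k1 := hkill x (mem_connectedComponentIn hx)
    have k2 : α • A x + β • B x = 0 := by simpa [he] using hz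
    have hdet : a * β - b * α = 0 := by
      by_contra hne
      have eA : (a * β - b * α) • A x = β • (a • A x + b • B x) - b • (α • A x + β • B x) := by
        module
      have eB : (a * β - b * α) • B x = a • (α • A x + β • B x) - α • (a • A x + b • B x) := by
        module
      rw [k1, k2, smul_zero, smul_zero, sub_self] at eA eB
      exact hnone x hx.1 ((smul_eq_zero.1 eA).resolve_left hne) ((smul_eq_zero.1 eB).resolve_left hne)
    have k3 := hkill y hy
    have hy0 : a • (α • A y + β • B y) = 0 ∧ b • (α • A y + β • B y) = 0 := by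
      constructor
      · rw [show a • (α • A y + β • B y) =
          α • (a • A y + b • B y) + (a * β - b * α) • B y by module, k3, hdet]
        simp
      · rw [show b • (α • A y + β • B y) =
          β • (a • A y + b • B y) - (a * β - b * α) • A y by module, k3, hdet]
        simp
    rcases eq_or_ne a 0 with rfl | ha
    · have hb : b ≠ 0 := fun hb => hab (by simp [hb])
      simpa [he] using (smul_eq_zero.1 hy0.2).resolve_left hb
    · simpa [he] using (smul_eq_zero.1 hy0.1).resolve_left ha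
  rcases disjoint_or_nonempty_inter (piece M h1 x1) (piece M h2 x2) with hd | ⟨y, hy1, hy2⟩
  · exact chord S hM hr1.1 hr1.2.2 hi1 h2 hM2 hi2
      (fun z _ => (flow_comm_of h12 c1 c2 z).symm)
      ((S.fixed h1 hM1).component hm1).compact.isClosed
      ((S.fixed h2 hM2).component hm2).compact.isClosed (piece_subset h1 x1) (piece_subset h2 x2)
      ⟨x1, mem_connectedComponentIn hm1⟩ ⟨x2, mem_connectedComponentIn hm2⟩ hd
      (fun _ ha => piece_fixed ha) (fun _ hb => piece_fixed hb)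
      (fun _ ha => piece_open S h1 hM1 ha) (fun _ hb => piece_open S h2 hM2 hb) hfin
  have z1 := hkill D1 hr1.1 hr1.2.2 c1 _ _ x1 hD1 hc1A hc1B hi1 hmove1 hm1 hz1 y hy1
  have z2 := hkill D2 hr2.1 hr2.2.2 c2 _ _ x2 hD2 hc2A hc2B hi2 hmove2 hm2 hz2 y hy2
  rw [hD2e, z1, smul_zero, sub_zero, smul_eq_zero, Int.cast_eq_zero] at z2
  have hAy := z2.resolve_left hm'
  refine hnone y (piece_subset h1 x1 hy1) hAy ?_
  simpa [hD1, hAy, hm] using z1

/-- Killing fields of the ambient linear action. -/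
theorem nonabelian_infinite (S : Tube M) {A : E →L[ℝ] E} (hA : IsRotation M A)
    (hA0 : ∃ x ∈ M, A x ≠ 0)
    (hspan : A ∈ Submodule.span ℝ (commutators M)) :
    {s | IsClosedGeodesicImage M s}.Infinite := by
  intro hfin
  obtain ⟨x, hx, hAx, hg⟩ := exists_max_orbit S ⟨_, hA0.choose_spec.1⟩ hA.1 hA.2.2 hA0
  have hX : ∀ X : E →L[ℝ] E, Skew X → (∀ t : ℝ, ∀ x ∈ M, exp (t • X) x ∈ M) →
      ∃ κ : ℝ, X x = κ • A x ∧ X (A x) = κ • A (A x) := by
    intro X hs hp
    obtain ⟨κ, hκ⟩ := orbit_tangent S hfin hA.1 hA.2.1 hs hp hAx hg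
    refine ⟨κ, by simpa [exp_zero] using hκ 0, ?_⟩
    have h1 : HasDerivAt (fun t : ℝ => X (exp (t • A) x)) (X (A (exp ((0 : ℝ) • A) x))) 0 :=
      X.hasFDerivAt.comp_hasDerivAt 0 (hasDerivAt_flow A x 0)
    have h2 : HasDerivAt (fun t : ℝ => κ • A (exp (t • A) x))
        (κ • A (A (exp ((0 : ℝ) • A) x))) 0 :=
      (A.hasFDerivAt.comp_hasDerivAt 0 (hasDerivAt_flow A x 0)).const_smul κ
    rw [funext hκ] at h1
    simpa [exp_zero] using h1.unique h2
  refine hAx ?_
  suffices h : A ∈ LinearMap.ker (ContinuousLinearMap.apply ℝ E x : (E →L[ℝ] E) →ₗ[ℝ] E) by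
    simpa using h
  refine (Submodule.span_le.2 ?_) hspan
  rintro _ ⟨X, Y, ⟨hX1, hX2⟩, ⟨hY1, hY2⟩, rfl⟩
  obtain ⟨a, ha, ha'⟩ := hX X hX1 hX2
  obtain ⟨b, hb, hb'⟩ := hX Y hY1 hY2
  simp only [bracket, SetLike.mem_coe, LinearMap.mem_ker, ContinuousLinearMap.coe_coe,
    ContinuousLinearMap.apply_apply, sub_apply, ContinuousLinearMap.mul_apply]
  rw [hb, ha, map_smul, map_smul, ha', hb', smul_smul, smul_smul, mul_comm, sub_self]

end Vale.Agent.P216
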