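import Vale.Agent.P216.Loops
import Vale.Agent.P371G.Brouwer

/-!
A closed submanifold does not deform into a proper closed subset: transporting the normal vectors
along the deformation would give a continuous map of the space which is the identity outside a
bounded set and omits a point.
-/

namespace Vale.Agent.P216

open Metric Set Filter Topology
open scoped RealInnerProductSpace ContDiff

section

variable {E : Type*} [NormedAddCommGroup E] [InnerProductSpace ℝ E] [FiniteDimensional ℝ E]

namespace Tube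

variable {M : Set E} (S : Tube M)

lemma normal_residual {x : E} (hx : x ∈ S.U) : S.P (S.r x) (x - S.r x) = 0 := by
  have hp := S.mem x hx
  refine ext_inner_right ℝ fun v => ?_
  rw [inner_zero_left, S.P_symm hp]
  have hline : HasDerivAt (fun s : ℝ => S.r x + s • v) v 0 := by
    simpa using ((hasDerivAt_id (0 : ℝ)).smul_const v).const_add (S.r x)
  have hr : HasDerivAt (fun s : ℝ => S.r (S.r x + s • v)) (S.P (S.r x) v) 0 :=
    (show HasFDerivAt S.r (S.P (S.r x)) ((fun s : ℝ => S.r x + s • v) 0) by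
      simpa using S.hasP (S.sub hp)).comp_hasDerivAt 0 hline
  have hd := ((hasDerivAt_const (0 : ℝ) x).sub hr).norm_sq
  simp only [zero_smul, add_zero, Pi.sub_apply, zero_sub, inner_neg_right, S.fix hp] at hd
  have hmin : IsLocalMin (fun s : ℝ => ‖x - S.r (S.r x + s • v)‖ ^ 2) 0 := by
    have he : ∀ᶠ s : ℝ in 𝓝 0, S.r x + s • v ∈ S.U :=
      hline.continuousAt.preimage_mem_nhds (by simpa using S.nhds hp)
    filter_upwards [he] with s hs
    simp only [zero_smul, add_zero, S.fix hp]
    rw [← dist_eq_norm, ← dist_eq_norm]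
    rcases eq_or_ne (S.r (S.r x + s • v)) (S.r x) with h | h
    · rw [h]
    · exact pow_le_pow_left₀ dist_nonneg (S.nearest x hx _ (S.mem _ hs) h).le 2
  have := hmin.hasDerivAt_eq_zero hd
  linarith

lemma norm_normalPart_le {q : E} (hq : q ∈ M) (v : E) : ‖v - S.P q v‖ ≤ ‖v‖ := by
  have h0 : ⟪v - S.P q v, S.P q v⟫ = 0 := by
    rw [inner_sub_left, S.P_symm hq v (S.P q v), S.P_idem hq, sub_self]
  have h1 := norm_add_sq_eq_norm_sq_add_norm_sq_real h0
  rw [sub_add_cancel] at h1
  nlinarith [norm_nonneg v, norm_nonneg (v - S.P q v), mul_self_nonneg ‖S.P q v‖]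

/-- Short nonzero normal vectors leave `M`. -/
lemma exists_normal_gap : ∃ η > 0, ∀ p ∈ M, ∀ w, S.P p w = 0 → ‖w‖ < η → p + w ∈ M → w = 0 := by
  set ρ := S.ε / 2 with hρ
  have hρ0 : 0 < ρ := half_pos S.pos
  have hK : IsCompact (cthickening ρ M) := S.compact.cthickening
  have hKU : cthickening ρ M ⊆ S.U :=
    cthickening_subset_thickening' S.pos (half_lt_self S.pos) M
  obtain ⟨η₀, hη₀, hu⟩ := Metric.uniformContinuousOn_iff.1
    (hK.uniformContinuousOn_of_continuous (S.smoothP.continuousOn.mono hKU)) (1 / 2) (by norm_num)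
  refine ⟨min η₀ ρ, lt_min hη₀ hρ0, fun p hp w hw hlt hmem => ?_⟩
  have hb : ∀ y ∈ ball p (min η₀ ρ), y ∈ cthickening ρ M := fun y hy =>
    mem_cthickening_of_dist_le y p ρ M hp ((mem_ball.1 hy).le.trans (min_le_right _ _))
  have h := (convex_ball p (min η₀ ρ)).norm_image_sub_le_of_norm_hasFDerivWithin_le'
    (f := S.r) (f' := S.P) (φ := S.P p) (C := 1 / 2)
    (fun y hy => (S.hasP (hKU (hb y hy))).hasFDerivWithinAt)
    (fun y hy => by
      rw [← dist_eq_norm]
      exact (hu y (hb y hy) p (self_subset_cthickening M hp)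
        ((mem_ball.1 hy).trans_le (min_le_left _ _))).le)
    (mem_ball_self (lt_min hη₀ hρ0))
    (show p + w ∈ ball p (min η₀ ρ) by simpa [mem_ball, dist_eq_norm] using hlt)
  rw [S.fix hmem, S.fix hp, add_sub_cancel_left, hw, sub_zero] at h
  exact norm_le_zero_iff.1 (by linarith)

/-- Successive normal parts along a sequence of points. -/
noncomputable def transport (c : ℕ → E) (w : E) : ℕ → E
  | 0 => w
  | j + 1 => transport c w j - S.P (c (j + 1)) (transport c w j)

lemma transport_spec {c : ℕ → E} {w : E} {m : ℕ} (hc : ∀ j ≤ m, c j ∈ M)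
    (hclose : ∀ j < m, ‖S.P (c j) - S.P (c (j + 1))‖ ≤ 1 / 2) (hw : S.P (c 0) w = 0) :
    ∀ j ≤ m, S.P (c j) (S.transport c w j) = 0 ∧ ‖S.transport c w j‖ ≤ ‖w‖ ∧
      (w ≠ 0 → S.transport c w j ≠ 0) := by
  intro j hj
  induction j with
  | zero => exact ⟨hw, le_rfl, fun h => h⟩
  | succ j ih =>
    obtain ⟨hn, hle, hne⟩ := ih (by omega)
    set v := S.transport c w j with hv
    have hq := hc _ hj
    refine ⟨?_, (S.norm_normalPart_le hq v).trans hle, fun hw0 he => hne hw0 ?_⟩
    · show S.P (c (j + 1)) (v - S.P (c (j + 1)) v) = 0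
      rw [map_sub, S.P_idem hq, sub_self]
    · have he' : S.P (c (j + 1)) v = v := (sub_eq_zero.1 he).symm
      have h1 := (S.P (c j) - S.P (c (j + 1))).le_of_opNorm_le (hclose j (by omega)) v
      rw [sub_apply, hn, he', zero_sub, norm_neg] at h1
      exact norm_le_zero_iff.1 (by linarith)

lemma continuousOn_transport {X : Type*} [TopologicalSpace X] {s : Set X} {c : X → ℕ → E}
    {w : X → E} (hw : ContinuousOn w s) {m : ℕ} (hc : ∀ j ≤ m, ContinuousOn (fun x => c x j) s)
    (hm : ∀ x ∈ s, ∀ j ≤ m, c x j ∈ M) :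
    ∀ j ≤ m, ContinuousOn (fun x => S.transport (c x) (w x) j) s := by
  intro j hj
  induction j with
  | zero => exact hw
  | succ j ih =>
    exact (ih (by omega)).sub ((S.smoothP.continuousOn.comp (hc _ hj)
      fun x hx => S.sub (hm x hx _ hj)).clm_apply (ih (by omega)))

/-- The residual of the nearest point map, transported along the deformation up to the time
`τ`. -/
lemma exists_transported (S : Tube M) {D : Set E} (hD : IsCompact D) (hDU : D ⊆ S.U)
    {H : E × ℝ → E} (hc : ContinuousOn H (D ×ˢ Icc (0 : ℝ) 1))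
    (hm : ∀ y ∈ D, ∀ s ∈ Icc (0 : ℝ) 1, H (y, s) ∈ M) (h0 : ∀ y ∈ D, H (y, 0) = S.r y)
    {τ : E → ℝ} (hτc : Continuous τ) (hτI : ∀ y, τ y ∈ Icc (0 : ℝ) 1) :
    ∃ ν : E → E, ContinuousOn (fun y => H (y, τ y)) D ∧ ContinuousOn ν D ∧
      (∀ y ∈ D, S.P (H (y, τ y)) (ν y) = 0 ∧ ‖ν y‖ ≤ ‖y - S.r y‖ ∧
        (y - S.r y ≠ 0 → ν y ≠ 0)) ∧
      ∀ y ∈ D, τ y = 0 → ν y = y - S.r y := by
  set f : E × ℝ → E →L[ℝ] E := fun p => S.P (H p) with hf
  have hPH : ContinuousOn f (D ×ˢ Icc (0 : ℝ) 1) :=
    S.smoothP.continuousOn.comp hc fun p hp => S.sub (hm _ hp.1 _ hp.2)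
  obtain ⟨η, hη, hunif⟩ := Metric.uniformContinuousOn_iff.1
    ((hD.prod isCompact_Icc).uniformContinuousOn_of_continuous hPH) (1 / 2) (by norm_num)
  obtain ⟨m', hm'⟩ := exists_nat_one_div_lt hη
  set m := m' + 1 with hmdef
  have hm0 : (0 : ℝ) < m := by exact_mod_cast Nat.succ_pos m'
  have hmη : (1 : ℝ) / m < η := by simpa [hmdef] using hm'
  set c : E → ℕ → E := fun y j => H (y, min (τ y) ((j : ℝ) / m)) with hcdef
  have htI : ∀ y (j : ℕ), min (τ y) ((j : ℝ) / m) ∈ Icc (0 : ℝ) 1 := fun y j =>
    ⟨le_min (hτI y).1 (by positivity), (min_le_left _ _).trans (hτI y).2⟩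
  have hcM : ∀ y ∈ D, ∀ j ≤ m, c y j ∈ M := fun y hy j _ => hm y hy _ (htI y j)
  have hcc : ∀ j : ℕ, ContinuousOn (fun y => c y j) D := fun j =>
    hc.comp (continuousOn_id.prodMk (hτc.min continuous_const).continuousOn)
      fun y hy => ⟨hy, htI y j⟩
  have hc0 : ∀ y ∈ D, c y 0 = S.r y := fun y hy => by
    simp only [hcdef, Nat.cast_zero, zero_div, min_eq_right (hτI y).1]
    exact h0 y hy
  have hcm : ∀ y, c y m = H (y, τ y) := fun y => by
    simp only [hcdef, div_self hm0.ne', min_eq_left (hτI y).2]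
  have hclose : ∀ y ∈ D, ∀ j : ℕ, ‖S.P (c y j) - S.P (c y (j + 1))‖ ≤ 1 / 2 := by
    intro y hy j
    have hd : dist (y, min (τ y) ((j : ℝ) / m)) (y, min (τ y) (((j + 1 : ℕ) : ℝ) / m)) < η := by
      rw [Prod.dist_eq, dist_self, Real.dist_eq]
      refine max_lt hη (lt_of_le_of_lt ((abs_min_sub_min_le_max _ _ _ _).trans
        (max_le ?_ ?_)) hmη)
      · rw [sub_self, abs_zero]; positivity
      · rw [← sub_div, abs_div, Nat.abs_cast]
        push_cast
        simp
    have h := hunif (y, min (τ y) ((j : ℝ) / m)) ⟨hy, htI y j⟩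
      (y, min (τ y) (((j + 1 : ℕ) : ℝ) / m)) ⟨hy, htI y (j + 1)⟩ hd
    rw [dist_eq_norm] at h
    exact h.le
  refine ⟨fun y => S.transport (c y) (y - S.r y) m, (hcc m).congr fun y _ => (hcm y).symm,
    S.continuousOn_transport (continuousOn_id.sub (S.smooth.continuousOn.mono hDU))
      (fun j _ => hcc j) hcM m le_rfl, fun y hy => ?_, fun y hy hτ0 => ?_⟩
  · have h := S.transport_spec (m := m) (hcM y hy) (fun j _ => hclose y hy j)
      (by rw [hc0 y hy]; exact S.normal_residual (hDU hy)) m le_rfl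
    rwa [hcm] at h
  · have hcj : ∀ j, c y j = S.r y := fun j => by
      simp only [hcdef, hτ0]
      rw [min_eq_left (by positivity), h0 y hy]
    have : ∀ j, S.transport (c y) (y - S.r y) j = y - S.r y := by
      intro j
      induction j with
      | zero => rfl
      | succ j ih =>
        show S.transport (c y) _ j - S.P (c y (j + 1)) (S.transport (c y) _ j) = _
        rw [ih, hcj, S.normal_residual (hDU hy), sub_zero]
    exact this m

end Tube

end

variable {N : ℕ}

set_option linter.unusedVariables false in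
/-- No deformation of a neighbourhood retraction of `M` into a proper closed subset of `M`. -/
theorem no_deform {M G : Set (Euc N)} (S : Tube M) (hGc : IsClosed G) (hGM : G ⊆ M) (hne : G ≠ M)
    {Q : Set (Euc N)} {δ : ℝ} (hδ : 0 < δ) (hδε : δ < S.ε) (hQ : cthickening δ M ⊆ Q)
    {H : Euc N × ℝ → Euc N} (hc : ContinuousOn H (Q ×ˢ Icc (0 : ℝ) 1))
    (hm : ∀ y ∈ Q, ∀ s ∈ Icc (0 : ℝ) 1, H (y, s) ∈ M) (h0 : ∀ y ∈ Q, H (y, 0) = S.r y)
    (h1 : ∀ y ∈ Q, H (y, 1) ∈ G) : False := by
  obtain ⟨a, haM, haG⟩ : ∃ a ∈ M, a ∉ G := by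
    by_contra! h
    exact hne (hGM.antisymm h)
  have hne' : M.Nonempty := ⟨a, haM⟩
  set I : Set ℝ := Icc 0 1
  set D : Set (Euc N) := cthickening δ M
  have hD : IsCompact D := S.compact.cthickening
  have hDU : D ⊆ S.U := cthickening_subset_thickening' S.pos hδε M
  have hmemD : ∀ y, infDist y M ≤ δ → y ∈ D := fun y hy => by
    obtain ⟨p, hp, hd⟩ := S.compact.exists_infDist_eq_dist hne' y
    exact mem_cthickening_of_dist_le y p δ M hp (hd ▸ hy)
  have hnear : ∀ y ∈ S.U, ‖y - S.r y‖ = infDist y M := fun y hy => by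
    obtain ⟨p, hp, hd⟩ := S.compact.exists_infDist_eq_dist hne' y
    rw [← dist_eq_norm]
    refine le_antisymm ?_ (infDist_le_dist_of_mem (S.mem y hy))
    rw [hd]
    rcases eq_or_ne p (S.r y) with h | h
    · rw [h]
    · exact (S.nearest y hy p hp h).le
  obtain ⟨gap, hgap, hsep⟩ := S.exists_normal_gap
  set lam := min 1 (gap / (δ + 1)) with hlam
  have hlam0 : 0 < lam := lt_min one_pos (by positivity)
  have hlam1 : lam ≤ 1 := min_le_left _ _
  have hlamδ : lam * δ < gap := by
    have h1 : lam * (δ + 1) ≤ gap := (le_div_iff₀ (by positivity)).1 (min_le_right _ _)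
    linarith
  set θ : Euc N → ℝ := fun y => infDist y M / δ with hθ
  set τ : Euc N → ℝ := fun y => max 0 (min 1 (2 - 4 * θ y)) with hτ
  set μ : Euc N → ℝ := fun y => lam + (1 - lam) * max 0 (min 1 (2 * θ y - 1)) with hμ
  have hθc : Continuous θ := (continuous_infDist_pt M).div_const δ
  have hτc : Continuous τ := by fun_prop
  have hμc : Continuous μ := by fun_prop
  have hτI : ∀ y, τ y ∈ I := fun y => ⟨le_max_left _ _, max_le zero_le_one (min_le_left _ _)⟩
  obtain ⟨ν, hpc, hνc, hνspec, hν0⟩ := S.exists_transported hD hDU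
    (hc.mono (prod_mono hQ subset_rfl)) (fun y hy => hm y (hQ hy)) (fun y hy => h0 y (hQ hy))
    hτc hτI
  set F : Euc N → Euc N := fun y => H (y, τ y) + μ y • ν y with hF
  have hFc : ContinuousOn F D := hpc.add (hμc.continuousOn.smul hνc)
  set g : Euc N → Euc N := fun y => if infDist y M ≤ δ then F y else y with hg
  have hgc : Continuous g := by
    refine continuous_if_le (continuous_infDist_pt M) continuous_const
      (hFc.mono fun y hy => hmemD y hy) continuousOn_id fun y hy => ?_
    have hyD := hmemD y hy.le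
    have hθ1 : θ y = 1 := by simp only [hθ, hy, div_self hδ.ne']
    have hτ0 : τ y = 0 := by simp only [hτ, hθ1]; norm_num
    have hμ1 : μ y = 1 := by simp only [hμ, hθ1]; norm_num
    have hνe := hν0 y hyD hτ0
    simp only [hF, hτ0, hμ1, hνe, one_smul, h0 y (hQ hyD), add_sub_cancel]
  -- the map omits `a`
  have hga : ∀ y, g y ≠ a := by
    intro y
    by_cases hy : infDist y M ≤ δ
    · simp only [hg, hy, if_true]
      have hyD := hmemD y hy
      obtain ⟨hn, hle, hnz⟩ := hνspec y hyD
      have hτy := hτI y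
      have hp : H (y, τ y) ∈ M := hm y (hQ hyD) _ hτy
      intro hFa
      have hθ0 : 0 ≤ θ y := div_nonneg infDist_nonneg hδ.le
      rcases le_or_gt (θ y) (1 / 2) with hlow | hhigh
      · have hμl : μ y = lam := by
          simp only [hμ]
          rw [max_eq_left ((min_le_right _ _).trans (by linarith)), mul_zero, add_zero]
        have hw0 : μ y • ν y = 0 := by
          refine hsep _ hp _ (by rw [map_smul, hn, smul_zero]) ?_ ?_
          · rw [hμl, norm_smul, Real.norm_of_nonneg hlam0.le]
            exact lt_of_le_of_lt (mul_le_mul_of_nonneg_left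
              ((hle.trans_eq (hnear y (hDU hyD))).trans hy) hlam0.le) hlamδ
          · show F y ∈ M
            rw [hFa]; exact haM
        have hνz : ν y = 0 := by
          rw [hμl] at hw0
          exact (smul_eq_zero.1 hw0).resolve_left hlam0.ne'
        have hy0 : y - S.r y = 0 := by_contra fun h => hnz h hνz
        have hinf : infDist y M = 0 := by rw [← hnear y (hDU hyD), hy0, norm_zero]
        have hτ1 : τ y = 1 := by simp only [hτ, hθ, hinf]; norm_num
        apply haG
        rw [← hFa]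
        simp only [hF, hνz, smul_zero, add_zero, hτ1]
        exact h1 y (hQ hyD)
      · have hτ0 : τ y = 0 := by
          simp only [hτ]
          rw [max_eq_left ((min_le_right _ _).trans (by linarith))]
        have hνy := hν0 y hyD hτ0
        have hμ01 : lam ≤ μ y ∧ μ y ≤ 1 := by
          simp only [hμ]
          have h1' : max 0 (min 1 (2 * θ y - 1)) ≤ 1 := max_le zero_le_one (min_le_left _ _)
          have h0' : 0 ≤ max 0 (min 1 (2 * θ y - 1)) := le_max_left _ _
          constructor <;> nlinarith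
        simp only [hF, hτ0, h0 y (hQ hyD), hνy] at hFa
        have hy0 : y - S.r y ≠ 0 := by
          intro h
          have : θ y = 0 := by simp only [hθ, ← hnear y (hDU hyD), h, norm_zero, zero_div]
          linarith
        have har : a ≠ S.r y := by
          intro h
          rw [h, add_eq_left] at hFa
          exact hy0 ((smul_eq_zero.1 hFa).resolve_left (by linarith [hμ01.1]))
        have hlt := S.nearest y (hDU hyD) a haM har
        have e : y - a = (1 - μ y) • (y - S.r y) := by rw [← hFa]; module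
        rw [dist_eq_norm, dist_eq_norm, e, norm_smul, Real.norm_of_nonneg (by linarith [hμ01.2])]
          at hlt
        nlinarith [norm_nonneg (y - S.r y), hμ01.1]
    · simp only [hg, hy, if_false]
      intro h
      apply hy
      rw [h, infDist_zero_of_mem haM]
      exact hδ.le
  -- Brouwer
  obtain ⟨R, hR⟩ := hD.isBounded.subset_closedBall a
  set L := max R 0 + 1 with hL
  have hL0 : 0 < L := by positivity
  set f : Euc N → Euc N := fun y => a - (L / ‖g y - a‖) • (g y - a) with hf
  have hfn : ∀ y, ‖f y - a‖ = L := fun y => by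
    have : 0 < ‖g y - a‖ := norm_pos_iff.2 (sub_ne_zero.2 (hga y))
    simp only [hf, sub_sub_cancel_left, norm_neg, norm_smul]
    rw [Real.norm_of_nonneg (by positivity), div_mul_cancel₀ _ this.ne']
  have hfc : Continuous f :=
    continuous_const.sub (((continuous_const.div ((hgc.sub continuous_const).norm) fun y =>
      (norm_pos_iff.2 (sub_ne_zero.2 (hga y))).ne')).smul (hgc.sub continuous_const))
  obtain ⟨y, hy⟩ := P371G.brouwer_bounded hfc ⟨‖a‖ + L, fun y => by
    calc ‖f y‖ = ‖a + (f y - a)‖ := by rw [add_sub_cancel]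
      _ ≤ _ := (norm_add_le _ _).trans_eq (by rw [hfn])⟩
  have hyL := hfn y
  rw [hy] at hyL
  have hout : ¬ infDist y M ≤ δ := fun hle => by
    have := mem_closedBall.1 (hR (hmemD y hle))
    rw [dist_eq_norm, hyL] at this
    linarith [le_max_left R 0]
  have hgy : g y = y := by simp only [hg, hout, if_false]
  simp only [hf, hgy, hyL, div_self hL0.ne', one_smul] at hy
  have h2 : (2 : ℝ) • (y - a) = 0 := by
    rw [two_smul]
    nth_rw 1 [← hy]
    abel
  have h3 : ‖y - a‖ = 0 := by
    rw [(smul_eq_zero.1 h2).resolve_left two_ne_zero, norm_zero]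
  linarith

end Vale.Agent.P216
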