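import Vale.Agent.P216.Flow

/-!
Rigidity forced by finitely many closed geodesics.
-/

namespace Vale.Agent.P216

open Metric Set Filter Topology NormedSpace
open scoped RealInnerProductSpace ContDiff

variable {E : Type*} [NormedAddCommGroup E] [InnerProductSpace ℝ E] [FiniteDimensional ℝ E]
variable {M : Set E} {y : ℝ → E × E} {A X : E →L[ℝ] E}

set_option linter.unusedSectionVars false

namespace Rigid

lemma continuous_orbit (A : E →L[ℝ] E) (x : E) : Continuous fun t : ℝ => exp (t • A) x :=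
  continuous_iff_continuousAt.2 fun t => (hasDerivAt_flow A x t).continuousAt

/-- The periods of a moving point form a cyclic group. -/
lemma period_gen (A : E →L[ℝ] E) {x : E} (hAx : A x ≠ 0) :
    ∃ p : ℝ, 0 ≤ p ∧ ∀ t : ℝ, exp (t • A) x = x ↔ ∃ k : ℤ, (k : ℝ) * p = t := by
  let G : AddSubgroup ℝ :=
    { carrier := {t | exp (t • A) x = x}
      zero_mem' := by simp
      add_mem' := fun {s t} (hs : exp (s • A) x = x) (ht : exp (t • A) x = x) =>
        show exp ((s + t) • A) x = x by rw [flow_add, ht, hs]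
      neg_mem' := fun {t} (ht : exp (t • A) x = x) =>
        show exp ((-t) • A) x = x by simpa [ht] using flow_cancel A t x }
  rcases G.dense_or_cyclic with hd | ⟨a, ha⟩
  · refine absurd (apply_eq_zero_of_flow A fun t => ?_) hAx
    have hcl : IsClosed (G : Set ℝ) := isClosed_eq (continuous_orbit A x) continuous_const
    have : t ∈ closure (G : Set ℝ) := hd t
    rwa [hcl.closure_eq] at this
  · refine ⟨|a|, abs_nonneg a, fun t => ?_⟩
    have h1 : exp (t • A) x = x ↔ ∃ k : ℤ, k • a = t := by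
      rw [← AddSubgroup.mem_closure_singleton, ← ha]
      rfl
    rw [h1]
    rcases abs_choice a with h | h <;> rw [h]
    · simp [zsmul_eq_mul]
    · exact ⟨fun ⟨k, hk⟩ => ⟨-k, by simpa [zsmul_eq_mul] using hk⟩,
        fun ⟨k, hk⟩ => ⟨-k, by simpa [zsmul_eq_mul] using hk⟩⟩

lemma flow_one {A : E →L[ℝ] E} (hA1 : exp A = 1) (x : E) : exp ((1 : ℝ) • A) x = x := by
  rw [one_smul, hA1]; rfl

lemma period_pos {A : E →L[ℝ] E} (hA1 : exp A = 1) {x : E} (hAx : A x ≠ 0) :
    ∃ p : ℝ, 0 < p ∧ ∀ t : ℝ, exp (t • A) x = x ↔ ∃ k : ℤ, (k : ℝ) * p = t := by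
  obtain ⟨p, hp, h⟩ := period_gen A hAx
  refine ⟨p, lt_of_le_of_ne hp fun hp0 => ?_, h⟩
  obtain ⟨k, hk⟩ := (h 1).1 (flow_one hA1 x)
  simp [← hp0] at hk

/-- A curve running in an orbit has velocity along the orbit. -/
lemma velocity_in_orbit {A : E →L[ℝ] E} (hA1 : exp A = 1) {a w : E} (hAa : A a ≠ 0) {γ : ℝ → E}
    (h0 : γ 0 = a) (hd : HasDerivAt γ w 0) (hmem : ∀ s, ∃ t : ℝ, exp (t • A) a = γ s) :
    ∃ κ : ℝ, w = κ • A a := by
  obtain ⟨p, hp, hper⟩ := period_pos hA1 hAa
  set f : ℝ → E := fun t => exp (t • A) a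
  have hf : HasDerivAt f (A a) 0 := by simpa [f] using hasDerivAt_flow A a 0
  have hf0 : f 0 = a := by simp [f]
  have hred : ∀ s, ∃ t : ℝ, |t| ≤ p / 2 ∧ f t = γ s := by
    intro s
    obtain ⟨t, ht⟩ := hmem s
    refine ⟨t - (round (t / p) : ℝ) * p, ?_, ?_⟩
    · have h := abs_sub_round (t / p)
      have e : t - (round (t / p) : ℝ) * p = (t / p - (round (t / p) : ℝ)) * p := by field_simp
      rw [e, abs_mul, abs_of_pos hp]
      nlinarith
    · show exp ((t - (round (t / p) : ℝ) * p) • A) a = γ s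
      rw [sub_eq_add_neg, flow_add, (hper _).2 ⟨-round (t / p), by push_cast; ring⟩, ht]
  choose τ hτb hτ using hred
  have hsmall : Tendsto τ (𝓝 0) (𝓝 0) := by
    rw [Metric.tendsto_nhds]
    intro δ hδ
    set K : Set ℝ := Icc (-(p / 2)) (p / 2) ∩ {t | δ ≤ |t|}
    have hK : IsCompact (f '' K) :=
      (isCompact_Icc.inter_right (isClosed_le continuous_const continuous_abs)).image
        (continuous_orbit A a)
    have ha : γ 0 ∉ f '' K := by
      rintro ⟨t, ⟨htI, htd⟩, ht⟩
      obtain ⟨k, hk⟩ := (hper t).1 (ht.trans h0)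
      rcases eq_or_ne k 0 with rfl | hk0
      · simp [← hk] at htd
        linarith
      · have h1 : (1 : ℝ) ≤ |(k : ℝ)| := by exact_mod_cast Int.one_le_abs hk0
        have h2 : |(k : ℝ)| * p ≤ p / 2 := by
          rw [← abs_of_pos hp, ← abs_mul, hk, abs_of_pos hp]
          exact abs_le.2 htI
        nlinarith
    filter_upwards [hd.continuousAt.preimage_mem_nhds (hK.isClosed.isOpen_compl.mem_nhds ha)]
      with s hs
    rw [Real.dist_eq, sub_zero]
    by_contra hle
    exact hs ⟨τ s, ⟨abs_le.1 (hτb s), not_lt.1 hle⟩, hτ s⟩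
  set z := w - (⟪w, A a⟫ / ⟪A a, A a⟫) • A a with hz
  have hAA : ⟪A a, A a⟫ ≠ 0 := inner_self_ne_zero.2 hAa
  have hzA : ⟪A a, z⟫ = 0 := by
    rw [hz, inner_sub_right, real_inner_smul_right, div_mul_cancel₀ _ hAA, real_inner_comm,
      sub_self]
  have hl : Asymptotics.IsLittleO (𝓝 0) (fun t : ℝ => ⟪f t - a, z⟫) fun t => f t - a := by
    have h1 : Asymptotics.IsLittleO (𝓝 0) (fun t : ℝ => f t - a - t • A a) fun t => t := by
      simpa [hf0] using hasDerivAt_iff_isLittleO.1 hf
    have h2 : Asymptotics.IsLittleO (𝓝 0) (fun t : ℝ => ⟪f t - a, z⟫) fun t => t := by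
      refine (Asymptotics.IsBigO.of_bound ‖z‖ (.of_forall fun t => ?_)).trans_isLittleO h1
      have : ⟪f t - a, z⟫ = ⟪f t - a - t • A a, z⟫ := by
        rw [inner_sub_left (f t - a), real_inner_smul_left, hzA, mul_zero, sub_zero]
      rw [this, Real.norm_eq_abs, mul_comm]
      exact abs_real_inner_le_norm _ _
    refine h2.trans_isBigO (Asymptotics.IsBigO.of_bound (2 / ‖A a‖) ?_)
    filter_upwards [h1.def (show 0 < ‖A a‖ / 2 by positivity)] with t ht
    have h3 : ‖t • A a‖ ≤ ‖f t - a‖ + ‖f t - a - t • A a‖ := by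
      simpa [sub_sub_cancel] using norm_sub_le (f t - a) (f t - a - t • A a)
    rw [norm_smul] at h3
    rw [div_mul_eq_mul_div, le_div_iff₀ (norm_pos_iff.2 hAa)]
    nlinarith [norm_nonneg t]
  have h4 : Asymptotics.IsLittleO (𝓝 0) (fun s : ℝ => ⟪γ s - a, z⟫) fun s => γ s - a := by
    simpa [Function.comp_def, hτ] using hl.comp_tendsto hsmall
  have h5 : Asymptotics.IsLittleO (𝓝 0) (fun s : ℝ => ⟪γ s - a, z⟫) fun s => s := by
    refine h4.trans_isBigO ?_
    simpa [h0] using hd.hasFDerivAt.isBigO_sub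
  have h6 : HasDerivAt (fun s : ℝ => ⟪γ s - a, z⟫) ⟪w, z⟫ 0 := by
    simpa [h0] using (hd.sub_const a).inner ℝ (hasDerivAt_const (0 : ℝ) z)
  have h7 : HasDerivAt (fun s : ℝ => ⟪γ s - a, z⟫) 0 0 := by
    rw [hasDerivAt_iff_isLittleO]
    simpa [h0] using h5
  have hwz : ⟪w, z⟫ = 0 := h6.unique h7
  refine ⟨⟪w, A a⟫ / ⟪A a, A a⟫, sub_eq_zero.1 (inner_self_eq_zero (𝕜 := ℝ) (x := z) |>.1 ?_)⟩
  conv_lhs => arg 2; rw [hz]
  rw [inner_sub_left, real_inner_smul_left, hwz, hzA, mul_zero, sub_zero]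

/-- With finitely many closed geodesics, a symmetry group keeps each of them. -/
lemma image_invariant (S : Tube M) (hfin : {s | IsClosedGeodesicImage M s}.Finite) (hX : Skew X)
    (hpX : ∀ t : ℝ, ∀ x ∈ M, exp (t • X) x ∈ M) (hy : S.Geo y) {T : ℝ} (hT : 0 < T)
    (hper : ∀ t, y (t + T) = y t) (hne : (y 0).2 ≠ 0) (s t : ℝ) :
    ∃ u, (y u).1 = exp (s • X) (y t).1 := by
  set O := range fun t => (y t).1 with hO
  have hc : Continuous fun t => (y t).1 := continuous_fst.comp (Tube.Geo.cont S hy)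
  have hOc : IsCompact O := by
    have hp : Function.Periodic (fun t => (y t).1) T := fun t => by simp [hper t]
    exact hp.compact_of_continuous hT.ne' hc
  set F : ℝ → Set E := fun s => (fun x => exp (s • X) x) '' O
  have hFmem : ∀ s, IsClosedGeodesicImage M (F s) := by
    intro s
    have h := Tube.Geo.isImage S (Tube.Geo.map S hy (rot hX s) (rot_image hX hpX s)) hT
      (fun t => by simp [hper t]) (fun h => hne ((rot hX s).map_eq_zero_iff.1 h))
    convert h using 1
    simp [F, O, ← range_comp, Function.comp_def]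
  have hfr : (range F).Finite := hfin.subset (range_subset_iff.2 hFmem)
  have hclosed : ∀ r, IsClosed {s | F s = F r} := by
    intro r
    have e : {s | F s = F r} = (⋂ x ∈ O, {s : ℝ | exp (s • X) x ∈ F r}) ∩
        ⋂ z ∈ F r, {s : ℝ | exp ((-s) • X) z ∈ O} := by
      ext s
      simp only [mem_ofPred_eq, mem_inter_iff, mem_iInter]
      constructor
      · intro h
        refine ⟨fun x hx => h ▸ mem_image_of_mem _ hx, fun z hz => ?_⟩
        rw [← h] at hz
        obtain ⟨x, hx, rfl⟩ := hz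
        rwa [flow_cancel]
      · rintro ⟨h1, h2⟩
        refine Subset.antisymm (image_subset_iff.2 h1) fun z hz => ⟨_, h2 z hz, ?_⟩
        show exp (s • X) (exp ((-s) • X) z) = z
        simpa using flow_cancel X (-s) z
    rw [e]
    refine (isClosed_biInter fun x _ => ?_).inter (isClosed_biInter fun z _ => ?_)
    · exact (hOc.image (exp (r • X)).continuous).isClosed.preimage (continuous_orbit X x)
    · exact hOc.isClosed.preimage ((continuous_orbit X z).comp continuous_neg)
  have hloc : IsLocallyConstant F := by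
    rw [IsLocallyConstant.iff_isOpen_fiber]
    intro S'
    have e : F ⁻¹' {S'} = (⋃ S'' ∈ range F \ {S'}, F ⁻¹' {S''})ᶜ := by
      ext s
      simp only [mem_preimage, mem_singleton_iff, mem_compl_iff, mem_iUnion, exists_prop,
        Set.mem_sdiff, not_exists, not_and, and_imp]
      exact ⟨fun h S'' _ hne hs => hne (hs.symm.trans h),
        fun h => by_contra fun hne => h (F s) ⟨s, rfl⟩ hne rfl⟩
    rw [e]
    refine isOpen_compl_iff.2 (hfr.sdiff.isClosed_biUnion fun S'' hS => ?_)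
    obtain ⟨r, rfl⟩ := hS.1
    exact hclosed r
  have h := hloc.apply_eq_of_preconnectedSpace s 0
  have h0 : F 0 = O := by simp [F]
  have hm : exp (s • X) (y t).1 ∈ O := h0 ▸ h ▸ mem_image_of_mem _ ⟨t, rfl⟩
  exact hm

/-- An orbit inside a countable set is a point. -/
lemma orbit_eq_of_countable (A : E →L[ℝ] E) {z : E}
    (hc : (range fun s : ℝ => exp (s • A) z).Countable) (s : ℝ) : exp (s • A) z = z := by
  by_contra hne
  set d : ℝ → ℝ := fun s => dist (exp (s • A) z) z
  have hd : Continuous d := (continuous_orbit A z).dist continuous_const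
  have hsub : Icc (0 : ℝ) (d s) ⊆ range d := by
    refine (isPreconnected_range hd).Icc_subset ⟨0, ?_⟩ ⟨s, rfl⟩
    simp [d]
  have hcd : (range d).Countable := by
    rw [show range d = (fun w => dist w z) '' range fun s : ℝ => exp (s • A) z by
      rw [← range_comp]; rfl]
    exact hc.image _
  exact absurd (Cardinal.Real.Icc_countable_iff.1 (hcd.mono hsub)) (not_le.2 (dist_pos.2 hne))

/-- Some value of a nonconstant periodic function has finitely many preimages per period and
avoids a given countable set. -/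
lemma exists_good_value {g g' : ℝ → ℝ} (hg : ∀ t, HasDerivAt g (g' t) t) {C : Set ℝ}
    (hC : C.Countable) {u₀ u₁ : ℝ} (hlt : g u₀ < g u₁) {T : ℝ} :
    ∃ v, v ∈ range g ∧ v ∉ C ∧ ({u | g u = v} ∩ Icc 0 T).Finite := by
  have hcont : Continuous g := continuous_iff_continuousAt.2 fun t => (hg t).continuousAt
  have hnull : MeasureTheory.volume (g '' {t | g' t = 0}) = 0 :=
    MeasureTheory.addHaar_image_eq_zero_of_det_fderivWithin_eq_zero MeasureTheory.volume
      (f' := fun t => ContinuousLinearMap.toSpanSingleton ℝ (g' t))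
      (fun t _ => (hg t).hasFDerivAt.hasFDerivWithinAt) fun t (ht : g' t = 0) => by
        simp [ht, ContinuousLinearMap.det]
  have hex : ∃ v ∈ Ioo (g u₀) (g u₁), v ∉ g '' {t | g' t = 0} ∪ C := by
    by_contra hcon
    push Not at hcon
    have h := MeasureTheory.measure_mono (μ := MeasureTheory.volume)
      (show Ioo (g u₀) (g u₁) ⊆ g '' {t | g' t = 0} ∪ C from hcon)
    rw [Real.volume_Ioo, MeasureTheory.measure_union_null hnull (hC.measure_zero _)] at h
    simp at h
    linarith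
  obtain ⟨v, hv, hvn⟩ := hex
  rw [mem_union, not_or] at hvn
  refine ⟨v, (isPreconnected_range hcont).Icc_subset ⟨u₀, rfl⟩ ⟨u₁, rfl⟩ (Ioo_subset_Icc_self hv),
    hvn.2, ?_⟩
  by_contra hinf
  obtain ⟨u, -, hu⟩ := Set.Infinite.exists_accPt_of_subset_isCompact hinf isCompact_Icc
    inter_subset_right
  have hclosed : IsClosed {u | g u = v} := isClosed_eq hcont continuous_const
  have hmem : g u = v := hclosed.closure_subset
    (mem_closure_iff_clusterPt.2 ((hu.clusterPt).mono (principal_mono.2 inter_subset_left)))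
  refine hvn.1 ⟨u, ?_, hmem⟩
  by_contra hne
  have hev := (hg u).eventually_ne hne (c := v)
  have hfr : ∃ᶠ w in 𝓝[≠] u, g w = v :=
    (accPt_iff_frequently_nhdsNE.1 hu).mono fun w hw => hw.1
  exact hfr hev

end Rigid

open Rigid

/-- If an orbit of a circle is a closed geodesic and there are finitely many, every one-parameter
group of symmetries moves along it with constant speed. -/
theorem orbit_tangent (S : Tube M) (hfin : {s | IsClosedGeodesicImage M s}.Finite) (hA : Skew A)
    (hA1 : exp A = 1) (hX : Skew X) (hpX : ∀ t : ℝ, ∀ x ∈ M, exp (t • X) x ∈ M) {x : E}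
    (hAx : A x ≠ 0) (hy : S.Geo fun t => (exp (t • A) x, exp (t • A) (A x))) :
    ∃ κ : ℝ, ∀ t : ℝ, X (exp (t • A) x) = κ • A (exp (t • A) x) := by
  set a : ℝ → E := fun t => exp (t • A) x
  have hAa : ∀ t, A (a t) = exp (t • A) (A x) := fun t => flow_apply_comm (Commute.refl A) t x
  have hnorm : ∀ t, ‖A (a t)‖ = ‖A x‖ := fun t => by rw [hAa]; exact flow_norm hA t _
  have hne : ∀ t, A (a t) ≠ 0 := fun t h => hAx (by
    have := hnorm t
    rw [h, norm_zero] at this
    exact norm_eq_zero.1 this.symm)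
  have hk : ∀ t, ∃ κ : ℝ, X (a t) = κ • A (a t) := by
    intro t
    refine velocity_in_orbit hA1 (hne t) (γ := fun s : ℝ => exp (s • X) (a t)) (by simp)
      (by simpa using hasDerivAt_flow X (a t) 0) fun s => ?_
    obtain ⟨u, hu⟩ := image_invariant S hfin hX hpX hy one_pos
      (fun u => by simp [flow_add, hA1]) (by simpa using hAx) s t
    refine ⟨u - t, ?_⟩
    show exp ((u - t) • A) (exp (t • A) x) = _
    rw [← flow_add, sub_add_cancel]
    exact hu
  choose κ hκ using hk
  have hval : ∀ t, ⟪X (a t), A (a t)⟫ = κ t * ‖A x‖ ^ 2 := fun t => by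
    rw [hκ, real_inner_smul_left, real_inner_self_eq_norm_sq, hnorm]
  have hd : ∀ t, HasDerivAt (fun t => ⟪X (a t), A (a t)⟫) 0 t := by
    intro t
    have h1 := (X.hasFDerivAt).comp_hasDerivAt t (hasDerivAt_flow A x t)
    have h2 := (A.hasFDerivAt).comp_hasDerivAt t (hasDerivAt_flow A x t)
    refine (h1.inner ℝ h2).congr_deriv ?_
    show ⟪X (a t), A (A (a t))⟫ + ⟪X (A (a t)), A (a t)⟫ = 0
    rw [hX.inner_self, hκ, real_inner_smul_left, real_inner_comm, hA.inner_self, mul_zero,
      add_zero]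
  refine ⟨κ 0, fun t => ?_⟩
  have h := is_const_of_deriv_eq_zero (fun u => (hd u).differentiableAt) (fun u => (hd u).deriv) t 0
  rw [hval, hval] at h
  rw [← mul_right_cancel₀ (pow_ne_zero 2 (norm_ne_zero_iff.2 hAx)) h]
  exact hκ t

/-- A closed geodesic leaving a fixed point of an involution in the direction of a reversed vector
is moved by the circle containing the involution. -/
theorem symmetric_geodesic_infinite (S : Tube M) (hA : Skew A)
    (hpA : ∀ t : ℝ, ∀ x ∈ M, exp (t • A) x ∈ M) {c : ℝ}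
    (hy : S.Geo y) {T : ℝ} (hT : 0 < T) (hper : ∀ t, y (t + T) = y t) (hne : (y 0).2 ≠ 0)
    (h0 : exp (c • A) (y 0).1 = (y 0).1) (hv : exp (c • A) (y 0).2 = -(y 0).2) :
    {s | IsClosedGeodesicImage M s}.Infinite := by
  intro hfin
  have hinv := image_invariant S hfin hA hpA hy hT hper hne
  set Z : Set ℝ := {t | exp (c • A) (y t).1 = (y t).1}
  have hmap := Tube.Geo.map S hy (rot hA c) (rot_image hA hpA c)
  have hsep : ∀ t ∈ Z, ∀ᶠ u in 𝓝[≠] t, u ∉ Z := by
    intro t ht
    by_contra hcon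
    have hfr : ∃ᶠ u in 𝓝[≠] t, exp (c • A) (y u).1 - (y u).1 = 0 :=
      (not_eventually.1 hcon).mono fun u hu => sub_eq_zero.2 (not_not.1 hu)
    have hd : HasDerivAt (fun u => exp (c • A) (y u).1 - (y u).1)
        (exp (c • A) (y t).2 - (y t).2) t :=
      (((exp (c • A)).hasFDerivAt).comp_hasDerivAt t (Tube.Geo.d1 S hy t)).sub
        (Tube.Geo.d1 S hy t)
    have he : exp (c • A) (y t).2 - (y t).2 = 0 := by
      by_contra hne'
      exact hfr (hd.eventually_ne hne' (c := 0))
    have hall := congrFun (Tube.Geo.eq_of_eq S hmap hy (t₀ := t)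
      (Prod.ext ht (sub_eq_zero.1 he))) 0
    have h2 : exp (c • A) (y 0).2 = (y 0).2 := congrArg Prod.snd hall
    rw [hv] at h2
    refine hne ((smul_eq_zero.1 (show (2 : ℝ) • (y 0).2 = 0 by
      rw [two_smul, add_eq_zero_iff_eq_neg, h2])).resolve_left two_ne_zero)
  have hZ : Z.Countable := by
    have : DiscreteTopology Z := discreteTopology_subtype_iff.2 fun t ht =>
      Filter.inf_principal_eq_bot.2 (hsep t ht)
    exact Set.countable_coe_iff.1 countable_of_Lindelof_of_discrete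
  set a := (y 0).1
  have ha : ∀ s : ℝ, exp (s • A) a = a := by
    refine orbit_eq_of_countable A ((hZ.image fun t => (y t).1).mono ?_)
    rintro _ ⟨s, rfl⟩
    obtain ⟨u, hu⟩ := hinv s 0
    refine ⟨u, ?_, hu⟩
    show exp (c • A) (y u).1 = (y u).1
    rw [hu, flow_comm_of (Commute.refl A), h0]
  set g : ℝ → ℝ := fun u => ‖(y u).1 - a‖ ^ 2
  have hg : ∀ t, HasDerivAt g (2 * ⟪(y t).1 - a, (y t).2⟫) t := fun t => by
    simpa using ((Tube.Geo.d1 S hy t).sub_const a).norm_sq
  obtain ⟨u₁, hu₁⟩ : ∃ u, (y u).1 ≠ a := by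
    by_contra hcon
    push Not at hcon
    have h := Tube.Geo.d1 S hy 0
    rw [show (fun u => (y u).1) = fun _ => a from funext hcon] at h
    exact hne (h.unique (hasDerivAt_const _ _))
  have hlt : g 0 < g u₁ := by
    have : 0 < ‖(y u₁).1 - a‖ := norm_sub_pos_iff.2 hu₁
    simp only [g, a, sub_self, norm_zero, ne_eq, OfNat.ofNat_ne_zero, not_false_eq_true, zero_pow]
    exact pow_pos this 2
  obtain ⟨v, ⟨u, hu⟩, hvC, hlev⟩ := exists_good_value hg (hZ.image g) hlt (T := T)
  have hfix : ∀ s : ℝ, exp (s • A) (y u).1 = (y u).1 := by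
    refine orbit_eq_of_countable A ((hlev.image fun t => (y t).1).countable.mono ?_)
    rintro _ ⟨s, rfl⟩
    obtain ⟨w, hw⟩ := hinv s u
    have hP : Function.Periodic (fun t => (y t).1) T := fun t => by simp [hper t]
    obtain ⟨w', hw', he⟩ := hP.exists_mem_Ico₀ hT w
    refine ⟨w', ⟨?_, Ico_subset_Icc_self hw'⟩, he.symm.trans hw⟩
    show g w' = v
    simp only [g, ← hu]
    rw [← he, hw]
    conv_lhs => rw [← ha s, ← map_sub, flow_norm hA]
  exact hvC ⟨u, hfix c, hu⟩

/-- The periods of a nontrivial orbit: a multiple of the period is an integer. -/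
theorem exists_int_comb {B : E →L[ℝ] E} (hA1 : exp A = 1) (hB1 : exp B = 1) (hc : Commute A B)
    {x : E} (hAx : A x ≠ 0) {κ : ℝ} (hκ : B x = κ • A x) :
    ∃ m j : ℤ, m ≠ 0 ∧ (m : ℝ) • B x = (j : ℝ) • A x := by
  obtain ⟨p, hp, hper⟩ := period_pos hA1 hAx
  obtain ⟨m, hm⟩ := (hper 1).1 (flow_one hA1 x)
  have hCx : (B - κ • A) x = 0 := by simp [hκ]
  have hcomm : Commute (κ • A) (B - κ • A) :=
    ((hc.smul_left κ).sub_right (Commute.refl _))
  have hexp : exp B = exp (κ • A) * exp (B - κ • A) := by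
    let := NormedAlgebra.restrictScalars ℚ ℝ (E →L[ℝ] E)
    rw [← exp_add_of_commute hcomm, add_sub_cancel]
  have hfix : exp (κ • A) x = x := by
    have h1 : exp B x = x := by rw [hB1]; rfl
    rw [hexp] at h1
    have h2 : exp (B - κ • A) x = x := by simpa using flow_of_apply_eq_zero (B - κ • A) hCx 1
    change exp (κ • A) (exp (B - κ • A) x) = x at h1
    rwa [h2] at h1
  obtain ⟨j, hj⟩ := (hper κ).1 hfix
  refine ⟨m, j, fun h => by simp [h] at hm, ?_⟩
  rw [hκ, smul_smul, ← hj, show (m : ℝ) * ((j : ℝ) * p) = (j : ℝ) * ((m : ℝ) * p) by ring, hm,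
    mul_one]

/-- A circle acting nontrivially on `M` contains an involution of `M` that is not the identity. -/
theorem exists_involution (hA1 : exp A = 1) (h : ∃ x ∈ M, A x ≠ 0) :
    ∃ c : ℝ, (∀ x ∈ M, exp (c • A) (exp (c • A) x) = x) ∧ ∃ x ∈ M, exp (c • A) x ≠ x := by
  obtain ⟨x, hx, hAx⟩ := h
  obtain ⟨p, hp, hper⟩ := period_pos hA1 hAx
  have hex : ∃ n : ℕ, ∃ z ∈ M, exp (((1 : ℝ) / 2 ^ n) • A) z ≠ z := by
    obtain ⟨n, hn⟩ := exists_pow_lt_of_lt_one hp (show (1 : ℝ) / 2 < 1 by norm_num)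
    refine ⟨n, x, hx, fun hfix => ?_⟩
    obtain ⟨k, hk⟩ := (hper _).1 hfix
    rw [div_pow, one_pow, ← hk] at hn
    have hk0 : (0 : ℝ) < (k : ℝ) * p := by rw [hk]; positivity
    have h1 : (0 : ℤ) < k := by exact_mod_cast pos_of_mul_pos_left hk0 hp.le
    have h2 : (1 : ℝ) ≤ k := by exact_mod_cast h1
    nlinarith
  classical
  obtain ⟨n, hn⟩ : ∃ n, n = Nat.find hex := ⟨_, rfl⟩
  obtain ⟨z, hz, hne⟩ := Nat.find_spec hex
  rw [← hn] at hne
  cases n with
  | zero => simp [hA1] at hne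
  | succ k =>
    refine ⟨1 / 2 ^ (k + 1), fun w hw => ?_, z, hz, hne⟩
    rw [← flow_add, show (1 : ℝ) / 2 ^ (k + 1) + 1 / 2 ^ (k + 1) = 1 / 2 ^ k by
      rw [pow_succ]; ring]
    by_contra hcon
    exact Nat.find_min hex (by omega : k < Nat.find hex) ⟨w, hw, hcon⟩

end Vale.Agent.P216
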