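import Vale.Agent.P216.Defs

/-!
Tubular neighbourhoods: the nearest point map, tangent vectors and symmetries.
-/

namespace Vale.Agent.P216

open Metric Set Filter Topology
open scoped RealInnerProductSpace ContDiff

variable {E : Type*} [NormedAddCommGroup E] [InnerProductSpace ℝ E] [FiniteDimensional ℝ E]

/-- The data of a smooth nearest point map. -/
structure Tube (M : Set E) where
  compact : IsCompact M
  ε : ℝ
  pos : 0 < ε
  r : E → E
  smooth : ContDiffOn ℝ ∞ r (thickening ε M)
  mem : ∀ x ∈ thickening ε M, r x ∈ M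
  nearest : ∀ x ∈ thickening ε M, ∀ m ∈ M, m ≠ r x → dist x (r x) < dist x m

omit [FiniteDimensional ℝ E] in
lemma IsClosedSubmanifold.tube {M : Set E} (h : IsClosedSubmanifold M) : Nonempty (Tube M) := by
  obtain ⟨hc, ε, hε, r, hr, h⟩ := h
  exact ⟨⟨hc, ε, hε, r, hr, fun x hx => (h x hx).1, fun x hx => (h x hx).2⟩⟩

namespace Tube

variable {M : Set E} (S : Tube M)

set_option linter.unusedSectionVars false

/-- The neighbourhood. -/
def U : Set E := thickening S.ε M

/-- The differential of the nearest point map. -/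
noncomputable def P (x : E) : E →L[ℝ] E := fderiv ℝ S.r x

/-- Its second differential. -/
noncomputable def D2 (x : E) : E →L[ℝ] E →L[ℝ] E := fderiv ℝ S.P x

lemma isOpen : IsOpen S.U := isOpen_thickening

lemma sub : M ⊆ S.U := self_subset_thickening S.pos M

lemma nhds {x : E} (hx : x ∈ M) : S.U ∈ 𝓝 x := S.isOpen.mem_nhds (S.sub hx)

lemma eq_r {x m : E} (hx : x ∈ S.U) (hm : m ∈ M) (h : dist x m ≤ dist x (S.r x)) : m = S.r x :=
  by_contra fun hne => not_lt.2 h (S.nearest x hx m hm hne)

lemma fix {x : E} (hx : x ∈ M) : S.r x = x :=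
  (S.eq_r (S.sub hx) hx (by simp)).symm

lemma contAt {x : E} (hx : x ∈ S.U) : ContDiffAt ℝ ∞ S.r x :=
  S.smooth.contDiffAt (S.isOpen.mem_nhds hx)

lemma hasP {x : E} (hx : x ∈ S.U) : HasFDerivAt S.r (S.P x) x :=
  ((S.contAt hx).differentiableAt (by simp)).hasFDerivAt

lemma smoothP : ContDiffOn ℝ ∞ S.P S.U := S.smooth.fderiv_of_isOpen S.isOpen (by simp)

lemma hasD2 {x : E} (hx : x ∈ S.U) : HasFDerivAt S.P (S.D2 x) x :=
  ((S.smoothP.contDiffAt (S.isOpen.mem_nhds hx)).differentiableAt (by simp)).hasFDerivAt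

lemma smoothD2 : ContDiffOn ℝ ∞ S.D2 S.U := S.smoothP.fderiv_of_isOpen S.isOpen (by simp)

lemma P_idem {x : E} (hx : x ∈ M) (v : E) : S.P x (S.P x v) = S.P x v := by
  have h1 : HasFDerivAt (S.r ∘ S.r) ((S.P x).comp (S.P x)) x := by
    refine HasFDerivAt.comp x ?_ (S.hasP (S.sub hx))
    rw [S.fix hx]
    exact S.hasP (S.sub hx)
  have h2 : HasFDerivAt (S.r ∘ S.r) (S.P x) x :=
    (S.hasP (S.sub hx)).congr_of_eventuallyEq
      (eventually_of_mem (S.nhds hx) fun y hy => S.fix (S.mem y hy))
  exact DFunLike.congr_fun (h1.unique h2) v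

lemma cone_eq {x v : E} (hx : x ∈ M) : v ∈ tangentConeAt ℝ M x ↔ S.P x v = v := by
  constructor
  · intro hv
    have h1 : HasFDerivWithinAt S.r (S.P x) M x := (S.hasP (S.sub hx)).hasFDerivWithinAt
    have h2 : HasFDerivWithinAt S.r (ContinuousLinearMap.id ℝ E) M x :=
      (hasFDerivWithinAt_id x M).congr (fun y hy => S.fix hy) (S.fix hx)
    exact h1.unique_on h2 hv
  · intro hv
    have h := ((S.hasP (S.sub hx)).hasFDerivWithinAt (s := S.U)).mapsTo_tangent_cone
      (show v ∈ tangentConeAt ℝ S.U x by rw [tangentConeAt_of_mem_nhds (S.nhds hx)]; trivial)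
    rw [hv, S.fix hx] at h
    exact tangentConeAt_mono (image_subset_iff.2 fun y hy => S.mem y hy) h

lemma P_mem {x : E} (hx : x ∈ M) (v : E) : S.P x v ∈ tangentConeAt ℝ M x :=
  (S.cone_eq hx).2 (S.P_idem hx v)

/-- Orthogonality of the nearest point map. -/
lemma normal {x : E} (hx : x ∈ S.U) (v : E) : ⟪x - S.r x, S.P x v⟫ = 0 := by
  have hline : HasDerivAt (fun s : ℝ => x + s • v) v 0 := by
    simpa using ((hasDerivAt_id (0 : ℝ)).smul_const v).const_add x
  have hr : HasDerivAt (fun s : ℝ => S.r (x + s • v)) (S.P x v) 0 :=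
    (show HasFDerivAt S.r (S.P x) ((fun s : ℝ => x + s • v) 0) by simpa using S.hasP hx)
      |>.comp_hasDerivAt 0 hline
  have hd := ((hasDerivAt_const (0 : ℝ) x).sub hr).norm_sq
  simp only [zero_smul, add_zero, Pi.sub_apply, zero_sub, inner_neg_right] at hd
  have hmin : IsLocalMin (fun s : ℝ => ‖x - S.r (x + s • v)‖ ^ 2) 0 := by
    have he : ∀ᶠ s : ℝ in 𝓝 0, x + s • v ∈ S.U :=
      hline.continuousAt.preimage_mem_nhds (by simpa using S.isOpen.mem_nhds hx)
    filter_upwards [he] with s hs
    simp only [zero_smul, add_zero]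
    rw [← dist_eq_norm, ← dist_eq_norm]
    gcongr
    by_contra hlt
    exact (lt_irrefl _) ((lt_of_not_ge hlt).trans_eq
      (by rw [S.eq_r hx (S.mem _ hs) (lt_of_not_ge hlt).le]))
  have := hmin.hasDerivAt_eq_zero hd
  linarith

lemma P_symm {x : E} (hx : x ∈ M) (v w : E) : ⟪S.P x v, w⟫ = ⟪v, S.P x w⟫ := by
  have key : ∀ a b, ⟪a - S.P x a, S.P x b⟫ = 0 := by
    intro a b
    have hline : HasDerivAt (fun s : ℝ => x + s • a) a 0 := by
      simpa using ((hasDerivAt_id (0 : ℝ)).smul_const a).const_add x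
    have h1 : HasDerivAt (fun s : ℝ => S.r (x + s • a)) (S.P x a) 0 :=
      (show HasFDerivAt S.r (S.P x) ((fun s : ℝ => x + s • a) 0) by simpa using S.hasP (S.sub hx))
        |>.comp_hasDerivAt 0 hline
    have h2 : HasDerivAt (fun s : ℝ => S.P (x + s • a) b) (S.D2 x a b) 0 := by
      have h := (show HasFDerivAt S.P (S.D2 x) ((fun s : ℝ => x + s • a) 0) by
        simpa using S.hasD2 (S.sub hx)).comp_hasDerivAt 0 hline
      simpa using h.clm_apply (hasDerivAt_const (0 : ℝ) b)
    have h3 := (hline.sub h1).inner ℝ h2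
    simp only [Pi.sub_apply, zero_smul, add_zero, S.fix hx, sub_self, inner_zero_left,
      zero_add] at h3
    have h4 : HasDerivAt (fun s : ℝ => ⟪x + s • a - S.r (x + s • a), S.P (x + s • a) b⟫) 0 0 :=
      (hasDerivAt_const (0 : ℝ) (0 : ℝ)).congr_of_eventuallyEq
        (eventually_of_mem (hline.continuousAt.preimage_mem_nhds (by simpa using S.nhds hx))
          fun s hs => S.normal hs b)
    exact h3.unique h4
  have h1 := key v w
  have h2 := key w v
  rw [inner_sub_left, sub_eq_zero] at h1 h2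
  rw [h1, real_inner_comm w, h2, real_inner_comm]

lemma normal_iff {x a : E} (hx : x ∈ M) :
    (∀ v ∈ tangentConeAt ℝ M x, ⟪a, v⟫ = 0) ↔ S.P x a = 0 := by
  constructor
  · intro h
    have := h _ (S.P_mem hx a)
    rw [← inner_self_eq_zero (𝕜 := ℝ), ← real_inner_comm, S.P_symm hx, S.P_idem hx, real_inner_comm]
    rw [S.P_symm hx] at *
    simpa [real_inner_comm] using this
  · intro h v hv
    rw [← (S.cone_eq hx).1 hv, ← S.P_symm hx, h, inner_zero_left]

/-- Linear isometries preserving `M` commute with the nearest point map. -/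
lemma r_equivariant (h : E ≃ₗᵢ[ℝ] E) (hM : h '' M = M) {x : E} (hx : x ∈ S.U) :
    h x ∈ S.U ∧ S.r (h x) = h (S.r x) := by
  have hU : h x ∈ S.U := by
    obtain ⟨m, hm, hd⟩ := mem_thickening_iff.1 hx
    exact mem_thickening_iff.2 ⟨h m, hM.subset (mem_image_of_mem h hm), by rwa [h.dist_map]⟩
  refine ⟨hU, (S.eq_r hU (hM.subset (mem_image_of_mem h (S.mem x hx))) ?_).symm⟩
  obtain ⟨m, hm, hme⟩ : S.r (h x) ∈ h '' M := by rw [hM]; exact S.mem _ hU
  rw [h.dist_map, ← hme, h.dist_map]
  rcases eq_or_ne m (S.r x) with rfl | hne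
  · exact le_rfl
  · exact (S.nearest x hx m hm hne).le

lemma P_equivariant (h : E ≃ₗᵢ[ℝ] E) (hM : h '' M = M) {x : E} (hx : x ∈ M) (v : E) :
    S.P (h x) (h v) = h (S.P x v) := by
  have hl : HasFDerivAt (h : E → E) (h.toContinuousLinearEquiv : E →L[ℝ] E) x :=
    (h.toContinuousLinearEquiv : E →L[ℝ] E).hasFDerivAt
  have h1 : HasFDerivAt (S.r ∘ h) ((S.P (h x)).comp (h.toContinuousLinearEquiv : E →L[ℝ] E)) x :=
    (S.hasP (S.r_equivariant h hM (S.sub hx)).1).comp x hl
  have h2 : HasFDerivAt (h ∘ S.r) ((h.toContinuousLinearEquiv : E →L[ℝ] E).comp (S.P x)) x :=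
    ((h.toContinuousLinearEquiv : E →L[ℝ] E).hasFDerivAt).comp x (S.hasP (S.sub hx))
  have h3 := h2.congr_of_eventuallyEq (f₁ := S.r ∘ h)
    (eventually_of_mem (S.nhds hx) fun y hy => (S.r_equivariant h hM hy).2)
  simpa using DFunLike.congr_fun (h1.unique h3) v

include S in
/-- An isometry of order two on `M` has order two on tangent vectors. -/
lemma cone_invol (h : E ≃ₗᵢ[ℝ] E) (hi : ∀ y ∈ M, h (h y) = y) {x v : E} (hx : x ∈ M)
    (hv : v ∈ tangentConeAt ℝ M x) : h (h v) = v := by
  let L : E →L[ℝ] E := (h.trans h).toContinuousLinearEquiv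
  have h2 : HasFDerivAt (L ∘ S.r) (S.P x) x :=
    (S.hasP (S.sub hx)).congr_of_eventuallyEq
      (eventually_of_mem (S.nhds hx) fun y hy => by simpa [L] using hi _ (S.mem y hy))
  have := DFunLike.congr_fun ((L.hasFDerivAt.comp x (S.hasP (S.sub hx))).unique h2) v
  simpa [L, (S.cone_eq hx).1 hv] using this

include S in
/-- The fixed vector of an involution obtained from a tangent vector is tangent. -/
lemma cone_sym (h : E ≃ₗᵢ[ℝ] E) (hM : h '' M = M) {x v : E} (hx : x ∈ M) (hfx : h x = x)
    (hv : v ∈ tangentConeAt ℝ M x) : v + h v ∈ tangentConeAt ℝ M x := by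
  rw [S.cone_eq hx] at hv ⊢
  have := S.P_equivariant h hM hx v
  rw [hfx, hv] at this
  rw [map_add, hv, this]

/-- The nearest point map of a small ball around a point of `M` gives connected neighbourhoods. -/
lemma ball_sub {m : E} (hm : m ∈ M) : ball m S.ε ⊆ S.U :=
  fun _ hy => mem_thickening_iff.2 ⟨m, hm, hy⟩

lemma image_ball_connected {m : E} (hm : m ∈ M) :
    IsPreconnected (S.r '' ball m S.ε) :=
  (convex_ball m S.ε).isPreconnected.image _ (S.smooth.continuousOn.mono (S.ball_sub hm))

/-- A connected component. -/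
noncomputable def component {m₀ : E} (hm₀ : m₀ ∈ M) : Tube (connectedComponentIn M m₀) where
  compact := by
    refine S.compact.of_isClosed_subset ?_ (connectedComponentIn_subset _ _)
    refine isClosed_of_closure_subset ?_
    exact (isPreconnected_connectedComponentIn.closure).subset_connectedComponentIn
      (subset_closure (mem_connectedComponentIn hm₀))
      (closure_minimal (connectedComponentIn_subset _ _) S.compact.isClosed)
  ε := S.ε
  pos := S.pos
  r := S.r
  smooth := S.smooth.mono (thickening_subset_of_subset _ (connectedComponentIn_subset _ _))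
  mem x hx := by
    obtain ⟨m, hm, hd⟩ := mem_thickening_iff.1 hx
    have hmM := connectedComponentIn_subset _ _ hm
    rw [connectedComponentIn_eq hm]
    exact (S.image_ball_connected hmM).subset_connectedComponentIn
      ⟨m, mem_ball_self S.pos, S.fix hmM⟩
      (image_subset_iff.2 fun y hy => S.mem y (S.ball_sub hmM hy)) ⟨x, hd, rfl⟩
  nearest x hx m hm := S.nearest x (thickening_subset_of_subset _
    (connectedComponentIn_subset _ _) hx) m (connectedComponentIn_subset _ _ hm)

include S in
/-- Components are relatively open. -/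
lemma component_open {m₀ a : E} (ha : a ∈ connectedComponentIn M m₀) :
    ∀ᶠ y in 𝓝[M] a, y ∈ connectedComponentIn M m₀ := by
  have haM := connectedComponentIn_subset _ _ ha
  refine eventually_of_mem (inter_mem_nhdsWithin M (ball_mem_nhds a S.pos)) fun y hy => ?_
  rw [connectedComponentIn_eq ha]
  exact (S.image_ball_connected haM).subset_connectedComponentIn
    ⟨a, mem_ball_self S.pos, S.fix haM⟩
    (image_subset_iff.2 fun z hz => S.mem z (S.ball_sub haM hz)) ⟨y, hy.2, S.fix hy.1⟩

lemma proj_mem (h : E ≃ₗᵢ[ℝ] E) {x : E} (hx : x ∈ thickening S.ε (M ∩ {x | h x = x})) :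
    (LinearMap.eqLocus (h.toLinearEquiv : E →ₗ[ℝ] E)
      (LinearMap.id : E →ₗ[ℝ] E)).starProjection x ∈ S.U := by
  obtain ⟨m, hm, hd⟩ := mem_thickening_iff.1 hx
  set W := LinearMap.eqLocus (h.toLinearEquiv : E →ₗ[ℝ] E) (LinearMap.id : E →ₗ[ℝ] E)
  refine mem_thickening_iff.2 ⟨m, hm.1, lt_of_le_of_lt ?_ hd⟩
  have hmW : W.starProjection m = m := Submodule.starProjection_eq_self_iff.2 hm.2
  rw [dist_eq_norm, dist_eq_norm, ← hmW, ← map_sub, hmW]
  exact (W.starProjection.le_of_opNorm_le W.starProjection_norm_le _).trans_eq (one_mul _)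

/-- The fixed points of an isometry. -/
noncomputable def fixed (h : E ≃ₗᵢ[ℝ] E) (hM : h '' M = M) :
    Tube (M ∩ {x | h x = x}) :=
  let W : Submodule ℝ E :=
    LinearMap.eqLocus (h.toLinearEquiv : E →ₗ[ℝ] E) (LinearMap.id : E →ₗ[ℝ] E)
  { compact := S.compact.inter_right (isClosed_eq h.continuous continuous_id)
    ε := S.ε
    pos := S.pos
    r := fun x => S.r (W.starProjection x)
    smooth := by
      exact S.smooth.comp (W.starProjection.contDiff).contDiffOn fun x hx => S.proj_mem h hx
    mem := fun x hx => by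
      have hU : W.starProjection x ∈ S.U := S.proj_mem h hx
      refine ⟨S.mem _ hU, ?_⟩
      have hfix : h (W.starProjection x) = W.starProjection x :=
        (W.starProjection_apply_mem x)
      show h (S.r _) = S.r _
      rw [← (S.r_equivariant h hM hU).2, hfix]
    nearest := fun x hx m hm hne => by
      have hU : W.starProjection x ∈ S.U := S.proj_mem h hx
      have hp := W.starProjection_apply_mem x
      have hrW : S.r (W.starProjection x) ∈ W := by
        show h (S.r _) = S.r _
        rw [← (S.r_equivariant h hM hU).2, show h (W.starProjection x) = _ from hp]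
        rfl
      have hpy : ∀ w ∈ W, dist x w ^ 2 =
          ‖x - W.starProjection x‖ ^ 2 + dist (W.starProjection x) w ^ 2 := fun w hw => by
        have e : x - w = (x - W.starProjection x) + (W.starProjection x - w) := by abel
        rw [dist_eq_norm, dist_eq_norm, e, norm_add_sq_real,
          Submodule.starProjection_inner_eq_zero x _ (W.sub_mem hp hw)]
        ring
      have := S.nearest _ hU m hm.1 hne
      nlinarith [hpy m hm.2, hpy _ hrW, dist_nonneg (x := x) (y := m),
        dist_nonneg (x := x) (y := S.r (W.starProjection x)),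
        dist_nonneg (x := W.starProjection x) (y := S.r (W.starProjection x))] }

end Tube

end Vale.Agent.P216
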