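import Vale.Agent.P216.Main
import Vale.Agent.P216.Cells
import Vale.Agent.P216.NoDeform

/-!
Every circle containing an involution with a fixed point, and every torus of rank two, forces
infinitely many closed geodesics.
-/

namespace Vale.Agent.P216

open Metric Set Filter Topology NormedSpace
open scoped RealInnerProductSpace ContDiff

variable {N : ℕ} {M : Set (Euc N)}

/-- A half turn with a fixed point, moving some point, gives infinitely many closed geodesics. -/
theorem halfturn_infinite (S : Tube M) (hM : IsPreconnected M) {D : Euc N →L[ℝ] Euc N}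
    (hD : Skew D) (hpD : ∀ t : ℝ, ∀ x ∈ M, exp (t • D) x ∈ M) {c : ℝ}
    (hci : ∀ x ∈ M, rot hD c (rot hD c x) = x) {x : Euc N} (hx : x ∈ M) (hxf : rot hD c x = x)
    (hmove : ∃ z ∈ M, rot hD c z ≠ z) : {s | IsClosedGeodesicImage M s}.Infinite := by
  set h := rot hD c with hh
  have hhM : h '' M = M := rot_image hD hpD c
  have hm : x ∈ M ∩ {y | h y = y} := ⟨hx, hxf⟩
  set G := piece M h x
  have hG : FixedPiece M G h :=
    ⟨hhM, hci, ((S.fixed h hhM).component hm).compact.isClosed, piece_subset h x,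
      ⟨x, mem_connectedComponentIn hm⟩, fun _ ha => piece_fixed ha,
      fun _ ha => piece_open S h hhM ha⟩
  have hne : G ≠ M := fun e => by
    obtain ⟨z, hz, hzm⟩ := hmove
    exact hzm (piece_fixed (e.symm ▸ hz : z ∈ G))
  by_cases hseg : S.HasSegment G h
  · obtain ⟨y, hsol, ha, hb, hv0, hv1, hne0⟩ := hseg
    exact segment_infinite S hD hpD h hhM (fun _ _ => rfl) hsol (hG.fixed _ ha) (hG.fixed _ hb)
      hv0 hv1 (Or.inl hne0)
  · obtain ⟨Q, δ, H, hδ, hδε, hQ, hc, hmem, h0, h1⟩ :=
      deform_cells S hM hG.sub hG.nonempty fun Y hY f hf hm he => S.shrink hG hseg hY hf hm he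
    exact (no_deform S hG.closed hG.sub hne hδ hδε hQ hc hmem h0 h1).elim

/-- A circle with a fixed point. -/
theorem circle_infinite (S : Tube M) (hM : IsPreconnected M) {D : Euc N →L[ℝ] Euc N}
    (hD : IsRotation M D) (hne : ∃ x ∈ M, D x ≠ 0) (hzero : ∃ x ∈ M, D x = 0) :
    {s | IsClosedGeodesicImage M s}.Infinite := by
  obtain ⟨c, hci, hmove, hfix⟩ := involution hD hne
  obtain ⟨x, hx, hx0⟩ := hzero
  exact halfturn_infinite S hM (rot_skew hD) hD.2.2 hci hx (hfix x hx0) hmove

/-- A torus of rank two. -/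
theorem torus_infinite (S : Tube M) (hM : IsPreconnected M) {A B : Euc N →L[ℝ] Euc N}
    (hA : IsRotation M A) (hB : IsRotation M B) (hc : Commute A B) (heff : ActsEffectively M A B) :
    {s | IsClosedGeodesicImage M s}.Infinite := by
  intro hfin
  obtain ⟨x, hx, hAx, -⟩ := exists_common_zero hc S hM hA hB heff hfin
  exact circle_infinite S hM hA (by simpa using heff 1 0 (by simp)) ⟨x, hx, hAx⟩ hfin

end Vale.Agent.P216
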